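import Mathlib

/-!
# P101: completely positive contractive order zero maps and the Rørdam–Winter relations
-/

open Matrix

namespace Vale.Agent.P101

/-- (algebraic form of) completely positive contractive order zero maps -/
structure OZ {n : ℕ} {F : Type*} [Ring F] [StarRing F] [Algebra ℂ F]
    (p : Matrix (Fin n) (Fin n) ℂ →ₗ[ℂ] F) : Prop where
  star_map : ∀ a, p (star a) = star (p a)
  mul_map : ∀ a b, p a * p b = p 1 * p (a * b)
  nonneg : ∃ t : F, p 1 = star t * t
  le_one : ∃ t : F, 1 - p 1 = star t * t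

/-- the Rørdam–Winter relations of the dimension drop algebra `I(n+2, n+3)` -/
def RW (n : ℕ) (F : Type*) [Ring F] [StarRing F] [Algebra ℂ F] : Prop :=
  ∃ p : Matrix (Fin (n + 2)) (Fin (n + 2)) ℂ →ₗ[ℂ] F, OZ p ∧ ∃ s : F,
    p (Matrix.single 0 0 1) * s = s ∧ star s * s = 1 - p 1

end Vale.Agent.P101
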