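import Mathlib

/-!
# P101: the dimension drop algebras
-/

open Matrix

namespace Vale.Agent.P101

/-- The dimension drop algebra `I(p, q)`: continuous `f : [0,1] → M_p ⊗ M_q` with
`f 0 ∈ M_p ⊗ 1` and `f 1 ∈ 1 ⊗ M_q`. -/
def DimDrop (p q : ℕ) :
    StarSubalgebra ℂ C(unitInterval, Matrix (Fin p × Fin q) (Fin p × Fin q) ℂ) where
  carrier := {f | (∃ a : Matrix (Fin p) (Fin p) ℂ, f 0 = Matrix.kroneckerMap (· * ·) a 1) ∧
    ∃ b : Matrix (Fin q) (Fin q) ℂ, f 1 = Matrix.kroneckerMap (· * ·) 1 b}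
  mul_mem' := by
    rintro f g ⟨⟨a, ha⟩, b, hb⟩ ⟨⟨a', ha'⟩, b', hb'⟩
    refine ⟨⟨a * a', ?_⟩, b * b', ?_⟩
    · rw [ContinuousMap.mul_apply, ha, ha', ← Matrix.mul_kronecker_mul, one_mul]
    · rw [ContinuousMap.mul_apply, hb, hb', ← Matrix.mul_kronecker_mul, one_mul]
  one_mem' := ⟨⟨1, by simp⟩, 1, by simp⟩
  add_mem' := by
    rintro f g ⟨⟨a, ha⟩, b, hb⟩ ⟨⟨a', ha'⟩, b', hb'⟩
    refine ⟨⟨a + a', ?_⟩, b + b', ?_⟩
    · rw [ContinuousMap.add_apply, ha, ha', ← Matrix.add_kronecker]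
    · rw [ContinuousMap.add_apply, hb, hb', ← Matrix.kronecker_add]
  zero_mem' := ⟨⟨0, by simp⟩, 0, by simp⟩
  algebraMap_mem' := fun r => by
    refine ⟨⟨algebraMap ℂ _ r, ?_⟩, algebraMap ℂ _ r, ?_⟩
    · ext i j
      simp [Matrix.algebraMap_matrix_apply, Matrix.one_apply, Prod.ext_iff]
      aesop
    · ext i j
      simp [Matrix.algebraMap_matrix_apply, Matrix.one_apply, Prod.ext_iff]
      aesop
  star_mem' := by
    rintro f ⟨⟨a, ha⟩, b, hb⟩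
    refine ⟨⟨aᴴ, ?_⟩, bᴴ, ?_⟩
    · rw [ContinuousMap.star_apply, ha, Matrix.star_eq_conjTranspose, Matrix.conjTranspose_kronecker]
      simp
    · rw [ContinuousMap.star_apply, hb, Matrix.star_eq_conjTranspose, Matrix.conjTranspose_kronecker]
      simp

end Vale.Agent.P101
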