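import Mathlib

/-!
# P101: the norm ultrapower and the central sequence algebra

`ℕ →ᵇ A` (bounded functions on the discrete space `ℕ`) is the C*-algebra of norm-bounded sequences
in `A`; `Ultrapower ω A` is its quotient by the sequences whose norms tend to `0` along `ω`;
`CentralSeq ω A` is the relative commutant of `A` (constant sequences) in `Ultrapower ω A`.
-/

open Filter Topology BoundedContinuousFunction

namespace Vale.Agent.P101

universe u

/-- Two bounded sequences are identified if the norms of their differences tend to `0` along `ω`. -/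
def ultraCon (ω : Ultrafilter ℕ) (A : Type u) [CStarAlgebra A] : RingCon (ℕ →ᵇ A) where
  r a b := Tendsto (fun n => ‖a n - b n‖) ω (𝓝 0)
  iseqv := by
    refine ⟨fun a => by simp, fun {a b} h => ?_, fun {a b c} h1 h2 => ?_⟩
    · simpa only [norm_sub_rev] using h
    · refine squeeze_zero (fun n => norm_nonneg _) (fun n => ?_) (by simpa using h1.add h2)
      simpa using norm_sub_le_norm_sub_add_norm_sub (a n) (b n) (c n)
  add' := by
    intro a b c d h1 h2
    refine squeeze_zero (fun n => norm_nonneg _) (fun n => ?_) (by simpa using h1.add h2)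
    have : (a + c) n - (b + d) n = (a n - b n) + (c n - d n) := by
      simp only [BoundedContinuousFunction.coe_add, Pi.add_apply]; abel
    rw [this]
    exact norm_add_le _ _
  mul' := by
    intro a b c d h1 h2
    have h3 : Tendsto (fun n => ‖a n - b n‖ * ‖c‖ + ‖b‖ * ‖c n - d n‖) ω (𝓝 0) := by
      simpa using (h1.mul_const ‖c‖).add (h2.const_mul ‖b‖)
    refine squeeze_zero (fun n => norm_nonneg _) (fun n => ?_) h3
    have : (a * c) n - (b * d) n = (a n - b n) * c n + b n * (c n - d n) := by
      simp only [BoundedContinuousFunction.coe_mul, Pi.mul_apply]; noncomm_ring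
    rw [this]
    refine (norm_add_le _ _).trans (add_le_add ?_ ?_)
    · refine (norm_mul_le _ _).trans (mul_le_mul_of_nonneg_left ?_ (norm_nonneg _))
      exact c.norm_coe_le_norm n
    · refine (norm_mul_le _ _).trans (mul_le_mul_of_nonneg_right ?_ (norm_nonneg _))
      exact b.norm_coe_le_norm n

/-- The norm ultrapower `A_ω = ℓ^∞(ℕ, A) / c_ω(A)` (quotient ring and algebra structures of
Mathlib). -/
abbrev Ultrapower (ω : Ultrafilter ℕ) (A : Type u) [CStarAlgebra A] : Type u :=
  (ultraCon ω A).Quotient

lemma ultraCon_star (ω : Ultrafilter ℕ) {A : Type u} [CStarAlgebra A] (a b : ℕ →ᵇ A)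
    (h : ultraCon ω A a b) : ultraCon ω A (star a) (star b) := by
  change Tendsto _ _ _ at h
  change Tendsto _ _ _
  convert h using 2 with n
  rw [← norm_star]
  simp

/-- the involution of the ultrapower, induced by the pointwise involution -/
noncomputable instance ultraStar (ω : Ultrafilter ℕ) (A : Type u) [CStarAlgebra A] :
    Star (Ultrapower ω A) where
  star := Quotient.map' star (ultraCon_star ω)

lemma mk_surj (ω : Ultrafilter ℕ) (A : Type u) [CStarAlgebra A] (x : Ultrapower ω A) :
    ∃ a : ℕ →ᵇ A, (RingCon.toQuotient a : Ultrapower ω A) = x :=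
  Quotient.inductionOn' x (fun a => ⟨a, rfl⟩)

lemma star_mk (ω : Ultrafilter ℕ) (A : Type u) [CStarAlgebra A] (a : ℕ →ᵇ A) :
    star (RingCon.toQuotient a : Ultrapower ω A) = RingCon.toQuotient (star a) := rfl

noncomputable instance ultraStarRing (ω : Ultrafilter ℕ) (A : Type u) [CStarAlgebra A] :
    StarRing (Ultrapower ω A) where
  star_involutive x := by
    obtain ⟨a, rfl⟩ := mk_surj ω A x
    simp only [star_mk, star_star]
  star_mul x y := by
    obtain ⟨a, rfl⟩ := mk_surj ω A x
    obtain ⟨b, rfl⟩ := mk_surj ω A y
    have h : (RingCon.toQuotient a : Ultrapower ω A) * RingCon.toQuotient b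
      = RingCon.toQuotient (a * b) := rfl
    have h' : (RingCon.toQuotient (star b) : Ultrapower ω A) * RingCon.toQuotient (star a)
      = RingCon.toQuotient (star b * star a) := rfl
    rw [h]
    simp only [star_mk]
    rw [h', star_mul]
  star_add x y := by
    obtain ⟨a, rfl⟩ := mk_surj ω A x
    obtain ⟨b, rfl⟩ := mk_surj ω A y
    have h : (RingCon.toQuotient a : Ultrapower ω A) + RingCon.toQuotient b
      = RingCon.toQuotient (a + b) := rfl
    have h' : (RingCon.toQuotient (star a) : Ultrapower ω A) + RingCon.toQuotient (star b)
      = RingCon.toQuotient (star a + star b) := rfl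
    rw [h]
    simp only [star_mk]
    rw [h', star_add]

instance ultraStarModule (ω : Ultrafilter ℕ) (A : Type u) [CStarAlgebra A] :
    StarModule ℂ (Ultrapower ω A) where
  star_smul c x := by
    obtain ⟨a, rfl⟩ := mk_surj ω A x
    have h : c • (RingCon.toQuotient a : Ultrapower ω A) = RingCon.toQuotient (c • a) := rfl
    have h' : star c • (RingCon.toQuotient (star a) : Ultrapower ω A)
      = RingCon.toQuotient (star c • star a) := rfl
    rw [h]
    simp only [star_mk]
    rw [h', star_smul]

/-- The constant sequence with value `a`, as an element of the ultrapower. -/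
noncomputable def constSeq (ω : Ultrafilter ℕ) {A : Type u} [CStarAlgebra A] (a : A) :
    Ultrapower ω A :=
  RingCon.toQuotient (BoundedContinuousFunction.const ℕ a)

/-- The central sequence algebra `F_ω(A) = A_ω ∩ A'`: the elements of the ultrapower which commute
with all constant sequences, as a star subalgebra. -/
noncomputable def CentralSeq (ω : Ultrafilter ℕ) (A : Type u) [CStarAlgebra A] :
    StarSubalgebra ℂ (Ultrapower ω A) :=
  StarSubalgebra.centralizer ℂ (Set.range (constSeq ω (A := A)))

end Vale.Agent.P101
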