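import Mathlib
import Vale.Agent.P101.UltraDef
import Vale.Agent.P101.Core
import Vale.Agent.P101.DimDropDef

/-!
# P101: module statements.  F is always a unital C*-algebra with enough commuting copies.
-/

open Matrix

namespace Vale.Agent.P101

universe u

/-- `x` generates the ring as a two-sided ideal. -/
def FullEl {R : Type*} [Ring R] (x : R) : Prop :=
  ∃ (n : ℕ) (v w : Fin n → R), ∑ i, v i * x * w i = 1

/-- the commutators with the `a i` generate the unit ideal -/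
def Noncentral {R : Type*} [Ring R] {r : ℕ} (a : Fin r → R) : Prop :=
  ∃ (n : ℕ) (idx : Fin n → Fin r) (b c d : Fin n → R),
    ∑ j, c j * (a (idx j) * b j - b j * a (idx j)) * d j = 1

/-- `r` self-adjoint elements, jointly fully noncentral -/
def NC (r : ℕ) (F : Type*) [Ring F] [StarRing F] : Prop :=
  ∃ a : Fin r → F, (∀ i, IsSelfAdjoint (a i)) ∧ Noncentral a

/-- a partition of unity along a chain of length `m` with full far off-diagonal part -/
structure Chain {R : Type*} [Ring R] (m : ℕ) (f : Fin m → R) : Prop where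
  sum_one : ∑ i, f i = 1
  orth : ∀ i j : Fin m, (i : ℕ) + 2 ≤ j → f i * f j = 0 ∧ f j * f i = 0
  far : ∃ (n : ℕ) (i k : Fin n → Fin m) (v b w : Fin n → R),
    (∀ j, (i j : ℕ) + 12 ≤ k j ∨ (k j : ℕ) + 12 ≤ i j) ∧
      ∑ j, v j * f (i j) * b j * f (k j) * w j = 1

/-- two orthogonal elements with full inner parts -/
def OrthPair (R : Type*) [Ring R] : Prop :=
  ∃ g h g' h' : R, g * h = 0 ∧ h * g = 0 ∧ g * g' = g' ∧ g' * g = g' ∧ h * h' = h' ∧ h' * h = h' ∧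
    FullEl g' ∧ FullEl h'

/-- a full square-zero element -/
def FullNil (R : Type*) [Ring R] : Prop := ∃ X : R, X * X = 0 ∧ FullEl X

/-- order zero map `M_{n+2} → F` with `m` elements living over `e₀₀` whose squares sum to `1` -/
def Q1 (n m : ℕ) (F : Type*) [Ring F] [StarRing F] [Algebra ℂ F] : Prop :=
  ∃ p : Matrix (Fin (n + 2)) (Fin (n + 2)) ℂ →ₗ[ℂ] F, OZ p ∧ ∃ σ : Fin m → F,
    (∀ i, p (Matrix.single 0 0 1) * σ i = σ i) ∧ ∑ i, star (σ i) * σ i = 1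

/-- the same with `∑ σ*σ = 1 - p(1)²` -/
def Q (n m : ℕ) (F : Type*) [Ring F] [StarRing F] [Algebra ℂ F] : Prop :=
  ∃ p : Matrix (Fin (n + 2)) (Fin (n + 2)) ℂ →ₗ[ℂ] F, OZ p ∧ ∃ σ : Fin m → F,
    (∀ i, p (Matrix.single 0 0 1) * σ i = σ i) ∧ ∑ i, star (σ i) * σ i = 1 - p 1 * p 1

/-- every countable subset of `F` has a commuting copy -/
def SelfComm (F : Type u) [CStarAlgebra F] : Prop :=
  ∀ S : Set F, S.Countable → ∃ κ : (StarAlgebra.adjoin ℂ S) →⋆ₐ[ℂ] F,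
    ∀ x y : StarAlgebra.adjoin ℂ S, κ x * (y : F) = (y : F) * κ x

/-- every countable subset of `F` has `K` pairwise commuting copies -/
def HasCopies (F : Type u) [CStarAlgebra F] : Prop :=
  ∀ S : Set F, S.Countable → ∀ K : ℕ, ∃ κ : Fin K → ((StarAlgebra.adjoin ℂ S) →⋆ₐ[ℂ] F),
    ∀ l l', l ≠ l' → ∀ x y, κ l x * κ l' y = κ l' y * κ l x

/-! ## Module statements -/

def S_COPIES : Prop := ∀ (F : Type u) [CStarAlgebra F], SelfComm F → HasCopies F
def S_SLEM : Prop := ∀ (F : Type u) [CStarAlgebra F], HasCopies F → ∀ r, NC (r + 2) F → NC (r + 1) F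
def S_FAR : Prop := ∀ (F : Type u) [CStarAlgebra F], NC 1 F → ∃ (m : ℕ) (f : Fin m → F), Chain m f
def S_PAIRB : Prop := ∀ (F : Type u) [CStarAlgebra F], HasCopies F →
  (∃ (m : ℕ) (f : Fin m → F), Chain m f) → OrthPair F
def S_SEL : Prop := ∀ (F : Type u) [CStarAlgebra F], HasCopies F → OrthPair F → FullNil F
def S_BASE : Prop := ∀ (F : Type u) [CStarAlgebra F], FullNil F → ∃ m, Q1 0 (m + 1) F
def S_TENS : Prop := ∀ (F : Type u) [CStarAlgebra F], HasCopies F →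
  (∃ m, Q1 0 (m + 1) F) → ∀ n, ∃ m, Q1 n (m + 1) F
def S_Q1Q : Prop := ∀ (F : Type u) [CStarAlgebra F], ∀ n m, Q1 n m F → Q n m F
def S_JOIN : Prop := ∀ (F : Type u) [CStarAlgebra F], HasCopies F →
  ∀ n m, Q n (m + 2) F → Q n (m + 1) F
def S_QRW : Prop := ∀ (F : Type u) [CStarAlgebra F], ∀ n, Q n 1 F → RW n F
def S_CHAR : Prop := ∀ (F : Type u) [CStarAlgebra F], IsEmpty (F →⋆ₐ[ℂ] ℂ) → ∃ r, NC (r + 1) F
def S_ULT : Prop := ∀ (A : Type u) [CStarAlgebra A] [TopologicalSpace.SeparableSpace A]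
  (ω : Ultrafilter ℕ), (ω : Filter ℕ) ≤ Filter.cofinite →
  ∃ (F : Type u) (_ : CStarAlgebra F), Nonempty (F ≃⋆ₐ[ℂ] CentralSeq ω A) ∧ SelfComm F
def S_DIM : Prop := ∀ (F : Type u) [CStarAlgebra F], ∀ n, RW n F →
  Nonempty (DimDrop (n + 2) (n + 3) →⋆ₐ[ℂ] F)

end Vale.Agent.P101
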