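import Mathlib
import Vale.Agent.P101.Defs

/-!
# P101 DIM, part A: the algebraic relations (helper10)
-/

open Matrix

namespace Vale.Agent.P101.DIM

universe u

/-- algebraic data: `p` order zero, `w = 1 - p 1 = s* s = g * g`, `g` self-adjoint commuting with
the range of `p`, `g s = 0` and `p e₀₀ s = s`. -/
structure Pre (n : ℕ) (F : Type u) [Ring F] [StarRing F] [Algebra ℂ F] [StarModule ℂ F] where
  p : Matrix (Fin (n + 2)) (Fin (n + 2)) ℂ →ₗ[ℂ] F
  s : F
  g : F
  star_p : ∀ a, p (star a) = star (p a)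
  mul_p : ∀ a b, p a * p b = p 1 * p (a * b)
  ps : p (Matrix.single 0 0 1) * s = s
  ss : star s * s = 1 - p 1
  gg : g * g = 1 - p 1
  g_star : star g = g
  gp : ∀ a, g * p a = p a * g
  gs : g * s = 0

namespace Pre

variable {n : ℕ} {F : Type u} [Ring F] [StarRing F] [Algebra ℂ F] [StarModule ℂ F]
variable (D : Pre n F)

/-- `h = p 1` -/
def h : F := D.p 1

/-- matrix units -/
def e (i j : Fin (n + 2)) : F := D.p (Matrix.single i j 1)

lemma h_star : star D.h = D.h := by
  unfold h; rw [← D.star_p, star_one]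

lemma e_star (i j : Fin (n + 2)) : star (D.e i j) = D.e j i := by
  unfold e
  rw [← D.star_p]
  congr 1
  rw [Matrix.star_eq_conjTranspose, Matrix.conjTranspose_single]
  simp

lemma h_p (a) : D.h * D.p a = D.p a * D.h := by
  unfold h
  rw [D.mul_p a 1, mul_one]

lemma h_e (i j : Fin (n + 2)) : D.h * D.e i j = D.e i j * D.h := D.h_p _

lemma e_mul_same (i j l : Fin (n + 2)) : D.e i j * D.e j l = D.h * D.e i l := by
  unfold e h
  rw [D.mul_p, Matrix.single_mul_single_same, one_mul]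

lemma e_mul_ne (i j k l : Fin (n + 2)) (hjk : j ≠ k) : D.e i j * D.e k l = 0 := by
  unfold e
  rw [D.mul_p, Matrix.single_mul_single_of_ne (h := hjk)]
  simp

lemma e_mul (i j k l : Fin (n + 2)) :
    D.e i j * D.e k l = if j = k then D.h * D.e i l else 0 := by
  by_cases hjk : j = k
  · subst hjk; rw [if_pos rfl, e_mul_same]
  · rw [if_neg hjk, D.e_mul_ne _ _ _ _ hjk]

lemma hs : D.h * D.s = D.s := by
  have h1 := D.ps
  have h2 : D.p (Matrix.single 0 0 1) * D.p (Matrix.single 0 0 1) * D.s = D.s := by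
    rw [mul_assoc, h1, h1]
  rw [D.mul_p, Matrix.single_mul_single_same, one_mul, mul_assoc, h1] at h2
  exact h2

lemma es : D.e 0 0 * D.s = D.s := D.ps

/-- `w = 1 - h` -/
def w : F := 1 - D.h

lemma w_star : star D.w = D.w := by
  unfold w; rw [star_sub, star_one, h_star]

lemma ssw : star D.s * D.s = D.w := D.ss
lemma ggw : D.g * D.g = D.w := D.gg

lemma w_e (i j : Fin (n + 2)) : D.w * D.e i j = D.e i j * D.w := by
  unfold w; rw [sub_mul, mul_sub, one_mul, mul_one, h_e]

lemma w_p (a) : D.w * D.p a = D.p a * D.w := by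
  unfold w; rw [sub_mul, mul_sub, one_mul, mul_one, h_p]

lemma ws : D.w * D.s = 0 := by
  unfold w; rw [sub_mul, one_mul, hs, sub_self]

lemma g_e (i j : Fin (n + 2)) : D.g * D.e i j = D.e i j * D.g := D.gp _

lemma g_h : D.g * D.h = D.h * D.g := D.gp _

lemma g_w : D.g * D.w = D.w * D.g := by
  unfold w; rw [sub_mul, mul_sub, one_mul, mul_one, g_h]

/-- the column elements -/
def Y : Fin (n + 3) → F := Fin.cases D.g (fun a => D.e a 0 * D.s)

@[simp] lemma Y_zero : D.Y 0 = D.g := rfl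
@[simp] lemma Y_succ (a : Fin (n + 2)) : D.Y a.succ = D.e a 0 * D.s := rfl

lemma Y_orth (c d : Fin (n + 3)) : star (D.Y c) * D.Y d = if c = d then D.w else 0 := by
  refine Fin.cases ?_ (fun a => ?_) c
  · refine Fin.cases ?_ (fun b => ?_) d
    · rw [if_pos rfl, Y_zero, D.g_star, ggw]
    · rw [if_neg (Fin.succ_ne_zero b).symm, Y_zero, Y_succ, D.g_star, ← mul_assoc, g_e, mul_assoc,
        D.gs, mul_zero]
  · refine Fin.cases ?_ (fun b => ?_) d
    · rw [if_neg (Fin.succ_ne_zero a), Y_zero, Y_succ, star_mul, e_star, mul_assoc, ← g_e,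
        ← mul_assoc]
      have : star D.s * D.g = 0 := by
        have := congrArg star D.gs
        rwa [star_mul, D.g_star, star_zero] at this
      rw [this, zero_mul]
    · rw [Y_succ, Y_succ, star_mul, e_star, mul_assoc, ← mul_assoc (D.e 0 a)]
      by_cases hab : a = b
      · subst hab
        rw [if_pos rfl, e_mul_same, mul_assoc, es, hs, ssw]
      · rw [if_neg (fun h => hab (Fin.succ_injective _ h)), D.e_mul_ne _ _ _ _ hab]
        simp

/-- the central element -/
def k : F := ∑ c, D.Y c * star (D.Y c)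

lemma k_star : star D.k = D.k := by
  unfold k
  rw [star_sum]
  apply Finset.sum_congr rfl
  intro c _
  rw [star_mul, star_star]

lemma k_Y (c : Fin (n + 3)) : D.k * D.Y c = D.Y c * D.w := by
  unfold k
  rw [Finset.sum_mul]
  simp only [mul_assoc, Y_orth]
  rw [Finset.sum_eq_single c]
  · rw [if_pos rfl]
  · intro b _ hb; rw [if_neg hb, mul_zero]
  · intro h; exact absurd (Finset.mem_univ c) h

lemma Yk (c : Fin (n + 3)) : star (D.Y c) * D.k = D.w * star (D.Y c) := by
  have := congrArg star (D.k_Y c)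
  rwa [star_mul, star_mul, k_star, w_star] at this

lemma k_g : D.k * D.g = D.g * D.w := D.k_Y 0

lemma k_s : D.k * D.s = D.s * D.w := by
  have h1 := D.k_Y (Fin.succ 0)
  rw [Y_succ, es] at h1
  exact h1

/-- explicit form of `k` -/
lemma k_eq : D.k = D.w + ∑ a, D.e a 0 * D.s * star D.s * D.e 0 a := by
  unfold k
  rw [Fin.sum_univ_succ]
  congr 1
  · rw [Y_zero, D.g_star, ggw]
  · apply Finset.sum_congr rfl
    intro a _
    rw [Y_succ, star_mul, e_star]
    noncomm_ring

lemma e_k_left (i j : Fin (n + 2)) :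
    D.e i j * D.k = D.w * D.e i j + D.e i 0 * D.s * star D.s * D.e 0 j := by
  rw [k_eq, mul_add, ← w_e, Finset.mul_sum, Finset.sum_eq_single j]
  · congr 1
    rw [← mul_assoc, ← mul_assoc, ← mul_assoc, e_mul_same]
    rw [show D.h * D.e i 0 * D.s * star D.s * D.e 0 j
      = D.h * D.e i 0 * (D.s * star D.s * D.e 0 j) by noncomm_ring, h_e,
      show D.e i 0 * D.h * (D.s * star D.s * D.e 0 j)
      = D.e i 0 * (D.h * D.s) * star D.s * D.e 0 j by noncomm_ring, hs]
  · intro b _ hb
    rw [← mul_assoc, ← mul_assoc, ← mul_assoc, D.e_mul_ne _ _ _ _ (Ne.symm hb)]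
    simp
  · intro h; exact absurd (Finset.mem_univ j) h

lemma e_k (i j : Fin (n + 2)) : D.e i j * D.k = D.k * D.e i j := by
  have h1 := D.e_k_left i j
  have h2 := congrArg star (D.e_k_left j i)
  rw [star_mul, star_add, star_mul, star_mul, star_mul, star_mul, e_star, e_star, e_star,
    k_star, w_star, star_star] at h2
  rw [h1, h2, w_e]
  noncomm_ring

lemma p_eq_sum (a : Matrix (Fin (n + 2)) (Fin (n + 2)) ℂ) :
    D.p a = ∑ i, ∑ j, a i j • D.e i j := by
  conv_lhs => rw [Matrix.matrix_eq_sum_single a]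
  rw [map_sum]
  apply Finset.sum_congr rfl
  intro i _
  rw [map_sum]
  apply Finset.sum_congr rfl
  intro j _
  unfold e
  rw [← map_smul]
  congr 1
  rw [Matrix.smul_single]
  simp

lemma p_k (a) : D.p a * D.k = D.k * D.p a := by
  rw [p_eq_sum, Finset.sum_mul, Finset.mul_sum]
  apply Finset.sum_congr rfl
  intro i _
  rw [Finset.sum_mul, Finset.mul_sum]
  apply Finset.sum_congr rfl
  intro j _
  rw [smul_mul_assoc, e_k, mul_smul_comm]

lemma h_k : D.h * D.k = D.k * D.h := D.p_k 1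

lemma w_k : D.w * D.k = D.k * D.w := by
  unfold w; rw [sub_mul, mul_sub, one_mul, mul_one, h_k]

lemma k_w : D.k * D.w = D.w * D.w := by
  rw [← ggw, ← mul_assoc, k_g, mul_assoc, ← g_w, ← mul_assoc, ggw]

/-- `c = 1 - k` -/
def c : F := 1 - D.k

lemma c_Y (d : Fin (n + 3)) : D.c * D.Y d = D.Y d * D.h := by
  unfold c
  rw [sub_mul, one_mul, k_Y]
  unfold w
  rw [mul_sub, mul_one]
  abel

/-- `m = 2 - k - h = c + w` -/
def m : F := D.c + D.w

lemma m_h : D.h * D.m = D.c := by
  have h1 : D.h = 1 - D.w := by unfold w; abel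
  have h2 := D.k_w
  have h3 := D.w_k
  unfold m c
  rw [h1]
  have : (1 - D.w) * (1 - D.k + D.w) = 1 - D.k + D.w * D.k - D.w * D.w := by noncomm_ring
  rw [this, h3, h2]
  abel

lemma m_p (a) : D.m * D.p a = D.p a * D.m := by
  unfold m c
  rw [add_mul, mul_add, w_p, sub_mul, mul_sub, one_mul, mul_one, p_k]

lemma m_star : star D.m = D.m := by
  unfold m c
  rw [star_add, star_sub, star_one, k_star, w_star]

/-- the corrected order zero map -/
def P : Matrix (Fin (n + 2)) (Fin (n + 2)) ℂ →ₗ[ℂ] F :=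
  (LinearMap.mulRight ℂ D.m).comp D.p

lemma P_apply (a) : D.P a = D.p a * D.m := rfl

lemma P_one : D.P 1 = D.c := D.m_h

lemma P_star (a) : D.P (star a) = star (D.P a) := by
  rw [P_apply, P_apply, star_mul, m_star, D.star_p]
  rw [← D.star_p, m_p]

lemma P_mul (a b) : D.P a * D.P b = D.c * D.P (a * b) := by
  rw [P_apply, P_apply, P_apply]
  rw [show D.p a * D.m * (D.p b * D.m) = D.p a * (D.m * D.p b) * D.m by noncomm_ring, m_p,
    show D.p a * (D.p b * D.m) * D.m = (D.p a * D.p b) * D.m * D.m by noncomm_ring, D.mul_p]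
  have : D.p 1 * D.p (a * b) * D.m * D.m = (D.h * D.p (a*b)) * D.m * D.m := rfl
  rw [this, h_p, show D.p (a * b) * D.h * D.m * D.m = D.p (a*b) * (D.h * D.m) * D.m by
    noncomm_ring, m_h]
  unfold c
  rw [show D.p (a * b) * (1 - D.k) * D.m = (D.p (a*b) - D.p (a*b) * D.k) * D.m by noncomm_ring,
    p_k]
  noncomm_ring

lemma P_k (a) : D.P a * D.k = D.k * D.P a := by
  rw [P_apply]
  have hm : D.m * D.k = D.k * D.m := by
    unfold m c
    rw [add_mul, mul_add, w_k, sub_mul, mul_sub, one_mul, mul_one]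
  rw [mul_assoc, hm, ← mul_assoc, p_k, mul_assoc]

/-- order zero map of the other end -/
def Psi : Matrix (Fin (n + 3)) (Fin (n + 3)) ℂ →ₗ[ℂ] F :=
  ∑ c, ∑ d, LinearMap.smulRight (Matrix.entryLinearMap ℂ ℂ c d) (D.Y c * star (D.Y d))

lemma Psi_apply (b) : D.Psi b = ∑ c, ∑ d, b c d • (D.Y c * star (D.Y d)) := by
  unfold Psi
  simp [LinearMap.sum_apply]

lemma Psi_one : D.Psi 1 = D.k := by
  rw [Psi_apply]
  unfold k
  apply Finset.sum_congr rfl
  intro c _
  rw [Finset.sum_eq_single c]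
  · simp
  · intro b _ hb; rw [Matrix.one_apply_ne (Ne.symm hb), zero_smul]
  · intro h; exact absurd (Finset.mem_univ c) h

lemma Psi_star (b) : D.Psi (star b) = star (D.Psi b) := by
  rw [Psi_apply, Psi_apply, star_sum, Finset.sum_comm]
  apply Finset.sum_congr rfl
  intro c _
  rw [star_sum]
  apply Finset.sum_congr rfl
  intro d _
  rw [star_smul, star_mul, star_star, Matrix.star_apply]

lemma Psi_Y (b) (d : Fin (n + 3)) : D.Psi b * D.Y d = ∑ c, b c d • (D.k * D.Y c) := by
  rw [Psi_apply, Finset.sum_mul]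
  apply Finset.sum_congr rfl
  intro c _
  rw [Finset.sum_mul, Finset.sum_eq_single d]
  · rw [smul_mul_assoc, mul_assoc, Y_orth, if_pos rfl, k_Y]
  · intro e _ he
    rw [smul_mul_assoc, mul_assoc, Y_orth, if_neg he, mul_zero, smul_zero]
  · intro h; exact absurd (Finset.mem_univ d) h

lemma Psi_mul (a b) : D.Psi a * D.Psi b = D.k * D.Psi (a * b) := by
  rw [D.Psi_apply b, Finset.mul_sum]
  simp only [Finset.mul_sum, mul_smul_comm, ← mul_assoc, Psi_Y, Finset.sum_mul, smul_mul_assoc]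
  rw [D.Psi_apply (a * b)]
  simp only [Finset.mul_sum, mul_smul_comm, Matrix.mul_apply, Finset.sum_smul, Finset.smul_sum,
    smul_smul, ← mul_assoc]
  -- LHS: sum over d, over x, over c
  have : ∀ (f : Fin (n+3) → Fin (n+3) → Fin (n+3) → F),
      ∑ d, ∑ x, ∑ c, f d x c = ∑ c, ∑ x, ∑ d, f d x c := by
    intro f
    rw [Finset.sum_comm]
    rw [show ∑ c, ∑ x, ∑ d, f d x c = ∑ x, ∑ c, ∑ d, f d x c from Finset.sum_comm]
    apply Finset.sum_congr rfl
    intro x _
    rw [Finset.sum_comm]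
  rw [this]
  apply Finset.sum_congr rfl
  intro c _
  apply Finset.sum_congr rfl
  intro x _
  apply Finset.sum_congr rfl
  intro d _
  rw [mul_comm (b d x)]

lemma Psi_k (b) : D.Psi b * D.k = D.k * D.Psi b := by
  rw [Psi_apply, Finset.sum_mul, Finset.mul_sum]
  apply Finset.sum_congr rfl
  intro c _
  rw [Finset.sum_mul, Finset.mul_sum]
  apply Finset.sum_congr rfl
  intro d _
  rw [smul_mul_assoc, mul_smul_comm, mul_assoc, Yk, ← mul_assoc, ← k_Y, mul_assoc]

end Pre

end Vale.Agent.P101.DIM
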