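import Mathlib
import Vale.Agent.P101.DimA

/-!
# P101 DIM, part A2: the interior matrix units (helper10)
-/

open Matrix

namespace Vale.Agent.P101.DIM

universe u

/-- the involution `(i, a+1) ↔ (a, i+1)`, `(i,0) ↦ (i,0)` -/
def swp {n : ℕ} (x : Fin (n + 2) × Fin (n + 3)) : Fin (n + 2) × Fin (n + 3) :=
  Fin.cases (x.1, 0) (fun a => (a, x.1.succ)) x.2

@[simp] lemma swp_zero {n : ℕ} (i : Fin (n + 2)) : swp ((i, 0) : Fin (n + 2) × Fin (n + 3)) = (i, 0) := rfl
@[simp] lemma swp_succ {n : ℕ} (i a : Fin (n + 2)) :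
    swp ((i, a.succ) : Fin (n + 2) × Fin (n + 3)) = (a, i.succ) := rfl

lemma swp_swp {n : ℕ} (x : Fin (n + 2) × Fin (n + 3)) : swp (swp x) = x := by
  obtain ⟨i, c⟩ := x
  refine Fin.cases ?_ (fun a => ?_) c
  · rfl
  · rfl

/-- as an equivalence -/
def swpE (n : ℕ) : (Fin (n + 2) × Fin (n + 3)) ≃ (Fin (n + 2) × Fin (n + 3)) where
  toFun := swp
  invFun := swp
  left_inv := swp_swp
  right_inv := swp_swp

namespace Pre

variable {n : ℕ} {F : Type u} [Ring F] [StarRing F] [Algebra ℂ F] [StarModule ℂ F]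
variable (D : Pre n F)

/-- interior column elements in the second coordinates -/
def Z' (x : Fin (n + 2) × Fin (n + 3)) : F := D.Y x.2 * D.e x.1 0

/-- interior column elements in the first coordinates -/
def Z (x : Fin (n + 2) × Fin (n + 3)) : F := D.Z' (swp x)

lemma Z'_orth (x y : Fin (n + 2) × Fin (n + 3)) :
    star (D.Z' x) * D.Z' y = if x = y then D.w * (D.h * D.e 0 0) else 0 := by
  unfold Z'
  rw [star_mul, e_star, show D.e 0 x.1 * star (D.Y x.2) * (D.Y y.2 * D.e y.1 0)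
    = D.e 0 x.1 * (star (D.Y x.2) * D.Y y.2) * D.e y.1 0 by noncomm_ring, Y_orth]
  by_cases h2 : x.2 = y.2
  · rw [if_pos h2, ← w_e, mul_assoc, e_mul]
    by_cases h1 : x.1 = y.1
    · rw [if_pos h1, if_pos (Prod.ext h1 h2)]
    · rw [if_neg h1, if_neg (fun h => h1 (congrArg Prod.fst h)), mul_zero]
  · rw [if_neg h2, if_neg (fun h => h2 (congrArg Prod.snd h))]
    simp

lemma Z_orth (x y : Fin (n + 2) × Fin (n + 3)) :
    star (D.Z x) * D.Z y = if x = y then D.w * (D.h * D.e 0 0) else 0 := by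
  unfold Z
  rw [Z'_orth]
  by_cases h : x = y
  · subst h; simp
  · rw [if_neg h, if_neg]
    intro h'
    exact h ((swpE n).injective h')

lemma c_h : D.c * D.h = D.h * D.c := by
  unfold c; rw [sub_mul, mul_sub, one_mul, mul_one, h_k]

lemma c_w : D.c * D.w = D.w * D.c := by
  unfold c; rw [sub_mul, mul_sub, one_mul, mul_one, w_k]

lemma c_k : D.c * D.k = D.k * D.c := by
  unfold c; noncomm_ring

lemma c_e (i j) : D.c * D.e i j = D.e i j * D.c := by
  unfold c; rw [sub_mul, mul_sub, one_mul, mul_one, e_k]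

lemma c_star : star D.c = D.c := by
  unfold c; rw [star_sub, star_one, k_star]

/-- `κ = k c²` -/
def kap : F := D.k * (D.c * D.c)

lemma Z'_r (x : Fin (n + 2) × Fin (n + 3)) :
    D.Z' x * (D.w * (D.h * D.e 0 0)) = D.kap * D.Z' x := by
  unfold Z' kap
  have h1 : D.e x.1 0 * (D.w * (D.h * D.e 0 0)) = D.w * (D.h * (D.h * D.e x.1 0)) := by
    rw [← mul_assoc, ← w_e, mul_assoc, ← mul_assoc (D.e x.1 0), ← h_e, mul_assoc (D.h),
      e_mul_same]
  rw [mul_assoc, h1, ← mul_assoc, ← k_Y, mul_assoc (D.k), ← mul_assoc (D.Y x.2), ← c_Y,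
    mul_assoc (D.c), ← mul_assoc (D.Y x.2), ← c_Y]
  noncomm_ring

lemma Z_r (x : Fin (n + 2) × Fin (n + 3)) :
    D.Z x * (D.w * (D.h * D.e 0 0)) = D.kap * D.Z x := D.Z'_r _

lemma k_Z' (x : Fin (n + 2) × Fin (n + 3)) : D.k * D.Z' x = D.Z' x * D.w := by
  unfold Z'
  rw [← mul_assoc, k_Y, mul_assoc, w_e, mul_assoc]

lemma k_Z (x : Fin (n + 2) × Fin (n + 3)) : D.k * D.Z x = D.Z x * D.w := D.k_Z' _

lemma Zk (x : Fin (n + 2) × Fin (n + 3)) : star (D.Z x) * D.k = D.w * star (D.Z x) := by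
  have := congrArg star (D.k_Z x)
  rwa [star_mul, star_mul, k_star, w_star] at this

/-- the interior order zero map -/
def Lam : Matrix (Fin (n + 2) × Fin (n + 3)) (Fin (n + 2) × Fin (n + 3)) ℂ →ₗ[ℂ] F :=
  ∑ x, ∑ y, LinearMap.smulRight (Matrix.entryLinearMap ℂ ℂ x y) (D.Z x * star (D.Z y))

lemma Lam_apply (X) : D.Lam X = ∑ x, ∑ y, X x y • (D.Z x * star (D.Z y)) := by
  unfold Lam
  simp only [LinearMap.sum_apply, LinearMap.smulRight_apply, Matrix.entryLinearMap_apply]

lemma Lam_star (X) : D.Lam (star X) = star (D.Lam X) := by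
  rw [Lam_apply, Lam_apply, star_sum, Finset.sum_comm]
  apply Finset.sum_congr rfl
  intro c _
  rw [star_sum]
  apply Finset.sum_congr rfl
  intro d _
  rw [star_smul, star_mul, star_star, Matrix.star_apply]

lemma Lam_k (X) : D.Lam X * D.k = D.k * D.Lam X := by
  rw [Lam_apply, Finset.sum_mul, Finset.mul_sum]
  apply Finset.sum_congr rfl
  intro c _
  rw [Finset.sum_mul, Finset.mul_sum]
  apply Finset.sum_congr rfl
  intro d _
  rw [smul_mul_assoc, mul_smul_comm, mul_assoc, Zk, ← mul_assoc, ← k_Z, mul_assoc]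

lemma Lam_Z (X) (y) : D.Lam X * D.Z y = ∑ x, X x y • (D.kap * D.Z x) := by
  rw [Lam_apply, Finset.sum_mul]
  apply Finset.sum_congr rfl
  intro x _
  rw [Finset.sum_mul, Finset.sum_eq_single y]
  · rw [smul_mul_assoc, mul_assoc, Z_orth, if_pos rfl, Z_r]
  · intro e _ he
    rw [smul_mul_assoc, mul_assoc, Z_orth, if_neg he, mul_zero, smul_zero]
  · intro h; exact absurd (Finset.mem_univ y) h

/-- general principle: an element acting on the columns by the matrix `A` times `q` -/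
lemma act_Lam (u q : F) (A X : Matrix (Fin (n + 2) × Fin (n + 3)) (Fin (n + 2) × Fin (n + 3)) ℂ)
    (hu : ∀ y, u * D.Z y = ∑ x, A x y • (q * D.Z x)) :
    u * D.Lam X = q * D.Lam (A * X) := by
  rw [D.Lam_apply X, Finset.mul_sum]
  simp only [Finset.mul_sum, mul_smul_comm, ← mul_assoc, hu, Finset.sum_mul, smul_mul_assoc]
  rw [D.Lam_apply (A * X)]
  simp only [Finset.mul_sum, mul_smul_comm, Matrix.mul_apply, Finset.sum_smul, Finset.smul_sum,
    smul_smul, ← mul_assoc]
  have : ∀ (f : (Fin (n + 2) × Fin (n + 3)) → (Fin (n + 2) × Fin (n + 3)) →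
      (Fin (n + 2) × Fin (n + 3)) → F),
      ∑ d, ∑ x, ∑ c, f d x c = ∑ c, ∑ x, ∑ d, f d x c := by
    intro f
    rw [Finset.sum_comm]
    rw [show ∑ c, ∑ x, ∑ d, f d x c = ∑ x, ∑ c, ∑ d, f d x c from Finset.sum_comm]
    apply Finset.sum_congr rfl
    intro x _
    rw [Finset.sum_comm]
  rw [this]
  apply Finset.sum_congr rfl
  intro c _
  apply Finset.sum_congr rfl
  intro x _
  apply Finset.sum_congr rfl
  intro d _
  rw [mul_comm (X d x)]

lemma Lam_mul (X Y) : D.Lam X * D.Lam Y = D.kap * D.Lam (X * Y) :=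
  D.act_Lam _ _ _ _ (D.Lam_Z X)

/-- `α a = a ⊗ 1` -/
abbrev al (a : Matrix (Fin (n + 2)) (Fin (n + 2)) ℂ) :
    Matrix (Fin (n + 2) × Fin (n + 3)) (Fin (n + 2) × Fin (n + 3)) ℂ :=
  Matrix.kroneckerMap (· * ·) a 1

/-- `β b = S (1 ⊗ b) S` -/
abbrev be (b : Matrix (Fin (n + 3)) (Fin (n + 3)) ℂ) :
    Matrix (Fin (n + 2) × Fin (n + 3)) (Fin (n + 2) × Fin (n + 3)) ℂ :=
  (Matrix.kroneckerMap (· * ·) (1 : Matrix (Fin (n + 2)) (Fin (n + 2)) ℂ) b).submatrix swp swp

lemma h_add_w : D.h + D.w = 1 := by unfold w; abel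

lemma wg : D.w * D.g = D.g * D.w := D.g_w.symm

lemma m_Z (x : Fin (n + 2) × Fin (n + 3)) (i : Fin (n + 2)) :
    D.e i x.1 * (D.m * D.Z x) = D.c * D.Z (i, x.2) := by
  obtain ⟨j, c⟩ := x
  refine Fin.cases ?_ (fun a => ?_) c
  · change D.e i j * (D.m * (D.g * D.e j 0)) = D.c * (D.g * D.e i 0)
    have h1 : D.c * D.g = D.g * D.h := D.c_Y 0
    have h2 : D.m * D.g = D.g := by
      unfold m
      rw [add_mul, h1, wg, ← mul_add, h_add_w, mul_one]
    rw [← mul_assoc D.m, h2, ← mul_assoc, ← g_e, mul_assoc, e_mul_same, ← mul_assoc, ← mul_assoc,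
      h1]
  · change D.e i j * (D.m * (D.e j 0 * D.s * D.e a 0)) = D.c * (D.e i 0 * D.s * D.e a 0)
    have h1 : D.w * (D.e j 0 * D.s * D.e a 0) = 0 := by
      rw [mul_assoc (D.e j 0), ← mul_assoc D.w, w_e, mul_assoc, ← mul_assoc D.w, ws]
      simp
    unfold m
    rw [add_mul, h1, add_zero, ← mul_assoc, ← c_e, mul_assoc]
    congr 1
    rw [← mul_assoc, ← mul_assoc, e_mul_same, h_e, mul_assoc (D.e i 0), hs]

lemma P_Z (a) (y : Fin (n + 2) × Fin (n + 3)) :
    D.P a * D.Z y = ∑ x, al a x y • (D.c * D.Z x) := by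
  rw [P_apply, mul_assoc, p_eq_sum, Finset.sum_mul, Fintype.sum_prod_type]
  apply Finset.sum_congr rfl
  intro i _
  rw [Finset.sum_mul]
  rw [Finset.sum_eq_single y.1, Finset.sum_eq_single y.2]
  · rw [smul_mul_assoc, m_Z]
    simp [al]
  · intro b _ hb
    simp [al, Matrix.kroneckerMap_apply, Matrix.one_apply_ne hb]
  · intro h; exact absurd (Finset.mem_univ _) h
  · intro b _ hb
    have : D.e i b * (D.m * D.Z y) = 0 := by
      have h1 : ∃ z, D.Z y = D.e y.1 0 * z ∨ D.Z y = D.g * (D.e y.1 0 * z) := by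
        obtain ⟨j, c⟩ := y
        refine Fin.cases ?_ (fun a => ?_) c
        · exact ⟨1, Or.inr (by rw [mul_one]; rfl)⟩
        · exact ⟨D.s * D.e a 0, Or.inl (by rw [← mul_assoc]; rfl)⟩
      obtain ⟨z, hz | hz⟩ := h1
      · rw [hz, ← mul_assoc, ← mul_assoc, show D.e i b * D.m = D.m * D.e i b from
          (D.m_p (Matrix.single i b 1)).symm, mul_assoc D.m, D.e_mul_ne _ _ _ _ hb]
        simp
      · rw [hz, ← mul_assoc, ← mul_assoc, show D.e i b * D.m = D.m * D.e i b from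
          (D.m_p (Matrix.single i b 1)).symm, mul_assoc D.m, ← g_e, mul_assoc D.m,
          mul_assoc D.g, ← mul_assoc (D.e i b), D.e_mul_ne _ _ _ _ hb]
        simp
    rw [smul_mul_assoc, this, smul_zero]
  · intro h; exact absurd (Finset.mem_univ _) h

lemma P_Lam (a X) : D.P a * D.Lam X = D.c * D.Lam (al a * X) :=
  D.act_Lam _ _ _ _ (D.P_Z a)

lemma Psi_Z (b) (y : Fin (n + 2) × Fin (n + 3)) :
    D.Psi b * D.Z y = ∑ x, be b x y • (D.k * D.Z x) := by
  unfold Z
  rw [← (swpE n).sum_comp (fun x => be b x y • (D.k * D.Z' (swp x)))]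
  have h1 : ∀ x, be b ((swpE n) x) y • (D.k * D.Z' (swp ((swpE n) x)))
      = (Matrix.kroneckerMap (· * ·) (1 : Matrix (Fin (n + 2)) (Fin (n + 2)) ℂ) b) x (swp y) •
        (D.k * D.Z' x) := by
    intro x
    change be b (swp x) y • (D.k * D.Z' (swp (swp x))) = _
    rw [swp_swp]
    simp only [be, Matrix.submatrix_apply, swp_swp]
  rw [Finset.sum_congr rfl (fun x _ => h1 x)]
  generalize swp y = y
  obtain ⟨j, d⟩ := y
  rw [Fintype.sum_prod_type, Finset.sum_eq_single j]
  · unfold Z'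
    rw [← mul_assoc, Psi_Y, Finset.sum_mul]
    apply Finset.sum_congr rfl
    intro c _
    simp only [Matrix.kroneckerMap_apply, Matrix.one_apply_eq, one_mul, smul_mul_assoc, mul_assoc]
  · intro i _ hi
    apply Finset.sum_eq_zero
    intro c _
    simp [Matrix.kroneckerMap_apply, Matrix.one_apply_ne hi]
  · intro h; exact absurd (Finset.mem_univ _) h

lemma Psi_Lam (b X) : D.Psi b * D.Lam X = D.k * D.Lam (be b * X) :=
  D.act_Lam _ _ _ _ (D.Psi_Z b)

lemma sum_ee : ∑ i, D.e i 0 * D.e 0 i = D.h * D.h := by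
  simp only [e_mul_same]
  rw [← Finset.mul_sum]
  congr 1
  unfold e h
  rw [← map_sum]
  congr 1
  ext i j
  rw [Matrix.sum_apply]
  by_cases hij : i = j
  · subst hij
    rw [Finset.sum_eq_single i]
    · simp
    · intro b _ hb; simp [hb]
    · intro h; exact absurd (Finset.mem_univ _) h
  · rw [Matrix.one_apply_ne hij]
    apply Finset.sum_eq_zero
    intro b _
    rw [Matrix.single_apply]
    rw [if_neg]
    rintro ⟨h1, h2⟩
    exact hij (h1.symm.trans h2)

lemma Lam_al_e (i j : Fin (n + 2)) :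
    ∑ c, D.Z (i, c) * star (D.Z (j, c)) = D.k * D.c * (D.e i j * D.m) := by
  rw [Fin.sum_univ_succ]
  have h0 : D.Z (i, 0) * star (D.Z (j, 0)) = D.w * D.h * D.e i j := by
    change D.g * D.e i 0 * star (D.g * D.e j 0) = _
    rw [star_mul, D.g_star, e_star, show D.g * D.e i 0 * (D.e 0 j * D.g)
      = D.g * (D.e i 0 * D.e 0 j) * D.g by noncomm_ring, e_mul_same, mul_assoc, mul_assoc,
      ← g_e, ← mul_assoc D.h, ← g_h, ← mul_assoc, ← mul_assoc, ggw]
  have h1 : ∑ a : Fin (n + 2), D.Z (i, a.succ) * star (D.Z (j, a.succ))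
      = D.c * D.c * (D.e i 0 * D.s * star D.s * D.e 0 j) := by
    have : ∀ a : Fin (n + 2), D.Z (i, a.succ) * star (D.Z (j, a.succ))
        = D.e i 0 * D.s * (D.e a 0 * D.e 0 a) * (star D.s * D.e 0 j) := by
      intro a
      change D.e i 0 * D.s * D.e a 0 * star (D.e j 0 * D.s * D.e a 0) = _
      rw [star_mul, star_mul, e_star, e_star]
      noncomm_ring
    rw [Finset.sum_congr rfl (fun a _ => this a), ← Finset.sum_mul, ← Finset.mul_sum, sum_ee]
    have hcs : D.c * D.s = D.s * D.h := by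
      unfold c
      rw [sub_mul, one_mul, k_s]
      unfold w
      rw [mul_sub, mul_one]
      abel
    rw [show D.e i 0 * D.s * (D.h * D.h) * (star D.s * D.e 0 j)
      = D.e i 0 * (D.s * D.h) * D.h * (star D.s * D.e 0 j) by noncomm_ring, ← hcs,
      show D.e i 0 * (D.c * D.s) * D.h * (star D.s * D.e 0 j)
      = (D.e i 0 * D.c) * (D.s * D.h) * (star D.s * D.e 0 j) by noncomm_ring, ← hcs, ← c_e,
      show D.c * D.e i 0 * (D.c * D.s) * (star D.s * D.e 0 j)
      = D.c * (D.e i 0 * D.c) * D.s * (star D.s * D.e 0 j) by noncomm_ring, ← c_e]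
    noncomm_ring
  rw [h0, h1]
  -- right side
  have hT : (D.e i 0 * D.s * star D.s * D.e 0 j) * D.m
      = D.c * (D.e i 0 * D.s * star D.s * D.e 0 j) := by
    have hsw : star D.s * D.w = 0 := by
      have := congrArg star D.ws
      rwa [star_mul, w_star, star_zero] at this
    have hsc : star D.s * D.c = D.c * star D.s ∨ True := Or.inr trivial
    have hscc : D.s * star D.s * D.c = D.c * (D.s * star D.s) := by
      have hcs : D.c * D.s = D.s * D.h := by
        unfold c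
        rw [sub_mul, one_mul, k_s]
        unfold w
        rw [mul_sub, mul_one]
        abel
      have hsc' : star D.s * D.c = D.h * star D.s := by
        have := congrArg star hcs
        rwa [star_mul, star_mul, c_star, h_star] at this
      rw [mul_assoc, hsc', ← mul_assoc, ← hcs, mul_assoc]
    unfold m
    rw [mul_add]
    have e1 : D.e i 0 * D.s * star D.s * D.e 0 j * D.w = 0 := by
      rw [mul_assoc _ (D.e 0 j), ← w_e, ← mul_assoc, mul_assoc _ (star D.s), hsw]
      simp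
    have e2 : D.e i 0 * D.s * star D.s * D.e 0 j * D.c
        = D.c * (D.e i 0 * D.s * star D.s * D.e 0 j) := by
      rw [mul_assoc _ (D.e 0 j), ← c_e, show D.e i 0 * D.s * star D.s * (D.c * D.e 0 j)
        = D.e i 0 * (D.s * star D.s * D.c) * D.e 0 j by noncomm_ring, hscc,
        show D.e i 0 * (D.c * (D.s * star D.s)) * D.e 0 j
        = (D.e i 0 * D.c) * (D.s * star D.s) * D.e 0 j by noncomm_ring, ← c_e]
      noncomm_ring
    rw [e1, e2, add_zero]
  have hk := D.e_k_left i j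
  have hR : D.k * D.c * (D.e i j * D.m)
      = D.c * ((D.e i j * D.k) * D.m) := by
    rw [e_k, ← c_k]
    noncomm_ring
  have hwm : D.w * D.m = D.w := by
    unfold m
    rw [mul_add, ← c_w]
    unfold c
    rw [sub_mul, one_mul, k_w]
    abel
  have hcw : D.c * D.w = D.w * D.h := by
    unfold c
    rw [sub_mul, one_mul, k_w]
    have : D.h = 1 - D.w := by unfold w; abel
    rw [this, mul_sub, mul_one]
  have hem : D.w * D.e i j * D.m = D.w * D.e i j := by
    rw [mul_assoc, show D.e i j * D.m = D.m * D.e i j from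
      (D.m_p (Matrix.single i j 1)).symm, ← mul_assoc, hwm]
  rw [hR, hk, add_mul, hT, hem, mul_add, ← mul_assoc D.c D.w, hcw, ← mul_assoc D.c D.c]

lemma Lam_al (a) : D.Lam (al a) = D.k * D.c * D.P a := by
  rw [P_apply, p_eq_sum, Finset.sum_mul, Finset.mul_sum, Lam_apply]
  simp only [Fintype.sum_prod_type]
  apply Finset.sum_congr rfl
  intro i _
  rw [Finset.sum_comm' (s := Finset.univ) (t := fun _ => Finset.univ) (s' := fun _ => Finset.univ)
    (t' := Finset.univ) (by simp), Finset.sum_mul, Finset.mul_sum]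
  apply Finset.sum_congr rfl
  intro j _
  rw [smul_mul_assoc, mul_smul_comm, ← Lam_al_e, Finset.smul_sum]
  apply Finset.sum_congr rfl
  intro c _
  rw [Finset.sum_eq_single c]
  · simp [al]
  · intro d _ hd
    simp [al, Matrix.kroneckerMap_apply, Matrix.one_apply_ne (Ne.symm hd)]
  · intro h; exact absurd (Finset.mem_univ _) h

lemma Lam_be (b) : D.Lam (be b) = D.c * D.c * D.Psi b := by
  rw [Psi_apply, Lam_apply]
  rw [← (swpE n).sum_comp (fun x => ∑ y, be b x y • (D.Z x * star (D.Z y)))]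
  have h1 : ∀ x, ∑ y, be b ((swpE n) x) y • (D.Z ((swpE n) x) * star (D.Z y))
      = ∑ y, (Matrix.kroneckerMap (· * ·) (1 : Matrix (Fin (n + 2)) (Fin (n + 2)) ℂ) b) x y •
        (D.Z' x * star (D.Z' y)) := by
    intro x
    rw [← (swpE n).sum_comp (fun y => be b ((swpE n) x) y • (D.Z ((swpE n) x) * star (D.Z y)))]
    apply Finset.sum_congr rfl
    intro y _
    change be b (swp x) (swp y) • (D.Z' (swp (swp x)) * star (D.Z' (swp (swp y)))) = _
    simp only [be, Matrix.submatrix_apply, swp_swp]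
  rw [Finset.sum_congr rfl (fun x _ => h1 x)]
  simp only [Fintype.sum_prod_type, Finset.mul_sum]
  rw [Finset.sum_comm]
  apply Finset.sum_congr rfl
  intro c _
  have h2 : ∀ i, (∑ j, ∑ d, (Matrix.kroneckerMap (· * ·)
        (1 : Matrix (Fin (n + 2)) (Fin (n + 2)) ℂ) b) (i, c) (j, d) •
        (D.Z' (i, c) * star (D.Z' (j, d))))
      = ∑ d, b c d • (D.Z' (i, c) * star (D.Z' (i, d))) := by
    intro i
    rw [Finset.sum_eq_single i]
    · apply Finset.sum_congr rfl
      intro d _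
      simp [Matrix.kroneckerMap_apply]
    · intro j _ hj
      apply Finset.sum_eq_zero
      intro d _
      simp [Matrix.kroneckerMap_apply, Matrix.one_apply_ne (Ne.symm hj)]
    · intro h; exact absurd (Finset.mem_univ _) h
  rw [Finset.sum_congr rfl (fun i _ => h2 i), Finset.sum_comm]
  apply Finset.sum_congr rfl
  intro d _
  rw [mul_smul_comm, ← Finset.smul_sum]
  congr 1
  unfold Z'
  have h3 : ∀ i : Fin (n + 2), D.Y c * D.e i 0 * star (D.Y d * D.e i 0)
      = D.Y c * (D.e i 0 * D.e 0 i) * star (D.Y d) := by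
    intro i
    rw [star_mul, e_star]
    noncomm_ring
  rw [Finset.sum_congr rfl (fun i _ => h3 i), ← Finset.sum_mul, ← Finset.mul_sum, sum_ee,
    ← mul_assoc, ← c_Y, mul_assoc D.c, ← c_Y]
  noncomm_ring

end Pre

end Vale.Agent.P101.DIM
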