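import Mathlib
import Vale.Agent.P101.DimA2

/-!
# P101 DIM, part B: assembling the homomorphism (helper10)
-/

open Matrix

namespace Vale.Agent.P101.DIM

universe u

/-- index set of the fibre -/
abbrev Ix (n : ℕ) := Fin (n + 2) × Fin (n + 3)

/-- fibre algebra -/
abbrev MM (n : ℕ) := Matrix (Ix n) (Ix n) ℂ

/-- entries -/
noncomputable def ent {n : ℕ} (G : C(unitInterval, MM n)) (x y : Ix n) : C(unitInterval, ℂ) :=
  ⟨fun t => G t x y, by
    have := G.continuous
    exact (continuous_apply y).comp ((continuous_apply x).comp this)⟩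

/-- elementary functions -/
noncomputable def pr {n : ℕ} (g : C(unitInterval, ℂ)) (X : MM n) : C(unitInterval, MM n) :=
  ⟨fun t => g t • X, g.continuous.smul continuous_const⟩

/-- multiplication by a scalar function -/
noncomputable def sm {n : ℕ} (g : C(unitInterval, ℂ)) (G : C(unitInterval, MM n)) : C(unitInterval, MM n) :=
  ⟨fun t => g t • G t, g.continuous.smul G.continuous⟩

/-- constant functions -/
noncomputable def cst {n : ℕ} (X : MM n) : C(unitInterval, MM n) := ⟨fun _ => X, continuous_const⟩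

@[simp] lemma ent_apply {n : ℕ} (G : C(unitInterval, MM n)) (x y : Ix n) (t) :
    ent G x y t = G t x y := rfl
@[simp] lemma pr_apply {n : ℕ} (g : C(unitInterval, ℂ)) (X : MM n) (t) : pr g X t = g t • X := rfl
@[simp] lemma sm_apply {n : ℕ} (g : C(unitInterval, ℂ)) (G : C(unitInterval, MM n)) (t) :
    sm g G t = g t • G t := rfl
@[simp] lemma cst_apply {n : ℕ} (X : MM n) (t) : cst X t = X := rfl

lemma decomp {n : ℕ} (G : C(unitInterval, MM n)) :
    G = ∑ x, ∑ y, pr (ent G x y) (Matrix.single x y 1) := by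
  ext t a b
  rw [ContinuousMap.sum_apply]
  simp only [ContinuousMap.sum_apply, pr_apply, ent_apply, Matrix.sum_apply, Matrix.smul_apply,
    Matrix.single_apply, smul_eq_mul]
  rw [Finset.sum_eq_single a, Finset.sum_eq_single b]
  · simp
  · intro y _ hy; simp [hy]
  · intro h; exact absurd (Finset.mem_univ _) h
  · intro x _ hx
    apply Finset.sum_eq_zero
    intro y _
    simp [hx]
  · intro h; exact absurd (Finset.mem_univ _) h

lemma cind {n : ℕ} (p : C(unitInterval, MM n) → Prop) (h0 : p 0)
    (hadd : ∀ G H, p G → p H → p (G + H)) (hpure : ∀ g X, p (pr g X)) : ∀ G, p G := by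
  intro G
  rw [decomp G]
  apply Finset.sum_induction _ p hadd h0
  intro x _
  apply Finset.sum_induction _ p hadd h0
  intro y _
  exact hpure _ _

/-- the coordinate function -/
noncomputable def tt : C(unitInterval, ℂ) := ⟨fun t => ((t : ℝ) : ℂ), by fun_prop⟩

@[simp] lemma tt_apply (t : unitInterval) : tt t = ((t : ℝ) : ℂ) := rfl

/-- all data needed for part B -/
structure BD (n : ℕ) (F : Type u) [Ring F] [StarRing F] [Algebra ℂ F] [StarModule ℂ F] where
  D : Pre n F
  Γ : C(unitInterval, ℂ) →⋆ₐ[ℂ] F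
  Γk : Γ tt = D.k
  comm : ∀ g u, u * D.k = D.k * u → Γ g * u = u * Γ g

namespace BD

variable {n : ℕ} {F : Type u} [Ring F] [StarRing F] [Algebra ℂ F] [StarModule ℂ F]
variable (B : BD n F)

lemma commP (g a) : B.Γ g * B.D.P a = B.D.P a * B.Γ g := B.comm _ _ (B.D.P_k a)
lemma commPsi (g a) : B.Γ g * B.D.Psi a = B.D.Psi a * B.Γ g := B.comm _ _ (B.D.Psi_k a)
lemma commLam (g a) : B.Γ g * B.D.Lam a = B.D.Lam a * B.Γ g := B.comm _ _ (B.D.Lam_k a)

lemma Γc : B.Γ (1 - tt) = B.D.c := by
  rw [map_sub, map_one, B.Γk]; rfl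

/-- the function `κ` -/
noncomputable def kf : C(unitInterval, ℂ) := tt * ((1 - tt) * (1 - tt))

lemma Γkap : B.Γ kf = B.D.kap := by
  unfold kf Pre.kap
  rw [map_mul, map_mul, B.Γc, B.Γk]

/-- extension of `Lam` to functions -/
noncomputable def LG (G : C(unitInterval, MM n)) : F :=
  ∑ x, ∑ y, B.Γ (ent G x y) * B.D.Lam (Matrix.single x y 1)

lemma LG_zero : B.LG 0 = 0 := by
  unfold LG
  apply Finset.sum_eq_zero
  intro x _
  apply Finset.sum_eq_zero
  intro y _
  have : ent (0 : C(unitInterval, MM n)) x y = 0 := by ext t; rfl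
  rw [this, map_zero, zero_mul]

lemma LG_add (G H : C(unitInterval, MM n)) : B.LG (G + H) = B.LG G + B.LG H := by
  unfold LG
  rw [← Finset.sum_add_distrib]
  apply Finset.sum_congr rfl
  intro x _
  rw [← Finset.sum_add_distrib]
  apply Finset.sum_congr rfl
  intro y _
  have : ent (G + H) x y = ent G x y + ent H x y := by ext t; rfl
  rw [this, map_add, add_mul]

lemma LG_smul (r : ℂ) (G : C(unitInterval, MM n)) : B.LG (r • G) = r • B.LG G := by
  unfold LG
  rw [Finset.smul_sum]
  apply Finset.sum_congr rfl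
  intro x _
  rw [Finset.smul_sum]
  apply Finset.sum_congr rfl
  intro y _
  have : ent (r • G) x y = r • ent G x y := by ext t; rfl
  rw [this, map_smul, smul_mul_assoc]

lemma LG_pr (g) (X : MM n) : B.LG (pr g X) = B.Γ g * B.D.Lam X := by
  unfold LG
  conv_rhs => rw [Matrix.matrix_eq_sum_single X]
  rw [map_sum, Finset.mul_sum]
  apply Finset.sum_congr rfl
  intro x _
  rw [map_sum, Finset.mul_sum]
  apply Finset.sum_congr rfl
  intro y _
  have h1 : ent (pr g X) x y = X x y • g := by
    ext t
    simp [mul_comm]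
  have h2 : Matrix.single x y (X x y) = X x y • Matrix.single x y (1 : ℂ) := by
    rw [Matrix.smul_single]; simp
  rw [h1, h2, map_smul, map_smul, smul_mul_assoc, mul_smul_comm]

lemma LG_mul (G H : C(unitInterval, MM n)) : B.LG G * B.LG H = B.D.kap * B.LG (G * H) := by
  revert H
  apply cind (fun G => ∀ H, B.LG G * B.LG H = B.D.kap * B.LG (G * H))
  · intro H; rw [LG_zero, zero_mul, zero_mul, LG_zero, mul_zero]
  · intro G G' h h' H
    rw [LG_add, add_mul, add_mul, LG_add, h, h', mul_add]
  · intro g X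
    apply cind
    · rw [LG_zero, mul_zero, mul_zero, LG_zero, mul_zero]
    · intro G G' h h'
      rw [LG_add, mul_add, mul_add, LG_add, h, h', mul_add]
    · intro g' X'
      have : pr g X * pr g' X' = pr (g * g') (X * X') := by
        ext1 t
        simp only [ContinuousMap.mul_apply, pr_apply, smul_mul_smul_comm]
      rw [this, LG_pr, LG_pr, LG_pr, map_mul]
      have h2 := B.D.Lam_mul X X'
      have h3 := B.commLam g' X
      calc B.Γ g * B.D.Lam X * (B.Γ g' * B.D.Lam X')
          = B.Γ g * (B.D.Lam X * B.Γ g') * B.D.Lam X' := by noncomm_ring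
        _ = B.Γ g * B.Γ g' * (B.D.Lam X * B.D.Lam X') := by rw [← h3]; noncomm_ring
        _ = B.Γ (g * g') * B.Γ kf * B.D.Lam (X * X') := by
            rw [h2, ← map_mul, B.Γkap, mul_assoc]
        _ = B.D.kap * (B.Γ g * B.Γ g' * B.D.Lam (X * X')) := by
            rw [← map_mul, mul_comm, map_mul, B.Γkap, map_mul]
            noncomm_ring

lemma LG_sm (g) (G : C(unitInterval, MM n)) : B.LG (sm g G) = B.Γ g * B.LG G := by
  revert G
  apply cind
  · have : sm g (0 : C(unitInterval, MM n)) = 0 := by ext1 t; simp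
    rw [this, LG_zero, mul_zero]
  · intro G H h h'
    have : sm g (G + H) = sm g G + sm g H := by ext1 t; simp [smul_add]
    rw [this, LG_add, LG_add, h, h', mul_add]
  · intro g' X
    have : sm g (pr g' X) = pr (g * g') X := by ext1 t; simp [mul_smul]
    rw [this, LG_pr, LG_pr, map_mul, mul_assoc]

lemma LG_star (G : C(unitInterval, MM n)) : B.LG (star G) = star (B.LG G) := by
  revert G
  apply cind
  · rw [star_zero, LG_zero, star_zero]
  · intro G H h h'
    rw [star_add, LG_add, LG_add, star_add, h, h']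
  · intro g X
    have : star (pr g X) = pr (star g) (star X) := by
      ext1 t; simp [ContinuousMap.star_apply, star_smul]
    rw [this, LG_pr, LG_pr, star_mul, B.D.Lam_star, map_star, ← B.D.Lam_star, ← map_star,
      commLam]

lemma P_LG (a) (G : C(unitInterval, MM n)) :
    B.D.P a * B.LG G = B.D.c * B.LG (cst (Pre.al a) * G) := by
  revert G
  apply cind
  · rw [LG_zero, mul_zero, mul_zero, LG_zero, mul_zero]
  · intro G H h h'
    rw [LG_add, mul_add, mul_add, LG_add, h, h', mul_add]
  · intro g X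
    have : cst (Pre.al a) * pr g X = pr g (Pre.al a * X) := by
      ext1 t; simp
    rw [this, LG_pr, LG_pr, ← mul_assoc, ← commP, mul_assoc, B.D.P_Lam, ← mul_assoc, ← mul_assoc,
      ← B.Γc, ← map_mul, ← map_mul, mul_comm]

lemma Psi_LG (a) (G : C(unitInterval, MM n)) :
    B.D.Psi a * B.LG G = B.D.k * B.LG (cst (Pre.be a) * G) := by
  revert G
  apply cind
  · rw [LG_zero, mul_zero, mul_zero, LG_zero, mul_zero]
  · intro G H h h'
    rw [LG_add, mul_add, mul_add, LG_add, h, h', mul_add]
  · intro g X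
    have : cst (Pre.be a) * pr g X = pr g (Pre.be a * X) := by
      ext1 t; simp
    rw [this, LG_pr, LG_pr, ← mul_assoc, ← commPsi, mul_assoc, B.D.Psi_Lam, ← mul_assoc,
      ← mul_assoc, ← B.Γk, ← map_mul, ← map_mul, mul_comm]

lemma al_star (a : Matrix (Fin (n + 2)) (Fin (n + 2)) ℂ) :
    star (Pre.al a) = Pre.al (star a) := by
  simp only [Pre.al, Matrix.star_eq_conjTranspose, Matrix.conjTranspose_kronecker,
    Matrix.conjTranspose_one]

lemma be_star (b : Matrix (Fin (n + 3)) (Fin (n + 3)) ℂ) :
    star (Pre.be (n := n) b) = Pre.be (star b) := by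
  simp only [Pre.be, Matrix.star_eq_conjTranspose, Matrix.conjTranspose_submatrix,
    Matrix.conjTranspose_kronecker, Matrix.conjTranspose_one]

lemma LG_P (a) (G : C(unitInterval, MM n)) :
    B.LG G * B.D.P a = B.D.c * B.LG (G * cst (Pre.al a)) := by
  have h := congrArg star (B.P_LG (star a) (star G))
  rw [star_mul, star_mul, ← LG_star, ← LG_star, star_star, ← B.D.P_star, star_star, star_mul,
    star_star] at h
  have h2 : star (cst (Pre.al (n := n) (star a))) = cst (Pre.al a) := by
    ext1 t
    rw [ContinuousMap.star_apply, cst_apply, cst_apply, al_star, star_star]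
  rw [h2, B.D.c_star, ← B.Γc] at h
  rw [h, ← B.Γc]
  generalize G * cst (Pre.al a) = H
  -- commute
  have : B.LG H * B.Γ (1 - tt) = B.Γ (1 - tt) * B.LG H := by
    revert H
    apply cind
    · rw [LG_zero]; simp
    · intro G H h h'
      rw [LG_add, add_mul, mul_add, h, h']
    · intro g X
      rw [LG_pr, mul_assoc, ← commLam, ← mul_assoc, ← map_mul, mul_comm, map_mul, mul_assoc]
  exact this

lemma LG_comm (H : C(unitInterval, MM n)) (g) : B.LG H * B.Γ g = B.Γ g * B.LG H := by
  revert H
  apply cind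
  · rw [LG_zero]; simp
  · intro G H h h'
    rw [LG_add, add_mul, mul_add, h, h']
  · intro g' X
    rw [LG_pr, mul_assoc, ← commLam, ← mul_assoc, ← map_mul, mul_comm, map_mul, mul_assoc]

lemma LG_Psi (a) (G : C(unitInterval, MM n)) :
    B.LG G * B.D.Psi a = B.D.k * B.LG (G * cst (Pre.be a)) := by
  have h := congrArg star (B.Psi_LG (star a) (star G))
  rw [star_mul, star_mul, ← LG_star, ← LG_star, star_star, ← B.D.Psi_star, star_star, star_mul,
    star_star] at h
  have h2 : star (cst (Pre.be (n := n) (star a))) = cst (Pre.be a) := by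
    ext1 t
    rw [ContinuousMap.star_apply, cst_apply, cst_apply, be_star, star_star]
  rw [h2, B.D.k_star, ← B.Γk] at h
  rw [h, ← B.Γk, LG_comm]

end BD

end Vale.Agent.P101.DIM
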