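import Mathlib
import Vale.Agent.P101.DimB

/-!
# P101 DIM, part C: partition of unity, path of unitaries, the homomorphism (helper10)
-/

open Matrix

namespace Vale.Agent.P101.DIM

universe u

/-- reparametrisation -/
noncomputable def th : C(unitInterval, unitInterval) :=
  ⟨fun t => Set.projIcc (0 : ℝ) 1 zero_le_one (3 * (t : ℝ) - 1),
    continuous_projIcc.comp (by fun_prop)⟩

lemma th_left (t : unitInterval) (ht : (t : ℝ) ≤ 1 / 3) : th t = 0 := by
  change Set.projIcc (0 : ℝ) 1 zero_le_one (3 * (t : ℝ) - 1) = 0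
  exact Set.projIcc_of_le_left _ (by linarith)

lemma th_right (t : unitInterval) (ht : 2 / 3 ≤ (t : ℝ)) : th t = 1 := by
  change Set.projIcc (0 : ℝ) 1 zero_le_one (3 * (t : ℝ) - 1) = 1
  exact Set.projIcc_of_right_le _ (by linarith)

noncomputable def y0 : C(unitInterval, ℂ) :=
  ⟨fun t => ((max 0 (1 - 3 * (t : ℝ)) / max (1 - (t : ℝ)) (2 / 3) : ℝ) : ℂ), by
    refine Complex.continuous_ofReal.comp (Continuous.div (by fun_prop) (by fun_prop) ?_)
    intro t
    have : (2 / 3 : ℝ) ≤ max (1 - (t : ℝ)) (2 / 3) := le_max_right _ _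
    intro h
    rw [h] at this; linarith⟩

noncomputable def y1 : C(unitInterval, ℂ) :=
  ⟨fun t => ((max 0 (1 - 9 * (1 - (t : ℝ)) ^ 2) / max (t : ℝ) (2 / 3) : ℝ) : ℂ), by
    refine Complex.continuous_ofReal.comp (Continuous.div (by fun_prop) (by fun_prop) ?_)
    intro t
    have : (2 / 3 : ℝ) ≤ max (t : ℝ) (2 / 3) := le_max_right _ _
    intro h
    rw [h] at this; linarith⟩

noncomputable def yc : C(unitInterval, ℂ) :=
  ⟨fun t => ((1 / (max (t : ℝ) (1 / 3) * (max (1 - (t : ℝ)) (1 / 3)) ^ 2) : ℝ) : ℂ), by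
    refine Complex.continuous_ofReal.comp (Continuous.div (by fun_prop) (by fun_prop) ?_)
    intro t
    have h1 : (0 : ℝ) < max (t : ℝ) (1 / 3) := lt_of_lt_of_le (by norm_num) (le_max_right _ _)
    have h2 : (0 : ℝ) < max (1 - (t : ℝ)) (1 / 3) := lt_of_lt_of_le (by norm_num) (le_max_right _ _)
    positivity⟩

lemma star_y0 : star y0 = y0 := by
  ext t
  rw [ContinuousMap.star_apply]
  exact Complex.conj_ofReal _

lemma star_y1 : star y1 = y1 := by
  ext t
  rw [ContinuousMap.star_apply]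
  exact Complex.conj_ofReal _

lemma star_yc : star yc = yc := by
  ext t
  rw [ContinuousMap.star_apply]
  exact Complex.conj_ofReal _

lemma y0_supp (t : unitInterval) (h : y0 t ≠ 0) : (t : ℝ) ≤ 1 / 3 := by
  by_contra hlt
  push Not at hlt
  apply h
  have h1 : max 0 (1 - 3 * (t : ℝ)) = 0 := max_eq_left (by linarith)
  change ((max 0 (1 - 3 * (t : ℝ)) / max (1 - (t : ℝ)) (2 / 3) : ℝ) : ℂ) = 0
  rw [h1]; simp

lemma y1_supp (t : unitInterval) (h : y1 t ≠ 0) : 2 / 3 ≤ (t : ℝ) := by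
  by_contra hlt
  push Not at hlt
  apply h
  have h1 : max 0 (1 - 9 * (1 - (t : ℝ)) ^ 2) = 0 := max_eq_left (by nlinarith)
  change ((max 0 (1 - 9 * (1 - (t : ℝ)) ^ 2) / max (t : ℝ) (2 / 3) : ℝ) : ℂ) = 0
  rw [h1]; simp

lemma y01 : y0 * y1 = 0 := by
  ext t
  rw [ContinuousMap.mul_apply, ContinuousMap.zero_apply]
  by_cases h : y0 t = 0
  · rw [h, zero_mul]
  · by_cases h' : y1 t = 0
    · rw [h', mul_zero]
    · have := y0_supp t h
      have := y1_supp t h'
      linarith

lemma y_sum : (1 - tt) * y0 + BD.kf * yc + tt * y1 = 1 := by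
  ext t
  obtain ⟨ht0, ht1⟩ := t.2
  have key : (1 - (t : ℝ)) * (max 0 (1 - 3 * (t : ℝ)) / max (1 - (t : ℝ)) (2 / 3))
      + (t : ℝ) * ((1 - (t : ℝ)) * (1 - (t : ℝ))) *
        (1 / (max (t : ℝ) (1 / 3) * (max (1 - (t : ℝ)) (1 / 3)) ^ 2))
      + (t : ℝ) * (max 0 (1 - 9 * (1 - (t : ℝ)) ^ 2) / max (t : ℝ) (2 / 3)) = 1 := by
    generalize (t : ℝ) = r at ht0 ht1
    rcases le_or_gt r (1 / 3) with h1 | h1
    · rw [max_eq_right (by linarith : (0 : ℝ) ≤ 1 - 3 * r),
        max_eq_left (by linarith : (2 / 3 : ℝ) ≤ 1 - r),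
        max_eq_right (by linarith : r ≤ 1 / 3),
        max_eq_left (by linarith : (1 / 3 : ℝ) ≤ 1 - r),
        max_eq_left (by nlinarith : (1 - 9 * (1 - r) ^ 2) ≤ 0)]
      have : (1 - r) ≠ 0 := by linarith
      field_simp
      ring
    · rcases le_or_gt r (2 / 3) with h2 | h2
      · rw [max_eq_left (by linarith : 1 - 3 * r ≤ 0),
          max_eq_left (by linarith : (1 / 3 : ℝ) ≤ r),
          max_eq_left (by linarith : (1 / 3 : ℝ) ≤ 1 - r),
          max_eq_left (by nlinarith : (1 - 9 * (1 - r) ^ 2) ≤ 0)]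
        have h3 : (1 - r) ≠ 0 := by linarith
        have h4 : r ≠ 0 := by linarith
        field_simp
        ring
      · rw [max_eq_left (by linarith : 1 - 3 * r ≤ 0),
          max_eq_left (by linarith : (1 / 3 : ℝ) ≤ r),
          max_eq_right (by linarith : 1 - r ≤ (1 / 3 : ℝ)),
          max_eq_right (by nlinarith : 0 ≤ (1 - 9 * (1 - r) ^ 2)),
          max_eq_left (by linarith : (2 / 3 : ℝ) ≤ r)]
        have h4 : r ≠ 0 := by linarith
        field_simp
        ring
  have := congrArg (fun x : ℝ => (x : ℂ)) key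
  simpa [y0, y1, yc, BD.kf] using this

/-- the permutation matrix of `swp` -/
def Sm (n : ℕ) : MM n := Matrix.of fun x y => if swp x = y then 1 else 0

lemma Sm_mul {n : ℕ} (X : MM n) : Sm n * X = X.submatrix swp id := by
  ext x y
  rw [Matrix.mul_apply, Finset.sum_eq_single (swp x)]
  · simp [Sm]
  · intro b _ hb; simp [Sm, Ne.symm hb]
  · intro h; exact absurd (Finset.mem_univ _) h

lemma mul_Sm {n : ℕ} (X : MM n) : X * Sm n = X.submatrix id swp := by
  ext x y
  rw [Matrix.mul_apply, Finset.sum_eq_single (swp y)]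
  · simp [Sm, swp_swp]
  · intro b _ hb
    have : swp b ≠ y := fun h => hb (by rw [← h, swp_swp])
    simp [Sm, this]
  · intro h; exact absurd (Finset.mem_univ _) h

lemma Sm_Sm (n : ℕ) : Sm n * Sm n = 1 := by
  rw [Sm_mul]
  ext x y
  rw [Matrix.submatrix_apply, id, Matrix.one_apply]
  simp [Sm, swp_swp]

lemma star_Sm (n : ℕ) : star (Sm n) = Sm n := by
  ext x y
  rw [Matrix.star_apply]
  simp only [Sm, Matrix.of_apply]
  by_cases h : swp x = y
  · subst h; simp [swp_swp]
  · have : swp y ≠ x := fun h' => h (by rw [← h', swp_swp])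
    simp [h, this]

/-- the path of unitaries -/
noncomputable def Uf (n : ℕ) : C(unitInterval, MM n) :=
  ⟨fun t => (1 / 2 : ℂ) • (1 + Sm n) +
    (Complex.exp (Real.pi * (t : ℝ) * Complex.I) / 2) • (1 - Sm n), by fun_prop⟩

lemma Uf_zero (n : ℕ) : Uf n 0 = 1 := by
  change (1 / 2 : ℂ) • (1 + Sm n) +
    (Complex.exp (Real.pi * ((0 : unitInterval) : ℝ) * Complex.I) / 2) • (1 - Sm n) = 1
  rw [show ((0 : unitInterval) : ℝ) = 0 from rfl]
  simp only [Complex.ofReal_zero, mul_zero, zero_mul, Complex.exp_zero]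
  module

lemma Uf_one (n : ℕ) : Uf n 1 = Sm n := by
  change (1 / 2 : ℂ) • (1 + Sm n) +
    (Complex.exp (Real.pi * ((1 : unitInterval) : ℝ) * Complex.I) / 2) • (1 - Sm n) = Sm n
  rw [show ((1 : unitInterval) : ℝ) = 1 from rfl]
  simp only [Complex.ofReal_one, mul_one, Complex.exp_pi_mul_I]
  module

lemma Uf_unit (n : ℕ) (t : unitInterval) : star (Uf n t) * Uf n t = 1 := by
  have h : Uf n t = (1 / 2 : ℂ) • (1 + Sm n) +
    (Complex.exp (Real.pi * (t : ℝ) * Complex.I) / 2) • (1 - Sm n) := rfl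
  rw [h]
  set z := Complex.exp (Real.pi * (t : ℝ) * Complex.I) with hz
  have hzz : star z * z = 1 := by
    have : ‖z‖ = 1 := by
      rw [hz]
      have : (Real.pi : ℂ) * ((t : ℝ) : ℂ) * Complex.I = ((Real.pi * (t : ℝ) : ℝ) : ℂ) * Complex.I := by
        push_cast; ring
      rw [this, Complex.norm_exp_ofReal_mul_I]
    have h2 : star z * z = ((‖z‖ ^ 2 : ℝ) : ℂ) := by
      rw [mul_comm]
      exact_mod_cast Complex.mul_conj' z
    rw [h2, this]; simp
  have h3 : (1 + Sm n) * (1 + Sm n) = (2 : ℂ) • (1 + Sm n) := by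
    rw [mul_add, add_mul, add_mul, Sm_Sm]; simp only [one_mul, mul_one]; module
  have h4 : (1 - Sm n) * (1 - Sm n) = (2 : ℂ) • (1 - Sm n) := by
    rw [mul_sub, sub_mul, sub_mul, Sm_Sm]; simp only [one_mul, mul_one]; module
  have h5 : (1 + Sm n) * (1 - Sm n) = 0 := by
    rw [mul_sub, add_mul, add_mul, Sm_Sm]; simp only [one_mul, mul_one]; abel
  have h6 : (1 - Sm n) * (1 + Sm n) = 0 := by
    rw [mul_add, sub_mul, sub_mul, Sm_Sm]; simp only [one_mul, mul_one]; abel
  rw [star_add, star_smul, star_smul, star_add, star_sub, star_one, star_Sm, add_mul, mul_add,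
    mul_add, smul_mul_smul_comm, smul_mul_smul_comm, smul_mul_smul_comm, smul_mul_smul_comm,
    h3, h4, h5, h6]
  have h7 : star (z / 2) * (z / 2) = 1 / 4 := by
    rw [star_div₀]
    have : star (2 : ℂ) = 2 := by simp
    rw [this, div_mul_div_comm, hzz]; norm_num
  have h8 : star (1 / 2 : ℂ) * (1 / 2) = 1 / 4 := by
    have : star (1 / 2 : ℂ) = 1 / 2 := by simp
    rw [this]; norm_num
  rw [h7, h8]
  module

/-- twisting and reparametrising -/
noncomputable def Fth {n : ℕ} (f : C(unitInterval, MM n)) : C(unitInterval, MM n) :=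
  ⟨fun t => Uf n (th t) * f (th t) * star (Uf n (th t)), by
    have h1 : Continuous fun t => Uf n (th t) := (Uf n).continuous.comp th.continuous
    have h2 : Continuous fun t => f (th t) := f.continuous.comp th.continuous
    exact (h1.mul h2).mul h1.star⟩

@[simp] lemma Fth_apply {n : ℕ} (f : C(unitInterval, MM n)) (t) :
    Fth f t = Uf n (th t) * f (th t) * star (Uf n (th t)) := rfl

lemma Fth_mul {n : ℕ} (f g : C(unitInterval, MM n)) : Fth (f * g) = Fth f * Fth g := by
  ext1 t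
  rw [ContinuousMap.mul_apply, Fth_apply, Fth_apply, Fth_apply, ContinuousMap.mul_apply]
  have := Uf_unit n (th t)
  calc Uf n (th t) * (f (th t) * g (th t)) * star (Uf n (th t))
      = Uf n (th t) * f (th t) * 1 * g (th t) * star (Uf n (th t)) := by noncomm_ring
    _ = _ := by rw [← this]; noncomm_ring

lemma Fth_add {n : ℕ} (f g : C(unitInterval, MM n)) : Fth (f + g) = Fth f + Fth g := by
  ext1 t
  rw [ContinuousMap.add_apply, Fth_apply, Fth_apply, Fth_apply, ContinuousMap.add_apply]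
  noncomm_ring

lemma Fth_smul {n : ℕ} (r : ℂ) (f : C(unitInterval, MM n)) : Fth (r • f) = r • Fth f := by
  ext1 t
  rw [ContinuousMap.smul_apply, Fth_apply, Fth_apply, ContinuousMap.smul_apply]
  rw [mul_smul_comm, smul_mul_assoc]

lemma Fth_star {n : ℕ} (f : C(unitInterval, MM n)) : Fth (star f) = star (Fth f) := by
  ext1 t
  rw [ContinuousMap.star_apply, Fth_apply, Fth_apply, ContinuousMap.star_apply, star_mul,
    star_mul, star_star, mul_assoc]

lemma Fth_one {n : ℕ} : Fth (1 : C(unitInterval, MM n)) = 1 := by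
  ext1 t
  rw [Fth_apply, ContinuousMap.one_apply, ContinuousMap.one_apply, mul_one]
  exact mul_eq_one_comm.mp (Uf_unit n (th t))

/-- the end point matrices -/
noncomputable def Aend {n : ℕ} (f : C(unitInterval, MM n)) : Matrix (Fin (n + 2)) (Fin (n + 2)) ℂ :=
  Matrix.of fun i j => f 0 (i, 0) (j, 0)

noncomputable def Bend {n : ℕ} (f : C(unitInterval, MM n)) : Matrix (Fin (n + 3)) (Fin (n + 3)) ℂ :=
  Matrix.of fun c d => f 1 (0, c) (0, d)

/-- membership in the dimension drop algebra, in terms of the extracted end points -/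
def IsDD {n : ℕ} (f : C(unitInterval, MM n)) : Prop :=
  f 0 = Pre.al (Aend f) ∧
    f 1 = Matrix.kroneckerMap (· * ·) (1 : Matrix (Fin (n + 2)) (Fin (n + 2)) ℂ) (Bend f)

lemma isDD_of_mem {n : ℕ} (f : C(unitInterval, MM n)) (hf : f ∈ DimDrop (n + 2) (n + 3)) :
    IsDD f := by
  obtain ⟨⟨a, ha⟩, b, hb⟩ := hf
  constructor
  · have : Aend f = a := by
      ext i j
      simp [Aend, ha]
    rw [this, ha]
  · have : Bend f = b := by
      ext i j
      simp [Bend, hb]
    rw [this, hb]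

lemma Fth_left {n : ℕ} (f : C(unitInterval, MM n)) (hf : IsDD f) (t : unitInterval)
    (ht : (t : ℝ) ≤ 1 / 3) : Fth f t = Pre.al (Aend f) := by
  rw [Fth_apply, th_left t ht, Uf_zero, hf.1]
  simp

lemma Fth_right {n : ℕ} (f : C(unitInterval, MM n)) (hf : IsDD f) (t : unitInterval)
    (ht : 2 / 3 ≤ (t : ℝ)) : Fth f t = Pre.be (Bend f) := by
  rw [Fth_apply, th_right t ht, Uf_one, hf.2, star_Sm, Sm_mul, mul_Sm]
  rfl

lemma Aend_mul {n : ℕ} (f g : C(unitInterval, MM n)) (hf : IsDD f) (hg : IsDD g) :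
    Aend (f * g) = Aend f * Aend g := by
  ext i j
  have h : (f * g) 0 = Pre.al (Aend f) * Pre.al (Aend g) := by
    rw [ContinuousMap.mul_apply, hf.1, hg.1]
  simp only [Aend, Matrix.of_apply]
  rw [h]
  simp only [Pre.al]
  rw [← Matrix.mul_kronecker_mul]
  simp [Aend]

lemma Bend_mul {n : ℕ} (f g : C(unitInterval, MM n)) (hf : IsDD f) (hg : IsDD g) :
    Bend (f * g) = Bend f * Bend g := by
  ext i j
  have h : (f * g) 1 = Matrix.kroneckerMap (· * ·) (1 : Matrix (Fin (n + 2)) (Fin (n + 2)) ℂ)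
      (Bend f) * Matrix.kroneckerMap (· * ·) (1 : Matrix (Fin (n + 2)) (Fin (n + 2)) ℂ)
      (Bend g) := by
    rw [ContinuousMap.mul_apply, hf.2, hg.2]
  simp only [Bend, Matrix.of_apply]
  rw [h]
  rw [← Matrix.mul_kronecker_mul]
  simp [Bend]

namespace BD

variable {n : ℕ} {F : Type u} [Ring F] [StarRing F] [Algebra ℂ F] [StarModule ℂ F]
variable (B : BD n F)

/-- the map -/
noncomputable def rho (f : C(unitInterval, MM n)) : F :=
  B.Γ y0 * B.D.P (Aend f) + B.LG (sm yc (Fth f)) + B.Γ y1 * B.D.Psi (Bend f)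

lemma sm_add_left (g g' : C(unitInterval, ℂ)) (G : C(unitInterval, MM n)) :
    sm (g + g') G = sm g G + sm g' G := by
  ext1 t; simp [add_smul]

lemma rho_eq (f : C(unitInterval, MM n)) (hf : IsDD f) :
    B.rho f = B.Γ (y0 * ((1 - tt) * y0)) * B.D.P (Aend f)
      + B.LG (sm (((1 - tt) * y0 + 1 + tt * y1) * yc) (Fth f))
      + B.Γ (y1 * (tt * y1)) * B.D.Psi (Bend f) := by
  have e0 : B.Γ y0 * B.D.P (Aend f) = B.Γ (y0 * ((1 - tt) * y0)) * B.D.P (Aend f)
      + B.LG (sm (((1 - tt) * y0) * yc) (Fth f)) := by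
    have h1 : y0 = y0 * ((1 - tt) * y0) + (y0 * yc * (1 - tt)) * (tt * (1 - tt)) := by
      have h2 := y_sum
      have h3 := y01
      calc y0 = y0 * ((1 - tt) * y0 + kf * yc + tt * y1) := by rw [h2, mul_one]
        _ = y0 * ((1 - tt) * y0) + y0 * (kf * yc) + tt * (y0 * y1) := by ring
        _ = _ := by rw [h3, mul_zero, add_zero]; unfold kf; ring
    conv_lhs => rw [h1]
    rw [map_add, add_mul]
    congr 1
    rw [map_mul, map_mul (f := B.Γ) tt, B.Γc, B.Γk, mul_assoc, ← B.D.Lam_al, ← LG_pr]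
    congr 1
    ext1 t
    rw [pr_apply, sm_apply]
    by_cases hy : y0 t = 0
    · simp [hy]
    · rw [Fth_left f hf t (y0_supp t hy)]
      congr 1
      simp only [ContinuousMap.mul_apply]
      ring
  have e1 : B.Γ y1 * B.D.Psi (Bend f) = B.Γ (y1 * (tt * y1)) * B.D.Psi (Bend f)
      + B.LG (sm ((tt * y1) * yc) (Fth f)) := by
    have h1 : y1 = y1 * (tt * y1) + (y1 * yc * tt) * ((1 - tt) * (1 - tt)) := by
      have h2 := y_sum
      have h3 := y01
      calc y1 = y1 * ((1 - tt) * y0 + kf * yc + tt * y1) := by rw [h2, mul_one]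
        _ = y1 * (tt * y1) + y1 * (kf * yc) + (1 - tt) * (y0 * y1) := by ring
        _ = _ := by rw [h3, mul_zero, add_zero]; unfold kf; ring
    conv_lhs => rw [h1]
    rw [map_add, add_mul]
    congr 1
    rw [map_mul, map_mul (f := B.Γ) (1 - tt), B.Γc, mul_assoc, ← B.D.Lam_be, ← LG_pr]
    congr 1
    ext1 t
    rw [pr_apply, sm_apply]
    by_cases hy : y1 t = 0
    · simp [hy]
    · rw [Fth_right f hf t (y1_supp t hy)]
      congr 1
      simp only [ContinuousMap.mul_apply]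
      ring
  unfold rho
  rw [e0, e1, add_mul, add_mul, one_mul, sm_add_left, sm_add_left, LG_add, LG_add]
  abel

lemma rho_mul (f g : C(unitInterval, MM n)) (hf : IsDD f) (hg : IsDD g) (hfg : IsDD (f * g)) :
    B.rho (f * g) = B.rho f * B.rho g := by
  rw [B.rho_eq _ hfg, Aend_mul f g hf hg, Bend_mul f g hf hg, Fth_mul]
  unfold rho
  -- the nine products
  have p11 : B.Γ y0 * B.D.P (Aend f) * (B.Γ y0 * B.D.P (Aend g))
      = B.Γ (y0 * ((1 - tt) * y0)) * B.D.P (Aend f * Aend g) := by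
    rw [show B.Γ y0 * B.D.P (Aend f) * (B.Γ y0 * B.D.P (Aend g))
      = B.Γ y0 * (B.D.P (Aend f) * B.Γ y0) * B.D.P (Aend g) by noncomm_ring, ← commP,
      show B.Γ y0 * (B.Γ y0 * B.D.P (Aend f)) * B.D.P (Aend g)
      = B.Γ y0 * B.Γ y0 * (B.D.P (Aend f) * B.D.P (Aend g)) by noncomm_ring, B.D.P_mul,
      ← B.Γc, ← mul_assoc, ← map_mul, ← map_mul]
    congr 2
    ring
  have p33 : B.Γ y1 * B.D.Psi (Bend f) * (B.Γ y1 * B.D.Psi (Bend g))
      = B.Γ (y1 * (tt * y1)) * B.D.Psi (Bend f * Bend g) := by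
    rw [show B.Γ y1 * B.D.Psi (Bend f) * (B.Γ y1 * B.D.Psi (Bend g))
      = B.Γ y1 * (B.D.Psi (Bend f) * B.Γ y1) * B.D.Psi (Bend g) by noncomm_ring, ← commPsi,
      show B.Γ y1 * (B.Γ y1 * B.D.Psi (Bend f)) * B.D.Psi (Bend g)
      = B.Γ y1 * B.Γ y1 * (B.D.Psi (Bend f) * B.D.Psi (Bend g)) by noncomm_ring, B.D.Psi_mul,
      ← B.Γk, ← mul_assoc, ← map_mul, ← map_mul]
    congr 2
    ring
  have p13 : B.Γ y0 * B.D.P (Aend f) * (B.Γ y1 * B.D.Psi (Bend g)) = 0 := by
    rw [show B.Γ y0 * B.D.P (Aend f) * (B.Γ y1 * B.D.Psi (Bend g))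
      = B.Γ y0 * (B.D.P (Aend f) * B.Γ y1) * B.D.Psi (Bend g) by noncomm_ring, ← commP,
      ← mul_assoc, ← map_mul, y01, map_zero, zero_mul, zero_mul]
  have p31 : B.Γ y1 * B.D.Psi (Bend f) * (B.Γ y0 * B.D.P (Aend g)) = 0 := by
    rw [show B.Γ y1 * B.D.Psi (Bend f) * (B.Γ y0 * B.D.P (Aend g))
      = B.Γ y1 * (B.D.Psi (Bend f) * B.Γ y0) * B.D.P (Aend g) by noncomm_ring, ← commPsi,
      ← mul_assoc, ← map_mul, mul_comm y1, y01, map_zero, zero_mul, zero_mul]
  have p22 : B.LG (sm yc (Fth f)) * B.LG (sm yc (Fth g))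
      = B.LG (sm (kf * yc * yc) (Fth f * Fth g)) := by
    rw [LG_mul, ← B.Γkap, ← LG_sm]
    congr 1
    ext1 t
    simp only [sm_apply, ContinuousMap.mul_apply, smul_mul_smul_comm, smul_smul]
    congr 1
    ring
  have p12 : B.Γ y0 * B.D.P (Aend f) * B.LG (sm yc (Fth g))
      = B.LG (sm ((1 - tt) * y0 * yc) (Fth f * Fth g)) := by
    rw [mul_assoc, P_LG, ← B.Γc, ← LG_sm, ← LG_sm]
    congr 1
    ext1 t
    simp only [sm_apply, ContinuousMap.mul_apply, cst_apply, mul_smul_comm, smul_smul]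
    by_cases hy : y0 t = 0
    · simp [hy]
    · rw [Fth_left f hf t (y0_supp t hy)]
      congr 1
      ring
  have p32 : B.Γ y1 * B.D.Psi (Bend f) * B.LG (sm yc (Fth g))
      = B.LG (sm (tt * y1 * yc) (Fth f * Fth g)) := by
    rw [mul_assoc, Psi_LG, ← B.Γk, ← LG_sm, ← LG_sm]
    congr 1
    ext1 t
    simp only [sm_apply, ContinuousMap.mul_apply, cst_apply, mul_smul_comm, smul_smul]
    by_cases hy : y1 t = 0
    · simp [hy]
    · rw [Fth_right f hf t (y1_supp t hy)]
      congr 1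
      ring
  have p21 : B.LG (sm yc (Fth f)) * (B.Γ y0 * B.D.P (Aend g))
      = B.LG (sm ((1 - tt) * y0 * yc) (Fth f * Fth g)) := by
    rw [← mul_assoc, LG_comm, mul_assoc, LG_P, ← B.Γc, ← LG_sm, ← LG_sm]
    congr 1
    ext1 t
    simp only [sm_apply, ContinuousMap.mul_apply, cst_apply, smul_mul_assoc, smul_smul]
    by_cases hy : y0 t = 0
    · simp [hy]
    · rw [Fth_left g hg t (y0_supp t hy)]
      congr 1
      ring
  have p23 : B.LG (sm yc (Fth f)) * (B.Γ y1 * B.D.Psi (Bend g))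
      = B.LG (sm (tt * y1 * yc) (Fth f * Fth g)) := by
    rw [← mul_assoc, LG_comm, mul_assoc, LG_Psi, ← B.Γk, ← LG_sm, ← LG_sm]
    congr 1
    ext1 t
    simp only [sm_apply, ContinuousMap.mul_apply, cst_apply, smul_mul_assoc, smul_smul]
    by_cases hy : y1 t = 0
    · simp [hy]
    · rw [Fth_right g hg t (y1_supp t hy)]
      congr 1
      ring
  have hexp : ∀ a b c a' b' c' : F, (a + b + c) * (a' + b' + c')
      = a * a' + a * b' + a * c' + (b * a' + b * b' + b * c') + (c * a' + c * b' + c * c') := by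
    intro a b c a' b' c'
    noncomm_ring
  rw [hexp, p11, p12, p13, p21, p22, p23, p31, p32, p33]
  have hsum : ((1 - tt) * y0 + 1 + tt * y1) * yc
      = (1 - tt) * y0 * yc + (1 - tt) * y0 * yc + kf * yc * yc + tt * y1 * yc + tt * y1 * yc := by
    have h2 := y_sum
    calc ((1 - tt) * y0 + 1 + tt * y1) * yc
        = ((1 - tt) * y0 + ((1 - tt) * y0 + kf * yc + tt * y1) + tt * y1) * yc := by rw [h2]
      _ = _ := by ring
  rw [hsum, sm_add_left, sm_add_left, sm_add_left, sm_add_left, LG_add, LG_add, LG_add, LG_add]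
  abel

lemma rho_add (f g : C(unitInterval, MM n)) : B.rho (f + g) = B.rho f + B.rho g := by
  unfold rho
  have h1 : Aend (f + g) = Aend f + Aend g := by ext i j; rfl
  have h2 : Bend (f + g) = Bend f + Bend g := by ext i j; rfl
  have h3 : sm yc (Fth f + Fth g) = sm yc (Fth f) + sm yc (Fth g) := by
    ext1 t; simp [smul_add]
  rw [h1, h2, Fth_add, h3, map_add, map_add, LG_add, mul_add, mul_add]
  abel

lemma rho_smul (r : ℂ) (f : C(unitInterval, MM n)) : B.rho (r • f) = r • B.rho f := by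
  unfold rho
  have h1 : Aend (r • f) = r • Aend f := by ext i j; rfl
  have h2 : Bend (r • f) = r • Bend f := by ext i j; rfl
  have h3 : sm yc (r • Fth f) = r • sm yc (Fth f) := by
    ext1 t
    rw [sm_apply, ContinuousMap.smul_apply, ContinuousMap.smul_apply, sm_apply, smul_comm]
  rw [h1, h2, Fth_smul, h3, map_smul, map_smul, LG_smul, smul_add, smul_add, mul_smul_comm,
    mul_smul_comm]

lemma rho_star (f : C(unitInterval, MM n)) : B.rho (star f) = star (B.rho f) := by
  unfold rho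
  have h1 : Aend (star f) = star (Aend f) := by ext i j; rfl
  have h2 : Bend (star f) = star (Bend f) := by ext i j; rfl
  have h3 : sm yc (star (Fth f)) = star (sm yc (Fth f)) := by
    ext1 t
    have : star (yc t) = yc t := congrArg (fun g => g t) star_yc
    rw [sm_apply, ContinuousMap.star_apply, ContinuousMap.star_apply, sm_apply, star_smul, this]
  have h4 : star (B.Γ y0) = B.Γ y0 := by
    rw [← map_star B.Γ, star_y0]
  have h5 : star (B.Γ y1) = B.Γ y1 := by
    rw [← map_star B.Γ, star_y1]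
  rw [h1, h2, Fth_star, h3, LG_star, B.D.P_star, B.D.Psi_star, star_add, star_add, star_mul,
    star_mul, h4, h5, ← B.D.P_star, ← B.D.Psi_star, commP, commPsi]

lemma rho_one : B.rho 1 = 1 := by
  unfold rho
  have h1 : Aend (1 : C(unitInterval, MM n)) = 1 := by
    ext i j
    simp only [Aend, Matrix.of_apply, ContinuousMap.one_apply, Matrix.one_apply, Prod.mk.injEq,
      and_true]
  have h2 : Bend (1 : C(unitInterval, MM n)) = 1 := by
    ext i j
    simp only [Bend, Matrix.of_apply, ContinuousMap.one_apply, Matrix.one_apply, Prod.mk.injEq,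
      true_and]
  have h3 : sm yc (1 : C(unitInterval, MM n)) = pr yc (Pre.al 1) := by
    ext1 t
    simp [Pre.al]
  rw [h1, h2, Fth_one, h3, LG_pr, B.D.Lam_al, B.D.P_one, B.D.Psi_one, ← B.Γk, ← B.Γc, ← map_mul,
    ← map_mul, ← map_mul, ← map_mul, ← map_mul, ← map_add, ← map_add]
  have : y0 * (1 - tt) + yc * (tt * (1 - tt) * (1 - tt)) + y1 * tt = 1 := by
    have h := y_sum
    unfold kf at h
    calc y0 * (1 - tt) + yc * (tt * (1 - tt) * (1 - tt)) + y1 * tt
        = (1 - tt) * y0 + tt * ((1 - tt) * (1 - tt)) * yc + tt * y1 := by ring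
      _ = 1 := h
  rw [this, map_one]

/-- the unital `*`-homomorphism from the dimension drop algebra -/
noncomputable def hom : DimDrop (n + 2) (n + 3) →⋆ₐ[ℂ] F where
  toFun f := B.rho (f : C(unitInterval, MM n))
  map_one' := B.rho_one
  map_mul' f g := B.rho_mul _ _ (isDD_of_mem _ f.2) (isDD_of_mem _ g.2) (isDD_of_mem _ (f * g).2)
  map_zero' := by
    have h := B.rho_smul 0 0
    have e : (0 : ℂ) • (0 : C(unitInterval, MM n)) = 0 := by
      ext t x y
      rw [ContinuousMap.smul_apply, ContinuousMap.zero_apply, smul_zero]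
    rw [e, zero_smul] at h
    exact h
  map_add' f g := B.rho_add _ _
  commutes' r := by
    have h1 : ((algebraMap ℂ (DimDrop (n + 2) (n + 3)) r : DimDrop (n + 2) (n + 3)) :
        C(unitInterval, MM n)) = r • 1 := by
      rw [← Algebra.algebraMap_eq_smul_one]; rfl
    rw [h1, rho_smul, rho_one, ← Algebra.algebraMap_eq_smul_one]
  map_star' f := B.rho_star _

end BD

end Vale.Agent.P101.DIM
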