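import Mathlib
import Vale.Agent.P101.DimC

/-!
# P101 DIM: the Rørdam–Winter relations give a unital `*`-homomorphism of `I(n+2, n+3)` (helper10)
-/

open Matrix

namespace Vale.Agent.P101

universe u

open scoped ComplexOrder in
theorem dim : S_DIM.{u} := by
  rintro F _ n ⟨p, hp, s, hps, hss⟩
  letI : PartialOrder F := CStarAlgebra.spectralOrder F
  haveI : StarOrderedRing F := CStarAlgebra.spectralOrderedRing F
  have hw : (0 : F) ≤ star s * s := star_mul_self_nonneg s
  have hgg : CFC.sqrt (star s * s) * CFC.sqrt (star s * s) = 1 - p 1 := by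
    rw [CFC.sqrt_mul_sqrt_self _ hw, hss]
  have hgsa : star (CFC.sqrt (star s * s)) = CFC.sqrt (star s * s) :=
    (IsSelfAdjoint.of_nonneg (CFC.sqrt_nonneg _)).star_eq
  have hcomm : ∀ a, Commute (star s * s) (p a) := by
    intro a
    rw [hss]
    have h1 : p 1 * p a = p a * p 1 := by
      rw [hp.mul_map a 1, mul_one]
    change (1 - p 1) * p a = p a * (1 - p 1)
    rw [sub_mul, mul_sub, h1, one_mul, mul_one]
  have hgp : ∀ a, CFC.sqrt (star s * s) * p a = p a * CFC.sqrt (star s * s) := by
    intro a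
    exact ((hcomm a).cfcₙ_nnreal NNReal.sqrt).eq
  have hhs : p 1 * s = s := by
    have h2 : p (Matrix.single 0 0 1) * p (Matrix.single 0 0 1) * s = s := by
      rw [mul_assoc, hps, hps]
    rw [hp.mul_map, Matrix.single_mul_single_same, one_mul, mul_assoc, hps] at h2
    exact h2
  have hgs : CFC.sqrt (star s * s) * s = 0 := by
    rw [← CStarRing.star_mul_self_eq_zero_iff, star_mul, hgsa,
      show star s * CFC.sqrt (star s * s) * (CFC.sqrt (star s * s) * s)
        = star s * ((CFC.sqrt (star s * s) * CFC.sqrt (star s * s)) * s) by noncomm_ring, hgg,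
      sub_mul, one_mul, hhs, sub_self, mul_zero]
  let D : DIM.Pre n F :=
    { p := p
      s := s
      g := CFC.sqrt (star s * s)
      star_p := hp.star_map
      mul_p := hp.mul_map
      ps := hps
      ss := hss
      gg := hgg
      g_star := hgsa
      gp := hgp
      gs := hgs }
  have hDh : D.h = p 1 := rfl
  have hk0 : 0 ≤ D.k := Finset.sum_nonneg (fun c _ => mul_star_self_nonneg _)
  have hksa : IsSelfAdjoint D.k := D.k_star
  have hkk : D.k * D.k ≤ D.k := by
    rw [← sub_nonneg]
    obtain ⟨t, ht⟩ := hp.nonneg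
    have h1 : D.k - D.k * D.k = ∑ c, D.Y c * D.h * star (D.Y c) := by
      have h2 : D.k * D.k = ∑ c, D.Y c * D.w * star (D.Y c) := by
        conv_lhs => rw [show D.k * D.k = (∑ c, D.Y c * star (D.Y c)) * D.k from rfl]
        rw [Finset.sum_mul]
        apply Finset.sum_congr rfl
        intro c _
        rw [mul_assoc, D.Yk, mul_assoc]
      rw [h2]
      conv_lhs => rw [show D.k = ∑ c, D.Y c * star (D.Y c) from rfl]
      rw [← Finset.sum_sub_distrib]
      apply Finset.sum_congr rfl
      intro c _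
      have : D.h = 1 - D.w := by unfold DIM.Pre.w; abel
      rw [this]
      noncomm_ring
    rw [h1]
    apply Finset.sum_nonneg
    intro c _
    rw [hDh, ht, show D.Y c * (star t * t) * star (D.Y c)
      = (D.Y c * star t) * (t * star (D.Y c)) by noncomm_ring]
    have : D.Y c * star t = star (t * star (D.Y c)) := by rw [star_mul, star_star]
    rw [this]
    exact star_mul_self_nonneg _
  have hnorm : ‖D.k‖ ≤ 1 := by
    have h1 : ‖D.k * D.k‖ ≤ ‖D.k‖ := by
      apply CStarAlgebra.norm_le_norm_of_nonneg_of_le _ hkk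
      have : D.k * D.k = star D.k * D.k := by rw [D.k_star]
      rw [this]
      exact star_mul_self_nonneg _
    have h2 : ‖D.k * D.k‖ = ‖D.k‖ * ‖D.k‖ := by
      have := CStarRing.norm_star_mul_self (x := D.k)
      rwa [D.k_star] at this
    rw [h2] at h1
    by_contra hlt
    push Not at hlt
    nlinarith
  have hspec : ∀ x ∈ spectrum ℂ D.k, 0 ≤ x.re ∧ x.re ≤ 1 ∧ ((x.re : ℝ) : ℂ) = x := by
    intro x hx
    have h1 : (0 : ℂ) ≤ x := spectrum_nonneg_of_nonneg hk0 hx
    have h2 : ‖x‖ ≤ ‖D.k‖ := by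
      rcases subsingleton_or_nontrivial F with hF | hF
      · exact absurd hx (by simp [spectrum.of_subsingleton])
      · exact spectrum.norm_le_norm_of_mem hx
    refine ⟨(Complex.nonneg_iff.mp h1).1, ?_, ?_⟩
    · exact (Complex.re_le_norm x).trans (h2.trans hnorm)
    · apply Complex.ext
      · simp
      · rw [Complex.ofReal_im]; exact (Complex.nonneg_iff.mp h1).2
  let ι : C(spectrum ℂ D.k, unitInterval) :=
    ⟨fun x => ⟨x.1.re, (hspec x.1 x.2).1, (hspec x.1 x.2).2.1⟩, by fun_prop⟩
  have hknorm : IsStarNormal D.k := hksa.isStarNormal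
  let Γ : C(unitInterval, ℂ) →⋆ₐ[ℂ] F :=
    (cfcHom (R := ℂ) (a := D.k) hknorm).comp (ContinuousMap.compStarAlgHom' ℂ ℂ ι)
  have hΓk : Γ DIM.tt = D.k := by
    have h1 : ContinuousMap.compStarAlgHom' ℂ ℂ ι DIM.tt
        = (ContinuousMap.id ℂ).restrict (spectrum ℂ D.k) := by
      ext x
      exact (hspec x.1 x.2).2.2
    change cfcHom (R := ℂ) (a := D.k) hknorm (ContinuousMap.compStarAlgHom' ℂ ℂ ι DIM.tt) = D.k
    rw [h1]
    exact cfcHom_id hknorm
  let B : DIM.BD n F :=
    { D := D
      Γ := Γ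
      Γk := hΓk
      comm := by
        intro g u hu
        have : Commute D.k u := hu.symm
        exact (IsSelfAdjoint.commute_cfcHom hknorm hksa this
          (ContinuousMap.compStarAlgHom' ℂ ℂ ι g)).eq }
  exact ⟨B.hom⟩

end Vale.Agent.P101
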