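import Vale.Agent.P101.Final
import Vale.Agent.P101.Dim

namespace Vale.Agent.P101

universe u

theorem final (A : Type u) [CStarAlgebra A] [TopologicalSpace.SeparableSpace A]
    (ω : Ultrafilter ℕ) (hω : (ω : Filter ℕ) ≤ Filter.cofinite) :
    IsEmpty (CentralSeq ω A →⋆ₐ[ℂ] ℂ) ↔
      ∀ n, Nonempty (DimDrop (n + 2) (n + 3) →⋆ₐ[ℂ] CentralSeq ω A) :=
  final_DIM dim A ω hω

end Vale.Agent.P101
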