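import Vale.Agent.P101.UltA

/-!
# P101, module ULTB: commuting copies in the central sequence algebra by reindexing
-/

open Filter Topology BoundedContinuousFunction

namespace Vale.Agent.P101

universe u

namespace UltA

variable (ω : Ultrafilter ℕ) {A : Type u} [CStarAlgebra A]

/-- reindexing -/
def re (m : ℕ → ℕ) (a : ℕ →ᵇ A) : ℕ →ᵇ A :=
  a.compContinuous ⟨m, continuous_of_discreteTopology⟩

lemma re_apply (m : ℕ → ℕ) (a : ℕ →ᵇ A) (n : ℕ) : re m a n = a (m n) := rfl
lemma re_add (m : ℕ → ℕ) (a b : ℕ →ᵇ A) : re m (a + b) = re m a + re m b := rfl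
lemma re_sub (m : ℕ → ℕ) (a b : ℕ →ᵇ A) : re m (a - b) = re m a - re m b := rfl
lemma re_mul (m : ℕ → ℕ) (a b : ℕ →ᵇ A) : re m (a * b) = re m a * re m b := rfl
lemma re_smul (m : ℕ → ℕ) (c : ℂ) (a : ℕ →ᵇ A) : re m (c • a) = c • re m a := rfl
lemma re_star (m : ℕ → ℕ) (a : ℕ →ᵇ A) : re m (star a) = star (re m a) := rfl
lemma re_one (m : ℕ → ℕ) : re m (1 : ℕ →ᵇ A) = 1 := rfl
lemma re_zero (m : ℕ → ℕ) : re m (0 : ℕ →ᵇ A) = 0 := rfl

lemma norm_re_le (m : ℕ → ℕ) (a : ℕ →ᵇ A) : ‖re m a‖ ≤ ‖a‖ :=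
  (BoundedContinuousFunction.norm_le (norm_nonneg a)).2 fun n => a.norm_coe_le_norm (m n)

lemma commute_iff {x y : Ultrapower ω A} : x * y = y * x ↔ nrm ω (x * y - y * x) ≤ 0 := by
  constructor
  · intro h; rw [h, sub_self, nrm_zero]
  · intro h
    rw [← sub_eq_zero]
    exact eq_zero_of_nrm ω (le_antisymm h (nrm_nonneg ω _))

lemma comm_closure {y : Ultrapower ω A} {T : Set (ℕ →ᵇ A)} (φ : (ℕ →ᵇ A) → (ℕ →ᵇ A))
    (hφ : ∀ a b, φ (a - b) = φ a - φ b) (hn : ∀ a, ‖φ a‖ ≤ ‖a‖)
    (h : ∀ a ∈ T, cl ω (φ a) * y = y * cl ω (φ a)) :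
    ∀ a ∈ closure T, cl ω (φ a) * y = y * cl ω (φ a) := by
  intro a ha
  rw [commute_iff]
  have key : ∀ ε > 0, nrm ω (cl ω (φ a) * y - y * cl ω (φ a)) ≤ ε * (2 * nrm ω y) := by
    intro ε hε
    obtain ⟨b, hb, hab⟩ := Metric.mem_closure_iff.1 ha ε hε
    have h1 : nrm ω (cl ω (φ (a - b))) ≤ ε := by
      refine (nrm_le ω _).trans ((hn _).trans ?_)
      rw [dist_eq_norm] at hab
      exact hab.le
    have h2 : cl ω (φ a) * y - y * cl ω (φ a)
        = cl ω (φ (a - b)) * y + -(y * cl ω (φ (a - b))) := by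
      rw [hφ, cl_sub, sub_mul, mul_sub, h b hb]
      abel
    rw [h2]
    refine (nrm_add_le ω _ _).trans ?_
    rw [nrm_neg]
    have h3 := nrm_mul_le ω (cl ω (φ (a - b))) y
    have h4 := nrm_mul_le ω y (cl ω (φ (a - b)))
    have h5 := nrm_nonneg ω y
    nlinarith
  have hy : 0 ≤ 2 * nrm ω y := by
    have := nrm_nonneg ω y
    linarith
  refine le_of_forall_pos_le_add fun ε hε => ?_
  have h1 := key (ε / (2 * nrm ω y + 1)) (by positivity)
  have h2 : ε / (2 * nrm ω y + 1) * (2 * nrm ω y) ≤ ε := by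
    rw [div_mul_eq_mul_div, div_le_iff₀ (by linarith)]
    nlinarith
  linarith

theorem reindex [TopologicalSpace.SeparableSpace A] (hω : (ω : Filter ℕ) ≤ Filter.cofinite)
    (L : Set (ℕ →ᵇ A)) (hL0 : (0 : ℕ →ᵇ A) ∈ L) (hLs : TopologicalSpace.IsSeparable L)
    (hLc : ∀ a ∈ L, cl ω a ∈ CentralSeq ω A) :
    ∃ m : ℕ → ℕ, (∀ a ∈ L, nrm ω (cl ω (re m a)) ≤ nrm ω (cl ω a)) ∧
      (∀ a ∈ L, cl ω (re m a) ∈ CentralSeq ω A) ∧
      (∀ a ∈ L, ∀ b ∈ L, cl ω (re m a) * cl ω b = cl ω b * cl ω (re m a)) := by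
  obtain ⟨t, htL, htc, htd⟩ := hLs.exists_countable_dense_subset
  have htne : t.Nonempty := by
    by_contra hcon
    rw [Set.not_nonempty_iff_eq_empty] at hcon
    rw [hcon, closure_empty] at htd
    exact htd hL0
  obtain ⟨a, ha⟩ := htc.exists_eq_range htne
  have haL : ∀ j, a j ∈ L := fun j => htL (by rw [ha]; exact ⟨j, rfl⟩)
  have hLa : ∀ x ∈ L, x ∈ closure (Set.range a) := fun x hx => by rw [← ha]; exact htd hx
  set c : ℕ → A := TopologicalSpace.denseSeq A with hc
  have hat : (ω : Filter ℕ) ≤ atTop := by rwa [Nat.cofinite_eq_atTop] at hω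
  -- eventual conditions
  have hcomm : ∀ (j : ℕ) (e : A) (ε : ℝ), 0 < ε →
      ∀ᶠ p in (ω : Filter ℕ), ‖a j p * e - e * a j p‖ < ε := by
    intro j e ε hε
    have h1 := (mem_central' ω).1 (hLc _ (haL j)) e
    have h2 : cl ω (a j * BoundedContinuousFunction.const ℕ e)
        = cl ω (BoundedContinuousFunction.const ℕ e * a j) := h1.symm
    have h3 := (cl_eq ω).1 h2
    exact h3.eventually (gt_mem_nhds hε)
  have hev : ∀ n : ℕ, ∃ p : ℕ, (∀ j ∈ Finset.range (n + 1),
      ‖a j p‖ < nrm ω (cl ω (a j)) + 1 / ((n : ℝ) + 1) ∧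
      (∀ k ∈ Finset.range (n + 1), ‖a j p * a k n - a k n * a j p‖ < 1 / ((n : ℝ) + 1)) ∧
      (∀ k ∈ Finset.range (n + 1), ‖a j p * c k - c k * a j p‖ < 1 / ((n : ℝ) + 1))) := by
    intro n
    have hpos : (0 : ℝ) < 1 / ((n : ℝ) + 1) := by positivity
    have h1 : ∀ᶠ p in (ω : Filter ℕ), ∀ j ∈ Finset.range (n + 1),
      ‖a j p‖ < nrm ω (cl ω (a j)) + 1 / ((n : ℝ) + 1) ∧
      (∀ k ∈ Finset.range (n + 1), ‖a j p * a k n - a k n * a j p‖ < 1 / ((n : ℝ) + 1)) ∧
      (∀ k ∈ Finset.range (n + 1), ‖a j p * c k - c k * a j p‖ < 1 / ((n : ℝ) + 1)) := by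
      rw [Filter.eventually_all_finset]
      intro j _
      refine ((tendsto_nrm ω (a := a j) rfl).eventually
        (gt_mem_nhds (lt_add_of_pos_right _ hpos))).and (Filter.Eventually.and ?_ ?_)
      · rw [Filter.eventually_all_finset]
        intro k _
        exact hcomm j _ _ hpos
      · rw [Filter.eventually_all_finset]
        intro k _
        exact hcomm j _ _ hpos
    exact h1.exists
  choose m hm using hev
  have hlim : Tendsto (fun n : ℕ => 1 / ((n : ℝ) + 1)) (ω : Filter ℕ) (𝓝 0) :=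
    tendsto_one_div_add_atTop_nhds_zero_nat.mono_left hat
  have hge : ∀ j : ℕ, ∀ᶠ n in (ω : Filter ℕ), j ≤ n := fun j => hat (eventually_ge_atTop j)
  refine ⟨m, ?_, ?_, ?_⟩
  · -- norms
    have h1 : ∀ j, nrm ω (cl ω (re m (a j))) ≤ nrm ω (cl ω (a j)) := by
      intro j
      have h2 : Tendsto (fun n : ℕ => nrm ω (cl ω (a j)) + 1 / ((n : ℝ) + 1)) (ω : Filter ℕ)
          (𝓝 (nrm ω (cl ω (a j)))) := by simpa using hlim.const_add (nrm ω (cl ω (a j)))
      refine le_of_tendsto_of_tendsto (tendsto_nrm ω (a := re m (a j)) rfl) h2 ?_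
      filter_upwards [hge j] with n hn
      exact ((hm n j (Finset.mem_range.2 (by omega))).1).le
    intro x hx
    refine le_of_forall_pos_le_add fun ε hε => ?_
    obtain ⟨_, ⟨j, rfl⟩, hj⟩ := Metric.mem_closure_iff.1 (hLa x hx) (ε / 2) (half_pos hε)
    rw [dist_eq_norm] at hj
    have h3 : nrm ω (cl ω (re m x)) ≤ nrm ω (cl ω (re m (a j))) + ‖x - a j‖ := by
      have h4 : cl ω (re m x) = cl ω (re m (a j)) + cl ω (re m (x - a j)) := by
        rw [re_sub, cl_sub]; abel
      rw [h4]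
      refine (nrm_add_le ω _ _).trans ?_
      have h5 := (nrm_le ω (re m (x - a j))).trans (norm_re_le m _)
      linarith
    have h6 : nrm ω (cl ω (a j)) ≤ nrm ω (cl ω x) + ‖x - a j‖ := by
      have h4 : cl ω (a j) = cl ω x + -cl ω (x - a j) := by
        rw [cl_sub]; abel
      rw [h4]
      refine (nrm_add_le ω _ _).trans ?_
      rw [nrm_neg]
      have h5 := nrm_le ω (x - a j)
      linarith
    have := h1 j
    linarith
  · -- centrality
    intro x hx
    rw [mem_central']
    intro e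
    have h1 : ∀ j k, cl ω (re m (a j)) * constSeq ω (c k)
        = constSeq ω (c k) * cl ω (re m (a j)) := by
      intro j k
      change cl ω (re m (a j) * BoundedContinuousFunction.const ℕ (c k))
        = cl ω (BoundedContinuousFunction.const ℕ (c k) * re m (a j))
      refine (cl_eq ω).2 ?_
      refine squeeze_zero' (Eventually.of_forall fun n => norm_nonneg _) ?_ hlim
      filter_upwards [hge j, hge k] with n hn hn'
      exact ((hm n j (Finset.mem_range.2 (by omega))).2.2 k (Finset.mem_range.2 (by omega))).le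
    have h2 : ∀ k, cl ω (re m x) * constSeq ω (c k) = constSeq ω (c k) * cl ω (re m x) := by
      intro k
      refine comm_closure ω (re m) (re_sub m) (norm_re_le m) ?_ x (hLa x hx)
      rintro _ ⟨j, rfl⟩
      exact h1 j k
    have h3 := comm_closure ω (y := cl ω (re m x))
      (T := Set.range fun k => BoundedContinuousFunction.const ℕ (c k)) (fun a => a)
      (fun _ _ => rfl) (fun _ => le_rfl) (by
        rintro _ ⟨k, rfl⟩
        exact (h2 k).symm) (BoundedContinuousFunction.const ℕ e) (by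
        rw [Metric.mem_closure_iff]
        intro ε hε
        have h4 : e ∈ closure (Set.range c) := TopologicalSpace.denseRange_denseSeq A e
        obtain ⟨_, ⟨k, rfl⟩, hk⟩ := Metric.mem_closure_iff.1 h4 ε hε
        refine ⟨_, ⟨k, rfl⟩, ?_⟩
        refine lt_of_le_of_lt ?_ hk
        exact (BoundedContinuousFunction.dist_le dist_nonneg).2 fun n => le_rfl)
    exact h3
  · intro x hx y hy
    have h1 : ∀ j k, cl ω (re m (a j)) * cl ω (a k) = cl ω (a k) * cl ω (re m (a j)) := by
      intro j k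
      change cl ω (re m (a j) * a k) = cl ω (a k * re m (a j))
      refine (cl_eq ω).2 ?_
      refine squeeze_zero' (Eventually.of_forall fun n => norm_nonneg _) ?_ hlim
      filter_upwards [hge j, hge k] with n hn hn'
      exact ((hm n j (Finset.mem_range.2 (by omega))).2.1 k (Finset.mem_range.2 (by omega))).le
    have h2 : ∀ k, cl ω (re m x) * cl ω (a k) = cl ω (a k) * cl ω (re m x) := by
      intro k
      refine comm_closure ω (re m) (re_sub m) (norm_re_le m) ?_ x (hLa x hx)
      rintro _ ⟨j, rfl⟩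
      exact h1 j k
    exact (comm_closure ω (y := cl ω (re m x)) (T := Set.range a) (fun a => a)
      (fun _ _ => rfl) (fun _ => le_rfl) (by
        rintro _ ⟨k, rfl⟩
        exact (h2 k).symm) y (hLa y hy)).symm

/-- the algebra generated by a sequence is separable -/
theorem isSeparable_adjoin {B : Type u} [CStarAlgebra B] (t : ℕ → B) :
    TopologicalSpace.IsSeparable ((StarAlgebra.adjoin ℂ (Set.range t) : StarSubalgebra ℂ B) : Set B) := by
  have h1 : ((StarAlgebra.adjoin ℂ (Set.range t) : StarSubalgebra ℂ B) : Set B)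
      = (Submodule.span ℂ ((Submonoid.closure (Set.range t ∪ star (Set.range t)) : Submonoid B) :
        Set B) : Set B) := by
    rw [← Algebra.adjoin_eq_span]
    rfl
  rw [h1]
  apply TopologicalSpace.IsSeparable.span
  apply Set.Countable.isSeparable
  have hc : (Set.range t ∪ star (Set.range t)).Countable := by
    refine (Set.countable_range t).union ?_
    rw [← Set.image_star]
    exact (Set.countable_range t).image _
  have hsub : ((Submonoid.closure (Set.range t ∪ star (Set.range t)) : Submonoid B) : Set B)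
      ⊆ Set.range fun l : List {x : B // x ∈ Set.range t ∪ star (Set.range t)} =>
        (List.map Subtype.val l).prod := by
    intro x hx
    obtain ⟨l, hl, rfl⟩ := Submonoid.exists_list_of_mem_closure hx
    refine ⟨l.attach.map fun y => ⟨y.1, hl y.1 y.2⟩, ?_⟩
    simp only [List.map_map]
    congr 1
    exact List.attach_map_subtype_val l
  have : Countable {x : B // x ∈ Set.range t ∪ star (Set.range t)} := hc.to_subtype
  exact (Set.countable_range _).mono hsub

/-- sequences whose class is central -/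
noncomputable def Lc : StarSubalgebra ℂ (ℕ →ᵇ A) where
  carrier := {a | cl ω a ∈ CentralSeq ω A}
  mul_mem' := fun {a b} ha hb => by
    change cl ω (a * b) ∈ CentralSeq ω A
    rw [cl_mul]
    exact mul_mem ha hb
  add_mem' := fun {a b} ha hb => by
    change cl ω (a + b) ∈ CentralSeq ω A
    rw [cl_add]
    exact add_mem ha hb
  algebraMap_mem' := fun c => by
    change cl ω (algebraMap ℂ (ℕ →ᵇ A) c) ∈ CentralSeq ω A
    rw [Algebra.algebraMap_eq_smul_one, cl_smul, cl_one]
    exact SMulMemClass.smul_mem c (one_mem _)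
  star_mem' := fun {a} ha => by
    change cl ω (star a) ∈ CentralSeq ω A
    rw [cl_star]
    exact star_mem ha

theorem selfComm [TopologicalSpace.SeparableSpace A] (hω : (ω : Filter ℕ) ≤ Filter.cofinite) :
    @SelfComm (FF ω A) (cs ω) := by
  let _ := cs ω (A := A)
  intro S hS
  obtain ⟨s, hs⟩ := (hS.insert 0).exists_eq_range ⟨0, Set.mem_insert _ _⟩
  have hSs : S ⊆ Set.range s := by
    rw [← hs]; exact Set.subset_insert _ _
  choose t ht using fun i => mk_surj ω A (s i : Ultrapower ω A)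
  set L : StarSubalgebra ℂ (ℕ →ᵇ A) := StarAlgebra.adjoin ℂ (Set.range t) with hL
  have hLc : ∀ a ∈ L, cl ω a ∈ CentralSeq ω A := by
    have h1 : L ≤ Lc ω := by
      apply StarAlgebra.adjoin_le
      rintro _ ⟨i, rfl⟩
      change cl ω (t i) ∈ CentralSeq ω A
      have h2 : cl ω (t i) = (s i : Ultrapower ω A) := ht i
      rw [h2]
      exact (s i).2
    exact fun a ha => h1 ha
  obtain ⟨m, hm1, hm2, hm3⟩ := reindex ω hω (L : Set (ℕ →ᵇ A)) (zero_mem L)
    (isSeparable_adjoin t) hLc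
  have hwd : ∀ a ∈ L, ∀ b ∈ L, cl ω a = cl ω b → cl ω (re m a) = cl ω (re m b) := by
    intro a ha b hb hab
    have h1 := hm1 (a - b) (sub_mem ha hb)
    rw [re_sub, cl_sub, cl_sub, hab, sub_self, nrm_zero] at h1
    rw [← sub_eq_zero]
    exact eq_zero_of_nrm ω (le_antisymm h1 (nrm_nonneg ω _))
  -- the elements of the adjoin have lifts in `L`
  let D' : StarSubalgebra ℂ (FF ω A) :=
    { carrier := {x | ∃ a ∈ L, cl ω a = (x : Ultrapower ω A)}
      mul_mem' := by
        rintro x y ⟨a, ha, hax⟩ ⟨b, hb, hby⟩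
        refine ⟨a * b, mul_mem ha hb, ?_⟩
        rw [cl_mul, hax, hby]; rfl
      add_mem' := by
        rintro x y ⟨a, ha, hax⟩ ⟨b, hb, hby⟩
        refine ⟨a + b, add_mem ha hb, ?_⟩
        rw [cl_add, hax, hby]; rfl
      algebraMap_mem' := by
        intro c
        refine ⟨algebraMap ℂ _ c, algebraMap_mem L c, ?_⟩
        rfl
      star_mem' := by
        rintro x ⟨a, ha, hax⟩
        refine ⟨star a, star_mem ha, ?_⟩
        rw [cl_star, hax]; rfl }
  have hD : StarAlgebra.adjoin ℂ S ≤ D' := by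
    apply StarAlgebra.adjoin_le
    intro x hx
    obtain ⟨i, hi⟩ := hSs hx
    refine ⟨t i, StarAlgebra.subset_adjoin ℂ _ ⟨i, rfl⟩, ?_⟩
    rw [← hi]
    exact ht i
  have hlift : ∀ x : StarAlgebra.adjoin ℂ S, ∃ a ∈ L, cl ω a = ((x : FF ω A) : Ultrapower ω A) :=
    fun x => hD x.2
  choose l hlL hl using hlift
  let κ0 : StarAlgebra.adjoin ℂ S → FF ω A := fun x => ⟨cl ω (re m (l x)), hm2 _ (hlL x)⟩
  have hκ : ∀ (x : StarAlgebra.adjoin ℂ S) (a : ℕ →ᵇ A), a ∈ L →
      cl ω a = ((x : FF ω A) : Ultrapower ω A) → ((κ0 x : FF ω A) : Ultrapower ω A) = cl ω (re m a) :=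
    fun x a ha hax => hwd _ (hlL x) _ ha ((hl x).trans hax.symm)
  let κ : StarAlgebra.adjoin ℂ S →⋆ₐ[ℂ] FF ω A :=
    { toFun := κ0
      map_one' := by
        apply Subtype.ext
        rw [hκ 1 1 (one_mem L) rfl]
        rfl
      map_mul' := by
        intro x y
        apply Subtype.ext
        rw [hκ (x * y) (l x * l y) (mul_mem (hlL x) (hlL y)) (by rw [cl_mul, hl, hl]; rfl)]
        rfl
      map_zero' := by
        apply Subtype.ext
        rw [hκ 0 0 (zero_mem L) rfl]
        rfl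
      map_add' := by
        intro x y
        apply Subtype.ext
        rw [hκ (x + y) (l x + l y) (add_mem (hlL x) (hlL y)) (by rw [cl_add, hl, hl]; rfl)]
        rfl
      commutes' := by
        intro c
        apply Subtype.ext
        rw [hκ (algebraMap ℂ _ c) (algebraMap ℂ _ c) (algebraMap_mem L c) rfl]
        rfl
      map_star' := by
        intro x
        apply Subtype.ext
        rw [hκ (star x) (star (l x)) (star_mem (hlL x)) (by rw [cl_star, hl]; rfl)]
        rfl }
  refine ⟨κ, fun x y => ?_⟩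
  apply Subtype.ext
  change cl ω (re m (l x)) * ((y : FF ω A) : Ultrapower ω A)
    = ((y : FF ω A) : Ultrapower ω A) * cl ω (re m (l x))
  rw [← hl y]
  exact hm3 _ (hlL x) _ (hlL y)

end UltA

open UltA

theorem ult : S_ULT.{u} := by
  intro A _ _ ω hω
  refine ⟨FF ω A, cs ω, ⟨?_⟩, selfComm ω hω⟩
  let _ := cs ω (A := A)
  exact
    { toFun := fun x => x
      invFun := fun x => x
      left_inv := fun _ => rfl
      right_inv := fun _ => rfl
      map_mul' := fun _ _ => rfl
      map_add' := fun _ _ => rfl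
      map_star' := fun _ => rfl
      map_smul' := fun _ _ => rfl }

end Vale.Agent.P101
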