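import Mathlib
import Vale.Agent.P101.Defs

/-!
# P101: module CHAR.  A unital C*-algebra without characters is generated, as an ideal, by finitely
many commutators with self-adjoint elements.
-/

namespace Vale.Agent.P101

universe u

namespace CHAR

section ring

variable {F : Type u} [Ring F] [StarRing F]

/-- the products `c [a, b] d` with `a` self-adjoint -/
def gens (F : Type u) [Ring F] [StarRing F] : Set F :=
  {x | ∃ c a b d : F, IsSelfAdjoint a ∧ x = c * (a * b - b * a) * d}

/-- the commutator ideal -/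
def J (F : Type u) [Ring F] [StarRing F] : Ideal F where
  toAddSubmonoid := AddSubmonoid.closure (gens F)
  smul_mem' := by
    intro c x hx
    change c * x ∈ AddSubmonoid.closure (gens F)
    refine AddSubmonoid.closure_induction (motive := fun x _ => c * x ∈ AddSubmonoid.closure (gens F))
      ?_ ?_ ?_ hx
    · rintro x ⟨c', a, b, d, ha, rfl⟩
      exact AddSubmonoid.subset_closure ⟨c * c', a, b, d, ha, by noncomm_ring⟩
    · rw [mul_zero]; exact zero_mem _
    · intro x y _ _ h1 h2
      rw [mul_add]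
      exact add_mem h1 h2

lemma mem_J {x : F} : x ∈ J F ↔ x ∈ AddSubmonoid.closure (gens F) := Iff.rfl

lemma J_mul_right {x : F} (hx : x ∈ J F) (c : F) : x * c ∈ J F := by
  rw [mem_J] at hx ⊢
  refine AddSubmonoid.closure_induction (motive := fun x _ => x * c ∈ AddSubmonoid.closure (gens F))
      ?_ ?_ ?_ hx
  · rintro x ⟨c', a, b, d, ha, rfl⟩
    exact AddSubmonoid.subset_closure ⟨c', a, b, d * c, ha, by noncomm_ring⟩
  · rw [zero_mul]; exact zero_mem _
  · intro x y _ _ h1 h2
    rw [add_mul]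
    exact add_mem h1 h2

lemma NC_of_one_mem (h : (1 : F) ∈ J F) : ∃ r, NC (r + 1) F := by
  rw [mem_J] at h
  obtain ⟨l, hl, hsum⟩ := AddSubmonoid.exists_list_of_mem_closure h
  have hl' : ∀ i : Fin l.length, ∃ c a b d : F, IsSelfAdjoint a ∧ l[i] = c * (a * b - b * a) * d :=
    fun i => hl _ (List.getElem_mem _)
  choose c a b d ha hx using hl'
  have h1 : ∑ i : Fin l.length, c i * (a i * b i - b i * a i) * d i = 1 := by
    rw [← hsum]
    conv_rhs => rw [← Fin.sum_univ_getElem l]
    exact Finset.sum_congr rfl fun i _ => (hx i).symm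
  rcases hn : l.length with _ | r
  · refine ⟨0, fun _ => 0, fun _ => IsSelfAdjoint.zero _, 0, fun i => i.elim0, fun i => i.elim0,
      fun i => i.elim0, fun i => i.elim0, ?_⟩
    rw [← h1]
    have : IsEmpty (Fin l.length) := by rw [hn]; infer_instance
    simp
  · refine ⟨r, fun i => a (Fin.cast hn.symm i), fun i => ha _, l.length,
      fun i => Fin.cast hn i, b, c, d, ?_⟩
    rw [← h1]
    rfl

end ring

section cstar

variable {F : Type u} [CStarAlgebra F]

open scoped ComplexStarModule in
lemma comm_mem (a b : F) : a * b - b * a ∈ J F := by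
  have h1 : ∀ s : F, IsSelfAdjoint s → s * b - b * s ∈ J F := fun s hs => by
    rw [mem_J]
    exact AddSubmonoid.subset_closure ⟨1, s, b, 1, hs, by simp⟩
  have h2 := h1 (realPart a : F) (realPart a).2
  have h3 := h1 (imaginaryPart a : F) (imaginaryPart a).2
  have h4 : a * b - b * a = ((realPart a : F) * b - b * (realPart a : F)) +
      (algebraMap ℂ F Complex.I) * ((imaginaryPart a : F) * b - b * (imaginaryPart a : F)) := by
    conv_lhs => rw [← realPart_add_I_smul_imaginaryPart a]
    rw [Algebra.algebraMap_eq_smul_one, smul_mul_assoc, one_mul, add_mul, mul_add, smul_sub,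
      smul_mul_assoc, mul_smul_comm]
    abel
  rw [h4]
  exact add_mem h2 ((J F).mul_mem_left _ h3)

lemma one_mem_of_closure (h : (1 : F) ∈ (J F).closure) : (1 : F) ∈ J F := by
  have h' : (1 : F) ∈ closure (J F : Set F) := h
  rw [Metric.mem_closure_iff] at h'
  obtain ⟨y, hy, hd⟩ := h' 1 one_pos
  rw [dist_eq_norm] at hd
  have hu : IsUnit (1 - (1 - y)) := (Units.oneSub (1 - y) hd).isUnit
  rw [sub_sub_cancel] at hu
  obtain ⟨u, hu⟩ := hu
  have := (J F).mul_mem_left (↑u⁻¹ : F) hy
  rwa [← hu, Units.inv_mul] at this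

/-- the closed commutator ideal -/
def Jc (F : Type u) [CStarAlgebra F] : Ideal F := (J F).closure

instance : (Jc F).IsTwoSided := ⟨fun {a} b ha => by
  have h : a ∈ closure (J F : Set F) := ha
  have h2 : (fun x => x * b) a ∈ closure (J F : Set F) :=
    map_mem_closure (f := fun x => x * b) (t := (J F : Set F)) (continuous_mul_const b) h
      fun x hx => J_mul_right hx b
  exact h2⟩

instance : IsClosed (Jc F : Set F) := isClosed_closure

lemma norm_mul_le' (x y : F ⧸ Jc F) : ‖x * y‖ ≤ ‖x‖ * ‖y‖ := by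
  refine le_of_forall_pos_le_add fun ε hε => ?_
  have := ((Metric.nhds_basis_ball.prod_nhds Metric.nhds_basis_ball).tendsto_iff
    Metric.nhds_basis_ball).mp (continuous_mul.tendsto (‖x‖, ‖y‖)) ε hε
  simp only [Set.mem_prod, Metric.mem_ball, and_imp, Prod.forall, Prod.exists] at this
  rcases this with ⟨ε₁, ε₂, ⟨h₁, h₂⟩, h⟩
  obtain ⟨a, rfl, ha⟩ := Submodule.Quotient.norm_mk_lt x h₁
  obtain ⟨b, rfl, hb⟩ := Submodule.Quotient.norm_mk_lt y h₂
  simp only [dist, abs_sub_lt_iff] at h
  have hma := Submodule.Quotient.norm_mk_le (Jc F) a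
  have hmb := Submodule.Quotient.norm_mk_le (Jc F) b
  specialize h ‖a‖ ‖b‖ ⟨by linarith, by linarith⟩ ⟨by linarith, by linarith⟩
  calc
    _ ≤ ‖a‖ * ‖b‖ := (Submodule.Quotient.norm_mk_le (Jc F) (a * b)).trans (norm_mul_le a b)
    _ ≤ _ := (sub_lt_iff_lt_add'.mp h.1).le

/-- the quotient by the closed commutator ideal is a commutative Banach algebra -/
noncomputable instance instNCR : NormedCommRing (F ⧸ Jc F) :=
  { Ideal.Quotient.ring (Jc F), Submodule.Quotient.normedAddCommGroup (Jc F) with
    norm_mul_le := norm_mul_le'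
    mul_comm := by
      rintro ⟨a⟩ ⟨b⟩
      refine (Ideal.Quotient.eq (I := Jc F)).2 ?_
      exact subset_closure (comm_mem a b) }

noncomputable instance instNA : NormedAlgebra ℂ (F ⧸ Jc F) :=
  { Submodule.Quotient.normedSpace (Jc F) ℂ, Ideal.Quotient.algebra (R₁ := ℂ) (I := Jc F) with }

end cstar

end CHAR

open CHAR in
theorem char : S_CHAR.{u} := by
  intro F _ hF
  by_cases h1 : (1 : F) ∈ J F
  · exact NC_of_one_mem h1
  · exfalso
    have h2 : (1 : F) ∉ Jc F := fun h => h1 (one_mem_of_closure h)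
    have : Nontrivial (F ⧸ Jc F) := by
      refine ⟨⟨Ideal.Quotient.mk (Jc F) 1, 0, fun h => h2 ?_⟩⟩
      exact Ideal.Quotient.eq_zero_iff_mem.1 h
    obtain ⟨φ⟩ := (inferInstance : Nonempty (WeakDual.characterSpace ℂ (F ⧸ Jc F)))
    let ψ : F →ₐ[ℂ] ℂ := (WeakDual.CharacterSpace.equivAlgHom φ).comp (Ideal.Quotient.mkₐ ℂ (Jc F))
    have : StarHomClass (F →ₐ[ℂ] ℂ) F ℂ := AlgHomClass.instStarHomClass
    exact hF.false { ψ with map_star' := fun a => map_star ψ a }

end Vale.Agent.P101
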