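import Vale.Agent.P101.Defs

open Matrix

set_option linter.unusedSimpArgs false

namespace Vale.Agent.P101.Base

universe u

variable {F : Type u} [CStarAlgebra F]

/-- inverse square root -/
theorem inv_sqrt [PartialOrder F] [StarOrderedRing F] (Z : F) (hZ : IsStrictlyPositive Z) :
    ∃ r : F, star r = r ∧ r * Z * r = 1 := by
  refine ⟨Z ^ (-(1/2) : ℝ), ?_, CFC.conjugate_rpow_neg_one_half Z hZ⟩
  exact (IsSelfAdjoint.of_nonneg CFC.rpow_nonneg).star_eq

theorem cs [PartialOrder F] [StarOrderedRing F] {ι : Type*} (s : Finset ι) (a : ι → F) :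
    ∃ C : ℝ, 0 < C ∧
      star (∑ i ∈ s, a i) * (∑ i ∈ s, a i) ≤ C • ∑ i ∈ s, star (a i) * a i := by
  classical
  induction s using Finset.induction_on with
  | empty => exact ⟨1, one_pos, by simp⟩
  | insert i s hi ih =>
    obtain ⟨C, hC, h⟩ := ih
    refine ⟨2 * C + 2, by positivity, ?_⟩
    rw [Finset.sum_insert hi, Finset.sum_insert hi]
    set T := ∑ j ∈ s, a j with hT
    set U := ∑ j ∈ s, star (a j) * a j with hU
    have hU0 : 0 ≤ U := Finset.sum_nonneg fun j _ => star_mul_self_nonneg _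
    have h1 : 0 ≤ star (a i - T) * (a i - T) := star_mul_self_nonneg _
    have h2 : star (a i + T) * (a i + T) + star (a i - T) * (a i - T)
        = (2 : ℝ) • (star (a i) * a i) + (2 : ℝ) • (star T * T) := by
      rw [star_add, star_sub, two_smul, two_smul]
      noncomm_ring
    have h3 : star (a i + T) * (a i + T) ≤ (2 : ℝ) • (star (a i) * a i) + (2 : ℝ) • (star T * T) := by
      rw [← h2]
      exact le_add_of_nonneg_right h1
    refine h3.trans ?_
    have h4 : (2 : ℝ) • (star T * T) ≤ (2 : ℝ) • (C • U) := smul_le_smul_of_nonneg_left h zero_le_two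
    have h5 : 0 ≤ (2 * C) • (star (a i) * a i) :=
      smul_nonneg (by positivity) (star_mul_self_nonneg _)
    have h6 : 0 ≤ (2 : ℝ) • U := smul_nonneg (by positivity) hU0
    calc (2 : ℝ) • (star (a i) * a i) + (2 : ℝ) • (star T * T)
        ≤ (2 : ℝ) • (star (a i) * a i) + (2 : ℝ) • (C • U) := by gcongr
      _ ≤ (2 : ℝ) • (star (a i) * a i) + (2 : ℝ) • (C • U)
          + ((2 * C) • (star (a i) * a i) + (2 : ℝ) • U) := le_add_of_nonneg_right (add_nonneg h5 h6)
      _ = (2 * C + 2) • (star (a i) * a i + U) := by module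

/-- the relations of an order zero map on `M₂` -/
structure Rel (P00 P01 P10 P11 : F) : Prop where
  s00 : star P00 = P00
  s01 : star P01 = P10
  s11 : star P11 = P11
  r0000 : P00 * P00 = (P00 + P11) * P00
  r0001 : P00 * P01 = (P00 + P11) * P01
  r0110 : P01 * P10 = (P00 + P11) * P00
  r0111 : P01 * P11 = (P00 + P11) * P01
  r1000 : P10 * P00 = (P00 + P11) * P10
  r1001 : P10 * P01 = (P00 + P11) * P11
  r1110 : P11 * P10 = (P00 + P11) * P10
  r1111 : P11 * P11 = (P00 + P11) * P11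
  z0010 : P00 * P10 = 0
  z0011 : P00 * P11 = 0
  z0100 : P01 * P00 = 0
  z0101 : P01 * P01 = 0
  z1010 : P10 * P10 = 0
  z1011 : P10 * P11 = 0
  z1100 : P11 * P00 = 0
  z1101 : P11 * P01 = 0

/-- the linear map on `M₂` with given values on the matrix units -/
noncomputable def pmap (P00 P01 P10 P11 : F) : Matrix (Fin (0 + 2)) (Fin (0 + 2)) ℂ →ₗ[ℂ] F where
  toFun M := M 0 0 • P00 + M 0 1 • P01 + M 1 0 • P10 + M 1 1 • P11
  map_add' M N := by
    simp only [Matrix.add_apply]
    module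
  map_smul' c M := by
    simp only [Matrix.smul_apply, smul_eq_mul, RingHom.id_apply]
    module

theorem pmap_apply (P00 P01 P10 P11 : F) (M : Matrix (Fin (0 + 2)) (Fin (0 + 2)) ℂ) :
    pmap P00 P01 P10 P11 M = M 0 0 • P00 + M 0 1 • P01 + M 1 0 • P10 + M 1 1 • P11 := rfl

theorem pmap_one (P00 P01 P10 P11 : F) :
    pmap P00 P01 P10 P11 1 = P00 + P11 := by
  rw [pmap_apply]
  simp

theorem pmap_single (P00 P01 P10 P11 : F) :
    pmap P00 P01 P10 P11 (Matrix.single 0 0 1) = P00 := by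
  rw [pmap_apply]
  simp

theorem oz_pmap {P00 P01 P10 P11 : F} (h : Rel P00 P01 P10 P11)
    (h0 : ∃ t : F, P00 + P11 = star t * t) (h1 : ∃ t : F, 1 - (P00 + P11) = star t * t) :
    OZ (pmap P00 P01 P10 P11) where
  star_map a := by
    have s10 : star P10 = P01 := by rw [← h.s01, star_star]
    simp only [pmap_apply, star_add, star_smul, h.s00, h.s01, h.s11, s10, Matrix.star_apply]
    abel
  mul_map a b := by
    rw [pmap_one]
    have hsum : ∀ i k : Fin (0 + 2), (a * b) i k = a i 0 * b 0 k + a i 1 * b 1 k := fun i k => by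
      rw [Matrix.mul_apply]
      exact Fin.sum_univ_two _
    simp only [pmap_apply, hsum, mul_add, add_mul, smul_mul_assoc, mul_smul_comm]
    have e1 := h.r0000
    have e2 := h.r0001
    have e3 := h.r0110
    have e4 := h.r0111
    have e5 := h.r1000
    have e6 := h.r1001
    have e7 := h.r1110
    have e8 := h.r1111
    have z1 := h.z0010
    have z2 := h.z0011
    have z3 := h.z0100
    have z4 := h.z0101
    have z5 := h.z1010
    have z6 := h.z1011
    have z7 := h.z1100
    have z8 := h.z1101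
    simp only [add_mul, z1, z2, z3, z4, z5, z6, z7, z8, zero_add, add_zero, smul_zero] at *
    rw [e3, e4, e5, e6]
    module
  nonneg := by rw [pmap_one]; exact h0
  le_one := by rw [pmap_one]; exact h1


/-! ### The functions -/

/-- `max t ε` -/
noncomputable def fe (ε t : ℝ) : ℝ := max t ε
/-- `0` on `(-∞, ε]`, `1` on `[2ε, ∞)` -/
noncomputable def ff (ε t : ℝ) : ℝ := min (max ((t - ε) / ε) 0) 1
noncomputable def fL (ε t : ℝ) : ℝ := ff ε t / fe ε t
noncomputable def fG (ε t : ℝ) : ℝ := ff ε t / Real.sqrt (fe ε t)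
noncomputable def fG1 (ε t : ℝ) : ℝ := ff ε t / (Real.sqrt (fe ε t) * fe ε t)
noncomputable def fk (ε t : ℝ) : ℝ := Real.sqrt (max (t - 2 * ε) 0)

theorem fe_pos {ε : ℝ} (hε : 0 < ε) (t : ℝ) : 0 < fe ε t := lt_of_lt_of_le hε (le_max_right _ _)

theorem ff_nonneg (ε t : ℝ) : 0 ≤ ff ε t := le_min (le_max_right _ _) zero_le_one
theorem ff_le_one (ε t : ℝ) : ff ε t ≤ 1 := min_le_right _ _

theorem ff_zero {ε : ℝ} (hε : 0 < ε) {t : ℝ} (h : t ≤ ε) : ff ε t = 0 := by
  unfold ff
  rw [max_eq_right, min_eq_left zero_le_one]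
  exact div_nonpos_of_nonpos_of_nonneg (by linarith) hε.le

theorem ff_one {ε : ℝ} (hε : 0 < ε) {t : ℝ} (h : 2 * ε ≤ t) : ff ε t = 1 := by
  unfold ff
  apply min_eq_right
  refine le_max_of_le_left ?_
  rw [le_div_iff₀ hε]
  linarith

theorem mul_fL {ε : ℝ} (hε : 0 < ε) (t : ℝ) : t * fL ε t = ff ε t := by
  unfold fL
  rcases le_total t ε with h | h
  · rw [ff_zero hε h]; simp
  · have : fe ε t = t := max_eq_left h
    rw [this]
    have ht : t ≠ 0 := ne_of_gt (lt_of_lt_of_le hε h)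
    field_simp

theorem mul_fG1 {ε : ℝ} (hε : 0 < ε) (t : ℝ) : t * fG1 ε t = fG ε t := by
  unfold fG1 fG
  rcases le_total t ε with h | h
  · rw [ff_zero hε h]; simp
  · have : fe ε t = t := max_eq_left h
    rw [this]
    have ht : 0 < t := lt_of_lt_of_le hε h
    have : 0 < Real.sqrt t := Real.sqrt_pos.mpr ht
    field_simp

theorem fG_mul_fG {ε : ℝ} (hε : 0 < ε) (t : ℝ) : fG ε t * fG ε t = fL ε t * ff ε t := by
  unfold fG fL
  have h1 := fe_pos hε t
  have h2 : Real.sqrt (fe ε t) * Real.sqrt (fe ε t) = fe ε t := Real.mul_self_sqrt h1.le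
  have h3 : 0 < Real.sqrt (fe ε t) := Real.sqrt_pos.mpr h1
  rw [div_mul_div_comm, h2]
  ring

theorem ff_mul_fk {ε : ℝ} (hε : 0 < ε) (t : ℝ) : ff ε t * fk ε t = fk ε t := by
  rcases le_total (2 * ε) t with h | h
  · rw [ff_one hε h, one_mul]
  · unfold fk
    rw [max_eq_right (by linarith), Real.sqrt_zero, mul_zero]

theorem cont_fe (ε : ℝ) : Continuous (fe ε) := by unfold fe; fun_prop
theorem cont_ff (ε : ℝ) : Continuous (ff ε) := by unfold ff; fun_prop
theorem cont_fk (ε : ℝ) : Continuous (fk ε) := by unfold fk; fun_prop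
theorem cont_fL {ε : ℝ} (hε : 0 < ε) : Continuous (fL ε) := by
  unfold fL
  exact (cont_ff ε).div (cont_fe ε) fun t => (fe_pos hε t).ne'
theorem cont_fG {ε : ℝ} (hε : 0 < ε) : Continuous (fG ε) := by
  unfold fG
  exact (cont_ff ε).div (Real.continuous_sqrt.comp (cont_fe ε))
    fun t => (Real.sqrt_pos.mpr (fe_pos hε t)).ne'
theorem cont_fG1 {ε : ℝ} (hε : 0 < ε) : Continuous (fG1 ε) := by
  unfold fG1
  exact (cont_ff ε).div ((Real.continuous_sqrt.comp (cont_fe ε)).mul (cont_fe ε))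
    fun t => (mul_pos (Real.sqrt_pos.mpr (fe_pos hε t)) (fe_pos hε t)).ne'

theorem mul_cfc (h : F) {φ ψ χ : ℝ → ℝ} (hφ : Continuous φ) (hψ : Continuous ψ)
    (he : ∀ t, φ t * ψ t = χ t) : cfc φ h * cfc ψ h = cfc χ h := by
  rw [← cfc_mul φ ψ h hφ.continuousOn hψ.continuousOn]
  exact congrArg (fun k => cfc k h) (funext he)

theorem id_mul_cfc {h : F} (hsa : IsSelfAdjoint h) {ψ χ : ℝ → ℝ} (hψ : Continuous ψ)
    (he : ∀ t, t * ψ t = χ t) : h * cfc ψ h = cfc χ h := by
  have := mul_cfc h (φ := fun t => t) continuous_id hψ he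
  rwa [cfc_id' ℝ h hsa] at this

theorem cfc_mul_id {h : F} (hsa : IsSelfAdjoint h) {ψ χ : ℝ → ℝ} (hψ : Continuous ψ)
    (he : ∀ t, t * ψ t = χ t) : cfc ψ h * h = cfc χ h := by
  have := mul_cfc h (ψ := fun t => t) hψ continuous_id (fun t => (mul_comm _ _).trans (he t))
  rwa [cfc_id' ℝ h hsa] at this

theorem star_cfc (h : F) (φ : ℝ → ℝ) : star (cfc φ h) = cfc φ h :=
  (cfc_predicate φ h : IsSelfAdjoint _)

/-- the order zero map built from a square-zero element -/
theorem rel_of_sqzero [PartialOrder F] [StarOrderedRing F] (X : F) (hX : X * X = 0) {ε : ℝ}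
    (hε : 0 < ε) :
    ∃ P00 P01 P10 P11 : F, Rel P00 P01 P10 P11 ∧ (∃ t : F, P00 + P11 = star t * t) ∧
      (∃ t : F, 1 - (P00 + P11) = star t * t) ∧ P00 = cfc (ff ε) (star X * X) := by
  obtain ⟨h, hh⟩ : ∃ h : F, h = star X * X := ⟨_, rfl⟩
  rw [← hh]
  have hsa : IsSelfAdjoint h := by rw [hh]; exact IsSelfAdjoint.star_mul_self X
  have hXs : star X * star X = 0 := by rw [← star_mul, hX, star_zero]
  have hX0 : h * X = 0 := by rw [hh, mul_assoc, hX, mul_zero]
  have hX1 : star X * h = 0 := by rw [hh, ← mul_assoc, hXs, zero_mul]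
  have kf := cont_ff ε
  have kc := cont_fL hε
  have kg := cont_fG hε
  have kg1 := cont_fG1 hε
  have h_hc : h * cfc (fL ε) h = cfc (ff ε) h := id_mul_cfc hsa kc (mul_fL hε)
  have h_ch : cfc (fL ε) h * h = cfc (ff ε) h := cfc_mul_id hsa kc (mul_fL hε)
  have h_hg1 : h * cfc (fG1 ε) h = cfc (fG ε) h := id_mul_cfc hsa kg1 (mul_fG1 hε)
  have h_g1h : cfc (fG1 ε) h * h = cfc (fG ε) h := cfc_mul_id hsa kg1 (mul_fG1 hε)
  have h_gg : cfc (fG ε) h * cfc (fG ε) h = cfc (fL ε) h * cfc (ff ε) h := by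
    rw [mul_cfc h kg kg (fG_mul_fG hε), mul_cfc h kc kf (fun t => rfl)]
  have h_fg : cfc (ff ε) h * cfc (fG ε) h = cfc (fG ε) h * cfc (ff ε) h :=
    cfc_commute_cfc _ _ _
  have h_fc : cfc (ff ε) h * cfc (fL ε) h = cfc (fL ε) h * cfc (ff ε) h :=
    cfc_commute_cfc _ _ _
  have hfs : star (cfc (ff ε) h) = cfc (ff ε) h := star_cfc _ _
  have hcs : star (cfc (fL ε) h) = cfc (fL ε) h := star_cfc _ _
  have hgs : star (cfc (fG ε) h) = cfc (fG ε) h := star_cfc _ _
  have hf0 : 0 ≤ cfc (ff ε) h := cfc_nonneg fun t _ => ff_nonneg ε t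
  have hff : cfc (ff ε) h * cfc (ff ε) h ≤ cfc (ff ε) h := by
    rw [mul_cfc h kf kf (fun t => rfl)]
    refine cfc_mono (fun t _ => ?_) (kf.mul kf).continuousOn kf.continuousOn
    nlinarith [ff_nonneg ε t, ff_le_one ε t]
  have hcff : cfc (fL ε) h * cfc (ff ε) h ≤ cfc (fL ε) h := by
    rw [mul_cfc h kc kf (fun t => rfl)]
    refine cfc_mono (fun t _ => ?_) (kc.mul kf).continuousOn kc.continuousOn
    have h1 : 0 ≤ fL ε t := div_nonneg (ff_nonneg ε t) (fe_pos hε t).le
    nlinarith [ff_nonneg ε t, ff_le_one ε t]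
  have hc0 : 0 ≤ cfc (fL ε) h :=
    cfc_nonneg fun t _ => div_nonneg (ff_nonneg ε t) (fe_pos hε t).le
  generalize cfc (ff ε) h = f at *
  generalize cfc (fL ε) h = c at *
  generalize cfc (fG ε) h = g at *
  generalize cfc (fG1 ε) h = g1 at *
  have hgX : g * X = 0 := by rw [← h_g1h, mul_assoc, hX0, mul_zero]
  have hXg : star X * g = 0 := by rw [← h_hg1, ← mul_assoc, hX1, zero_mul]
  have hfX : f * X = 0 := by rw [← h_ch, mul_assoc, hX0, mul_zero]
  have hXf : star X * f = 0 := by rw [← h_hc, ← mul_assoc, hX1, zero_mul]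
  have hXX : ∀ y, star X * (X * y) = h * y := fun y => by rw [hh, mul_assoc]
  have hgX' : ∀ y, g * (X * y) = 0 := fun y => by rw [← mul_assoc, hgX, zero_mul]
  have hXg' : ∀ y, star X * (g * y) = 0 := fun y => by rw [← mul_assoc, hXg, zero_mul]
  have hfX' : ∀ y, f * (X * y) = 0 := fun y => by rw [← mul_assoc, hfX, zero_mul]
  have hXf' : ∀ y, star X * (f * y) = 0 := fun y => by rw [← mul_assoc, hXf, zero_mul]
  have hch' : ∀ y, c * (h * y) = f * y := fun y => by rw [← mul_assoc, h_ch]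
  have hhc' : ∀ y, h * (c * y) = f * y := fun y => by rw [← mul_assoc, h_hc]
  have hgg' : ∀ y, g * (g * y) = c * (f * y) := fun y => by rw [← mul_assoc, h_gg, mul_assoc]
  have h_hg : h * g = g * h := by
    calc h * g = h * (g1 * h) := by rw [h_g1h]
      _ = (h * g1) * h := by rw [mul_assoc]
      _ = g * h := by rw [h_hg1]
  have h_fh : f * h = h * f := by
    calc f * h = (h * c) * h := by rw [h_hc]
      _ = h * (c * h) := by rw [mul_assoc]
      _ = h * f := by rw [h_ch]
  have h_ghg : g * (h * g) = f * f := by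
    rw [h_hg, ← mul_assoc, h_gg, mul_assoc, h_fh, hch']
  have h_ghc : ∀ y, g * (h * (c * y)) = f * (g * y) := fun y => by
    rw [hhc', ← mul_assoc, ← h_fg, mul_assoc]
  have h_gf : g * f = f * g := h_fg.symm
  have h_gf' : ∀ y, g * (f * y) = f * (g * y) := fun y => by rw [← mul_assoc, h_gf, mul_assoc]
  have hP0 : 0 ≤ f + X * (c * star X) := by
    refine add_nonneg hf0 ?_
    rw [← mul_assoc]
    exact star_right_conjugate_nonneg hc0 X
  have hPP : (f + X * (c * star X)) * (f + X * (c * star X)) ≤ f + X * (c * star X) := by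
    have e : (f + X * (c * star X)) * (f + X * (c * star X)) = f * f + X * (c * f) * star X := by
      simp only [mul_assoc, add_mul, mul_add, hXX, hfX, hfX', hXf, hXf', hhc', zero_mul, mul_zero,
        add_zero, zero_add]
    rw [e]
    refine add_le_add hff ?_
    rw [← mul_assoc X c (star X)]
    exact star_right_conjugate_le_conjugate hcff X
  have hPn : ‖f + X * (c * star X)‖ ≤ 1 := by
    have h1 := CStarAlgebra.norm_le_norm_of_nonneg_of_le
      (IsSelfAdjoint.of_nonneg hP0).mul_self_nonneg hPP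
    rw [(IsSelfAdjoint.of_nonneg hP0).norm_mul_self] at h1
    nlinarith [norm_nonneg (f + X * (c * star X))]
  refine ⟨f, g * star X, X * g, X * (c * star X), ?_, ?_, ?_, rfl⟩
  · constructor
    · exact hfs
    · rw [star_mul, star_star, hgs]
    · rw [star_mul, star_mul, star_star, hcs, mul_assoc]
    all_goals
      first
      | simp only [mul_assoc, add_mul, hXX, hgX, hgX', hXg, hXg', hfX, hfX', hXf, hXf', hch', hhc',
          hgg', h_gg, h_ghg, h_ghc, h_gf', zero_mul, mul_zero, add_zero, zero_add, h_gf, h_fc]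
      | skip
  · rw [← CStarAlgebra.nonneg_iff_eq_star_mul_self]
    exact hP0
  · rw [← CStarAlgebra.nonneg_iff_eq_star_mul_self, sub_nonneg]
    exact (CStarAlgebra.norm_le_one_iff_of_nonneg _ hP0).mp hPn


theorem exists_a [PartialOrder F] [StarOrderedRing F] {n : ℕ} (X : F) (v w : Fin n → F)
    (hsum : ∑ i, v i * X * w i = 1) :
    ∃ a : Fin n → F, ∑ i, star (a i) * (star X * X) * a i = 1 := by
  obtain ⟨C, hC, h⟩ := cs Finset.univ (fun i => v i * X * w i)
  rw [hsum, star_one, one_mul] at h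
  set M : ℝ := 1 + ∑ i, ‖v i‖ ^ 2 with hM
  have hS : 0 ≤ ∑ i, ‖v i‖ ^ 2 := Finset.sum_nonneg fun i _ => by positivity
  have hM0 : 0 < M := by positivity
  have hMi : ∀ i, ‖v i‖ ^ 2 ≤ M := by
    intro i
    have := Finset.single_le_sum (f := fun i => ‖v i‖ ^ 2) (fun i _ => by positivity)
      (Finset.mem_univ i)
    linarith
  set Z : F := ∑ i, star (w i) * (star X * X) * w i with hZ
  have hi : ∀ i, star (v i * X * w i) * (v i * X * w i) ≤ M • (star (w i) * (star X * X) * w i) := by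
    intro i
    have e1 : star (v i * X * w i) * (v i * X * w i)
        = star (X * w i) * (star (v i) * v i) * (X * w i) := by
      simp only [star_mul, mul_assoc]
    rw [e1]
    refine (star_left_conjugate_le_conjugate (CStarAlgebra.star_mul_le_algebraMap_norm_sq)
      (X * w i)).trans ?_
    rw [Algebra.algebraMap_eq_smul_one, mul_smul_comm, mul_one, smul_mul_assoc]
    have e2 : star (X * w i) * (X * w i) = star (w i) * (star X * X) * w i := by
      simp only [star_mul, mul_assoc]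
    rw [e2]
    have h0 : 0 ≤ star (w i) * (star X * X) * w i := by
      rw [← e2]; exact star_mul_self_nonneg _
    exact smul_le_smul_of_nonneg_right (hMi i) h0
  have h1 : (1 : F) ≤ (C * M) • Z := by
    refine h.trans ?_
    rw [mul_smul]
    refine smul_le_smul_of_nonneg_left ?_ hC.le
    rw [hZ, Finset.smul_sum]
    exact Finset.sum_le_sum fun i _ => hi i
  have hCM : 0 < C * M := mul_pos hC hM0
  have h2 : (C * M)⁻¹ • (1 : F) ≤ Z := by
    have := smul_le_smul_of_nonneg_left h1 (inv_pos.mpr hCM).le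
    rwa [smul_smul, inv_mul_cancel₀ hCM.ne', one_smul] at this
  have h3 : IsStrictlyPositive ((C * M)⁻¹ • (1 : F)) :=
    IsStrictlyPositive.smul (inv_pos.mpr hCM) isStrictlyPositive_one
  have h4 : IsStrictlyPositive Z := h3.of_le h2
  obtain ⟨r, hr, hrZ⟩ := inv_sqrt Z h4
  refine ⟨fun i => w i * r, ?_⟩
  have : ∀ i, star (w i * r) * (star X * X) * (w i * r)
      = r * (star (w i) * (star X * X) * w i) * r := by
    intro i
    simp only [star_mul, hr, mul_assoc]
  simp only [this]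
  rw [← Finset.sum_mul, ← Finset.mul_sum]
  exact hrZ

theorem exists_sigma [PartialOrder F] [StarOrderedRing F] {n : ℕ} (X : F) (a : Fin n → F)
    (hsum : ∑ i, star (a i) * (star X * X) * a i = 1) :
    ∃ ε : ℝ, 0 < ε ∧ ∃ σ : Fin n → F, (∀ i, cfc (ff ε) (star X * X) * σ i = σ i) ∧
      ∑ i, star (σ i) * σ i = 1 := by
  obtain ⟨h, hh⟩ : ∃ h : F, h = star X * X := ⟨_, rfl⟩
  rw [← hh] at hsum ⊢
  have hsa : IsSelfAdjoint h := by rw [hh]; exact IsSelfAdjoint.star_mul_self X
  have hpos : 0 ≤ h := by rw [hh]; exact star_mul_self_nonneg X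
  set S : ℝ := ∑ i, ‖a i‖ ^ 2 with hS
  have hS0 : 0 ≤ S := Finset.sum_nonneg fun i _ => by positivity
  set ε : ℝ := 1 / (2 * (1 + S)) with hε
  have hε0 : 0 < ε := by positivity
  have hεS : 2 * ε * S < 1 := by
    rw [hε]
    field_simp
    linarith
  refine ⟨ε, hε0, ?_⟩
  set q : F := cfc (fk ε) h with hq
  have hqs : star q = q := star_cfc _ _
  have hfq : cfc (ff ε) h * q = q := by
    rw [hq, mul_cfc h (cont_ff ε) (cont_fk ε) (ff_mul_fk hε0)]
  have hnorm : ‖h - q * q‖ ≤ 2 * ε := by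
    have e : h - q * q = cfc (fun t => t - fk ε t * fk ε t) h := by
      rw [cfc_sub (fun t : ℝ => t) (fun t => fk ε t * fk ε t) h continuous_id.continuousOn
        ((cont_fk ε).mul (cont_fk ε)).continuousOn, cfc_id' ℝ h hsa,
        cfc_mul (fk ε) (fk ε) h (cont_fk ε).continuousOn (cont_fk ε).continuousOn]
    rw [e]
    refine norm_cfc_le (by positivity) fun t ht => ?_
    have ht0 : 0 ≤ t := spectrum_nonneg_of_nonneg hpos ht
    have : fk ε t * fk ε t = max (t - 2 * ε) 0 := Real.mul_self_sqrt (le_max_right _ _)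
    rw [this, Real.norm_eq_abs, abs_le]
    rcases le_total (t - 2 * ε) 0 with h1 | h1
    · rw [max_eq_right h1]; constructor <;> linarith
    · rw [max_eq_left h1]; constructor <;> linarith
  set B : F := ∑ i, star (a i) * (q * q) * a i with hB
  have hB0 : 0 ≤ B := by
    refine Finset.sum_nonneg fun i _ => ?_
    have : star (a i) * (q * q) * a i = star (q * a i) * (q * a i) := by
      simp only [star_mul, hqs, mul_assoc]
    rw [this]
    exact star_mul_self_nonneg _
  have hBn : ‖1 - B‖ < 1 := by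
    have e : 1 - B = ∑ i, star (a i) * (h - q * q) * a i := by
      rw [← hsum, hB, ← Finset.sum_sub_distrib]
      refine Finset.sum_congr rfl fun i _ => ?_
      noncomm_ring
    rw [e]
    refine lt_of_le_of_lt (norm_sum_le _ _) (lt_of_le_of_lt ?_ hεS)
    rw [hS, Finset.mul_sum]
    refine Finset.sum_le_sum fun i _ => ?_
    calc ‖star (a i) * (h - q * q) * a i‖ ≤ ‖star (a i)‖ * ‖h - q * q‖ * ‖a i‖ :=
          (norm_mul_le _ _).trans (mul_le_mul_of_nonneg_right (norm_mul_le _ _) (norm_nonneg _))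
      _ ≤ ‖a i‖ * (2 * ε) * ‖a i‖ := by rw [norm_star]; gcongr
      _ = 2 * ε * ‖a i‖ ^ 2 := by ring
  have hBu : IsUnit B := by
    have := isUnit_one_sub_of_norm_lt_one hBn
    rwa [sub_sub_cancel] at this
  obtain ⟨r, hr, hrB⟩ := inv_sqrt B (IsStrictlyPositive.iff_of_unital.mpr ⟨hB0, hBu⟩)
  refine ⟨fun i => q * a i * r, fun i => ?_, ?_⟩
  · rw [← mul_assoc, ← mul_assoc, hfq]
  · have : ∀ i, star (q * a i * r) * (q * a i * r) = r * (star (a i) * (q * q) * a i) * r := by
      intro i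
      simp only [star_mul, hr, hqs, mul_assoc]
    simp only [this]
    rw [← Finset.sum_mul, ← Finset.mul_sum]
    exact hrB

end Vale.Agent.P101.Base

namespace Vale.Agent.P101

universe u

theorem base : S_BASE.{u} := by
  intro F _ hF
  letI := CStarAlgebra.spectralOrder F
  haveI := CStarAlgebra.spectralOrderedRing F
  obtain ⟨X, hX, n, v, w, hsum⟩ := hF
  have hsum' : ∑ i : Fin (n + 1), (Fin.cons 0 v : Fin (n + 1) → F) i * X
      * (Fin.cons 0 w : Fin (n + 1) → F) i = 1 := by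
    rw [Fin.sum_univ_succ]
    simp [hsum]
  obtain ⟨a, ha⟩ := Base.exists_a X _ _ hsum'
  obtain ⟨ε, hε, σ, hσ, hs⟩ := Base.exists_sigma X a ha
  obtain ⟨P00, P01, P10, P11, hrel, h0, h1, hP⟩ := Base.rel_of_sqzero X hX hε
  refine ⟨n, Base.pmap P00 P01 P10 P11, Base.oz_pmap hrel h0 h1, σ, fun i => ?_, hs⟩
  rw [Base.pmap_single, hP]
  exact hσ i

end Vale.Agent.P101
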