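import Vale.Agent.P101.Defs

/-!
# P101: the converse direction: the dimension drop algebras have no characters
-/

open Matrix

namespace Vale.Agent.P101

universe u

/-- a multiplicative (linear) functional on matrices of size at least 2 vanishes -/
theorem mult_zero {n : ℕ} (φ : Matrix (Fin (n + 2)) (Fin (n + 2)) ℂ → ℂ)
    (hadd : ∀ a b, φ (a + b) = φ a + φ b) (hmul : ∀ a b, φ (a * b) = φ a * φ b) : φ 1 = 0 := by
  have h0 : φ 0 = 0 := by
    have := hadd 0 0
    rw [add_zero] at this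
    exact left_eq_add.mp this
  have hoff : ∀ i j : Fin (n + 2), i ≠ j → φ (Matrix.single i j 1) = 0 := by
    intro i j hij
    have h := hmul (Matrix.single i j 1) (Matrix.single i j 1)
    rw [Matrix.single_mul_single_of_ne _ _ _ _ hij.symm, h0] at h
    exact (mul_self_eq_zero.mp h.symm)
  have hdiag : ∀ i : Fin (n + 2), φ (Matrix.single i i 1) = 0 := by
    intro i
    obtain ⟨j, hj⟩ := exists_ne i
    have h := hmul (Matrix.single i j 1) (Matrix.single j i 1)
    rw [Matrix.single_mul_single_same, one_mul, hoff i j hj.symm, zero_mul] at h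
    exact h
  have hsum : ∀ s : Finset (Fin (n + 2)), φ (∑ i ∈ s, Matrix.single i i 1) = 0 := by
    intro s
    induction s using Finset.induction_on with
    | empty => simpa using h0
    | insert a s ha ih => rw [Finset.sum_insert ha, hadd, ih, hdiag, add_zero]
  have h1 : (1 : Matrix (Fin (n + 2)) (Fin (n + 2)) ℂ) = ∑ i, Matrix.single i i 1 := by
    rw [Matrix.sum_single_one]
  rw [h1]
  exact hsum _

/-- the Rørdam–Winter relations exclude characters -/
theorem rw_noChar {F : Type u} [Ring F] [StarRing F] [Algebra ℂ F] (n : ℕ) (h : RW n F) :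
    IsEmpty (F →⋆ₐ[ℂ] ℂ) := by
  refine ⟨fun χ => ?_⟩
  obtain ⟨p, hp, s, hs, hs1⟩ := h
  set φ : Matrix (Fin (n + 2)) (Fin (n + 2)) ℂ → ℂ := fun a => χ (p a) with hφ
  have hmul : ∀ a b, φ a * φ b = φ 1 * φ (a * b) := by
    intro a b
    change χ (p a) * χ (p b) = χ (p 1) * χ (p (a * b))
    rw [← map_mul χ, ← map_mul χ, hp.mul_map a b]
  have hadd : ∀ a b, φ (a + b) = φ a + φ b := fun a b => by simp only [hφ, map_add]
  have h0 : φ 0 = 0 := by simp only [hφ, map_zero]
  have hoff : ∀ i j : Fin (n + 2), i ≠ j → φ (Matrix.single i j 1) = 0 := by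
    intro i j hij
    have h := hmul (Matrix.single i j 1) (Matrix.single i j 1)
    rw [Matrix.single_mul_single_of_ne _ _ _ _ hij.symm, h0, mul_zero] at h
    exact (mul_self_eq_zero.mp h)
  have hdiag : ∀ i : Fin (n + 2), φ (Matrix.single i i 1) = 0 := by
    intro i
    obtain ⟨j, hj⟩ := exists_ne i
    have h := hmul (Matrix.single i j 1) (Matrix.single j i 1)
    rw [Matrix.single_mul_single_same, one_mul, hoff i j hj.symm, zero_mul] at h
    have h2 := hmul (Matrix.single i i 1) (Matrix.single i i 1)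
    rw [Matrix.single_mul_single_same, one_mul, ← h] at h2
    exact mul_self_eq_zero.mp h2
  have h1 : φ 1 = 0 := by
    have h1 : (1 : Matrix (Fin (n + 2)) (Fin (n + 2)) ℂ) = ∑ i, Matrix.single i i 1 := by
      rw [Matrix.sum_single_one]
    rw [h1]
    simp only [hφ, map_sum]
    exact Finset.sum_eq_zero fun i _ => hdiag i
  have hχs : χ s = 0 := by
    rw [← hs, map_mul]
    have := hdiag 0
    simp only [hφ] at this
    rw [this, zero_mul]
  have hone : χ (star s * s) = 1 := by
    rw [hs1, map_sub, map_one]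
    simp only [hφ] at h1
    rw [h1, sub_zero]
  rw [map_mul, hχs, mul_zero] at hone
  exact zero_ne_one hone

/-- `t ↦ c t • M` as a continuous matrix valued function -/
noncomputable def cm {N : Type*} [Fintype N] [DecidableEq N] (c : C(unitInterval, ℂ))
    (M : Matrix N N ℂ) : C(unitInterval, Matrix N N ℂ) :=
  ⟨fun t => c t • M, by fun_prop⟩

theorem cm_apply {N : Type*} [Fintype N] [DecidableEq N] (c : C(unitInterval, ℂ))
    (M : Matrix N N ℂ) (t : unitInterval) : cm c M t = c t • M := rfl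

theorem cm_mul {N : Type*} [Fintype N] [DecidableEq N] (c c' : C(unitInterval, ℂ))
    (M M' : Matrix N N ℂ) : cm c M * cm c' M' = cm (c * c') (M * M') := by
  ext1 t
  rw [ContinuousMap.mul_apply, cm_apply, cm_apply, cm_apply, ContinuousMap.mul_apply,
    smul_mul_smul_comm]

theorem cm_add {N : Type*} [Fintype N] [DecidableEq N] (c : C(unitInterval, ℂ))
    (M M' : Matrix N N ℂ) : cm c (M + M') = cm c M + cm c M' := by
  ext1 t
  rw [ContinuousMap.add_apply, cm_apply, cm_apply, cm_apply, smul_add]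

theorem cm_zero {N : Type*} [Fintype N] [DecidableEq N] (c : C(unitInterval, ℂ)) :
    cm c (0 : Matrix N N ℂ) = 0 := by
  ext1 t
  rw [cm_apply, smul_zero]; rfl

/-- the function `t` -/
noncomputable def tt : C(unitInterval, ℂ) := ⟨fun t => ((t : ℝ) : ℂ), by fun_prop⟩

theorem tt0 : tt 0 = 0 := by simp [tt]
theorem tt1 : tt 1 = 1 := by simp [tt]

/-- elements of the dimension drop algebra vanishing at both ends -/
noncomputable def elK {p q : ℕ} (c : C(unitInterval, ℂ)) (h0 : c 0 = 0) (h1 : c 1 = 0)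
    (M : Matrix (Fin p × Fin q) (Fin p × Fin q) ℂ) : DimDrop p q :=
  ⟨cm c M, ⟨0, by rw [cm_apply, h0, zero_smul]; simp⟩, 0, by rw [cm_apply, h1, zero_smul]; simp⟩

/-- elements of the dimension drop algebra vanishing at `1` -/
noncomputable def elE {p : ℕ} (q : ℕ) (a : Matrix (Fin p) (Fin p) ℂ) : DimDrop p q :=
  ⟨cm (1 - tt) (Matrix.kroneckerMap (· * ·) a (1 : Matrix (Fin q) (Fin q) ℂ)),
    ⟨a, by rw [cm_apply, ContinuousMap.sub_apply, tt0, ContinuousMap.one_apply, sub_zero, one_smul]⟩,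
    0, by
      rw [cm_apply, ContinuousMap.sub_apply, tt1, ContinuousMap.one_apply, sub_self, zero_smul]
      simp⟩

/-- elements of the dimension drop algebra vanishing at `0` -/
noncomputable def elG (p : ℕ) {q : ℕ} (b : Matrix (Fin q) (Fin q) ℂ) : DimDrop p q :=
  ⟨cm tt (Matrix.kroneckerMap (· * ·) (1 : Matrix (Fin p) (Fin p) ℂ) b),
    ⟨0, by rw [cm_apply, tt0, zero_smul]; simp⟩, b, by rw [cm_apply, tt1, one_smul]⟩

theorem elK_mul {p q : ℕ} (c c' : C(unitInterval, ℂ)) (h0 : c 0 = 0) (h1 : c 1 = 0)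
    (h0' : c' 0 = 0) (h1' : c' 1 = 0) (M M' : Matrix (Fin p × Fin q) (Fin p × Fin q) ℂ) :
    elK c h0 h1 M * elK c' h0' h1' M' = elK (c * c') (by rw [ContinuousMap.mul_apply, h0, zero_mul])
      (by rw [ContinuousMap.mul_apply, h1, zero_mul]) (M * M') :=
  Subtype.ext (cm_mul c c' M M')

theorem elK_add {p q : ℕ} (c : C(unitInterval, ℂ)) (h0 : c 0 = 0) (h1 : c 1 = 0)
    (M M' : Matrix (Fin p × Fin q) (Fin p × Fin q) ℂ) :
    elK c h0 h1 (M + M') = elK c h0 h1 M + elK c h0 h1 M' :=
  Subtype.ext (cm_add c M M')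

theorem elK_zero {p q : ℕ} (c : C(unitInterval, ℂ)) (h0 : c 0 = 0) (h1 : c 1 = 0) :
    elK c h0 h1 (0 : Matrix (Fin p × Fin q) (Fin p × Fin q) ℂ) = 0 :=
  Subtype.ext (cm_zero c)

theorem elK_smul {p q : ℕ} (c : C(unitInterval, ℂ)) (h0 : c 0 = 0) (h1 : c 1 = 0) (x : ℂ)
    (M : Matrix (Fin p × Fin q) (Fin p × Fin q) ℂ) :
    elK c h0 h1 (x • M) = x • elK c h0 h1 M := by
  apply Subtype.ext
  change cm c (x • M) = x • cm c M
  ext1 t
  rw [ContinuousMap.smul_apply, cm_apply, cm_apply, smul_comm]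

theorem tc0 : (tt * (1 - tt)) 0 = 0 := by
  rw [ContinuousMap.mul_apply, tt0, zero_mul]

theorem tc1 : (tt * (1 - tt)) 1 = 0 := by
  rw [ContinuousMap.mul_apply, ContinuousMap.sub_apply, tt1, ContinuousMap.one_apply, sub_self,
    mul_zero]

theorem elE_add {p : ℕ} (q : ℕ) (a b : Matrix (Fin p) (Fin p) ℂ) :
    elE q (a + b) = elE q a + elE q b := by
  apply Subtype.ext
  change cm _ _ = cm _ _ + cm _ _
  rw [← cm_add, Matrix.add_kronecker]

theorem elG_add (p : ℕ) {q : ℕ} (a b : Matrix (Fin q) (Fin q) ℂ) :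
    elG p (a + b) = elG p a + elG p b := by
  apply Subtype.ext
  change cm _ _ = cm _ _ + cm _ _
  rw [← cm_add, Matrix.kronecker_add]

theorem elE_mul {p : ℕ} (q : ℕ) (a b : Matrix (Fin p) (Fin p) ℂ) :
    elE q (a * b) = elE q a * elE q b + elK (tt * (1 - tt)) tc0 tc1
      (Matrix.kroneckerMap (· * ·) (a * b) (1 : Matrix (Fin q) (Fin q) ℂ)) := by
  apply Subtype.ext
  change cm _ _ = cm _ _ * cm _ _ + cm _ _
  rw [cm_mul, ← Matrix.mul_kronecker_mul, one_mul]
  ext1 t
  rw [ContinuousMap.add_apply, cm_apply, cm_apply, cm_apply, ← add_smul]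
  congr 1
  simp only [ContinuousMap.mul_apply, ContinuousMap.sub_apply, ContinuousMap.one_apply]
  ring

theorem elG_mul (p : ℕ) {q : ℕ} (a b : Matrix (Fin q) (Fin q) ℂ) :
    elG p (a * b) = elG p a * elG p b + elK (tt * (1 - tt)) tc0 tc1
      (Matrix.kroneckerMap (· * ·) (1 : Matrix (Fin p) (Fin p) ℂ) (a * b)) := by
  apply Subtype.ext
  change cm _ _ = cm _ _ * cm _ _ + cm _ _
  rw [cm_mul, ← Matrix.mul_kronecker_mul, one_mul]
  ext1 t
  rw [ContinuousMap.add_apply, cm_apply, cm_apply, cm_apply, ← add_smul]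
  congr 1
  simp only [ContinuousMap.mul_apply, ContinuousMap.sub_apply, ContinuousMap.one_apply]
  ring

theorem elone (p q : ℕ) : (1 : DimDrop p q) = elE q 1 + elG p 1 := by
  apply Subtype.ext
  change (1 : C(unitInterval, _)) = cm _ _ + cm _ _
  ext1 t
  rw [ContinuousMap.add_apply, cm_apply, cm_apply, ContinuousMap.sub_apply,
    ContinuousMap.one_apply, ContinuousMap.one_apply, Matrix.one_kronecker_one, ← add_smul,
    sub_add_cancel, one_smul]

theorem elK_char {n m : ℕ} (χ : DimDrop (n + 2) (m + 2) →⋆ₐ[ℂ] ℂ) (c : C(unitInterval, ℂ))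
    (h0 : c 0 = 0) (h1 : c 1 = 0) (M : Matrix (Fin (n + 2) × Fin (m + 2)) _ ℂ) :
    χ (elK c h0 h1 M) = 0 := by
  have hoff : ∀ i j, i ≠ j → χ (elK c h0 h1 (Matrix.single i j 1)) = 0 := by
    intro i j hij
    refine mul_self_eq_zero.mp ?_
    rw [← map_mul, elK_mul, Matrix.single_mul_single_of_ne _ _ _ _ hij.symm, elK_zero, map_zero]
  have hdiag : ∀ i, χ (elK c h0 h1 (Matrix.single i i 1)) = 0 := by
    intro i
    obtain ⟨j, hj⟩ := exists_ne i
    refine mul_self_eq_zero.mp ?_
    have : elK c h0 h1 (Matrix.single i i 1) * elK c h0 h1 (Matrix.single i i 1)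
        = elK c h0 h1 (Matrix.single i j 1) * elK c h0 h1 (Matrix.single j i 1) := by
      rw [elK_mul, elK_mul, Matrix.single_mul_single_same, Matrix.single_mul_single_same]
    rw [← map_mul, this, map_mul, hoff i j hj.symm, zero_mul]
  have hsing : ∀ i j (x : ℂ), χ (elK c h0 h1 (Matrix.single i j x)) = 0 := by
    intro i j x
    have : Matrix.single i j x = x • Matrix.single i j (1 : ℂ) := by
      rw [Matrix.smul_single, smul_eq_mul, mul_one]
    rw [this, elK_smul, map_smul]
    by_cases hij : i = j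
    · subst hij
      rw [hdiag, smul_zero]
    · rw [hoff i j hij, smul_zero]
  have hgen : ∀ s : Finset ((Fin (n + 2) × Fin (m + 2)) × (Fin (n + 2) × Fin (m + 2))),
      χ (elK c h0 h1 (∑ x ∈ s, Matrix.single x.1 x.2 (M x.1 x.2))) = 0 := by
    intro s
    induction s using Finset.induction_on with
    | empty => rw [Finset.sum_empty, elK_zero, map_zero]
    | insert a s ha ih => rw [Finset.sum_insert ha, elK_add, map_add, ih, hsing, add_zero]
  have hM : M = ∑ x : (Fin (n + 2) × Fin (m + 2)) × (Fin (n + 2) × Fin (m + 2)),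
      Matrix.single x.1 x.2 (M x.1 x.2) := by
    rw [Fintype.sum_prod_type]
    exact Matrix.matrix_eq_sum_single M
  rw [hM]
  exact hgen Finset.univ

/-- the dimension drop algebras `I(n+2, m+2)` have no characters -/
theorem dimDrop_noChar (n m : ℕ) : IsEmpty (DimDrop (n + 2) (m + 2) →⋆ₐ[ℂ] ℂ) := by
  refine ⟨fun χ => ?_⟩
  have hE1 : χ (elE (m + 2) 1) = 0 := by
    refine mult_zero (fun a => χ (elE (m + 2) a)) ?_ ?_
    · intro a b
      change χ (elE (m + 2) (a + b)) = χ (elE (m + 2) a) + χ (elE (m + 2) b)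
      rw [elE_add, map_add]
    · intro a b
      change χ (elE (m + 2) (a * b)) = χ (elE (m + 2) a) * χ (elE (m + 2) b)
      rw [elE_mul, map_add, map_mul, elK_char, add_zero]
  have hG1 : χ (elG (n + 2) 1) = 0 := by
    refine mult_zero (fun a => χ (elG (n + 2) a)) ?_ ?_
    · intro a b
      change χ (elG (n + 2) (a + b)) = χ (elG (n + 2) a) + χ (elG (n + 2) b)
      rw [elG_add, map_add]
    · intro a b
      change χ (elG (n + 2) (a * b)) = χ (elG (n + 2) a) * χ (elG (n + 2) b)
      rw [elG_mul, map_add, map_mul, elK_char, add_zero]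
  have := map_one χ
  rw [elone, map_add, hE1, hG1, add_zero] at this
  exact zero_ne_one this

/-- no characters on an algebra which receives a unital map from a dimension drop algebra -/
theorem noChar_of_dimDrop {F : Type u} [Ring F] [StarRing F] [Algebra ℂ F] (n m : ℕ)
    (h : Nonempty (DimDrop (n + 2) (m + 2) →⋆ₐ[ℂ] F)) : IsEmpty (F →⋆ₐ[ℂ] ℂ) := by
  obtain ⟨φ⟩ := h
  exact ⟨fun χ => (dimDrop_noChar n m).false (χ.comp φ)⟩

end Vale.Agent.P101
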