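import Vale.Agent.P101.Defs

namespace Vale.Agent.P101

universe u

theorem copies : S_COPIES.{u} := by
  intro F _ hF S hS K
  induction K with
  | zero => exact ⟨Fin.elim0, fun l => l.elim0⟩
  | succ K ih =>
    obtain ⟨κ, hκ⟩ := ih
    set gen : S → StarAlgebra.adjoin ℂ S := fun s => ⟨s, StarAlgebra.subset_adjoin ℂ S s.2⟩
      with hgen
    haveI : Countable S := hS.to_subtype
    set T : Set F := S ∪ ⋃ l : Fin K, Set.range fun s : S => κ l (gen s) with hT
    have hTc : T.Countable := hS.union (Set.countable_iUnion fun l => Set.countable_range _)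
    obtain ⟨μ, hμ⟩ := hF T hTc
    have hST : StarAlgebra.adjoin ℂ S ≤ StarAlgebra.adjoin ℂ T :=
      StarAlgebra.adjoin_mono Set.subset_union_left
    have hmem : ∀ (l : Fin K) (y : StarAlgebra.adjoin ℂ S), κ l y ∈ StarAlgebra.adjoin ℂ T := by
      intro l
      have hcomap : StarAlgebra.adjoin ℂ (Set.range gen) ≤ (StarAlgebra.adjoin ℂ T).comap (κ l) := by
        refine StarAlgebra.adjoin_le ?_
        rintro _ ⟨s, rfl⟩
        exact StarAlgebra.subset_adjoin ℂ T (Or.inr (Set.mem_iUnion.mpr ⟨l, s, rfl⟩))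
      have htop : ∀ y : StarAlgebra.adjoin ℂ S, y ∈ StarAlgebra.adjoin ℂ (Set.range gen) := by
        rintro ⟨y, hy⟩
        refine StarAlgebra.adjoin_induction
          (p := fun z hz => (⟨z, hz⟩ : StarAlgebra.adjoin ℂ S) ∈
            StarAlgebra.adjoin ℂ (Set.range gen)) ?_ ?_ ?_ ?_ ?_ hy
        · intro z hz
          exact StarAlgebra.subset_adjoin ℂ _ ⟨⟨z, hz⟩, rfl⟩
        · intro r
          exact algebraMap_mem _ r
        · intro z w hz hw hz' hw'
          exact add_mem hz' hw'
        · intro z w hz hw hz' hw'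
          exact mul_mem hz' hw'
        · intro z hz hz'
          exact star_mem hz'
      intro y
      exact hcomap (htop y)
    refine ⟨Fin.cons (μ.comp (StarSubalgebra.inclusion hST)) κ, ?_⟩
    intro l l' hll x y
    revert hll
    refine Fin.cases ?_ (fun j => ?_) l
    · refine Fin.cases (fun h => absurd rfl h) (fun j' _ => ?_) l'
      rw [Fin.cons_zero, Fin.cons_succ]
      exact hμ (StarSubalgebra.inclusion hST x) ⟨κ j' y, hmem j' y⟩
    · refine Fin.cases (fun _ => ?_) (fun j' h => ?_) l'
      · rw [Fin.cons_zero, Fin.cons_succ]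
        exact (hμ (StarSubalgebra.inclusion hST y) ⟨κ j x, hmem j x⟩).symm
      · rw [Fin.cons_succ, Fin.cons_succ]
        exact hκ j j' (fun e => h (by rw [e])) x y

end Vale.Agent.P101
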