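import Mathlib
import Vale.Agent.P101.Defs

/-!
# P101, module FAR

A fully noncentral self-adjoint element gives a chain partition of unity with full far part.
-/

open WithCStarModule Finset
open scoped InnerProductSpace CStarAlgebra

namespace Vale.Agent.P101

universe u

/-- operator Cauchy–Schwarz -/
lemma norm_sum_mul_sq_le {F : Type u} [CStarAlgebra F] {m : ℕ} (x y : Fin m → F) :
    ‖∑ i, x i * y i‖ ^ 2 ≤ ‖∑ i, x i * star (x i)‖ * ‖∑ i, star (y i) * y i‖ := by
  let _ : PartialOrder F := CStarAlgebra.spectralOrder F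
  have _ : StarOrderedRing F := CStarAlgebra.spectralOrderedRing F
  let X : C⋆ᵐᵒᵈ(F, Π _ : Fin m, F) := (WithCStarModule.equiv F (Π _ : Fin m, F)).symm x
  let Y : C⋆ᵐᵒᵈ(F, Π _ : Fin m, F) :=
    (WithCStarModule.equiv F (Π _ : Fin m, F)).symm (fun i => star (y i))
  have h : ‖(⟪Y, X⟫_F : F)‖ ≤ ‖Y‖ * ‖X‖ :=
    CStarModule.norm_inner_le (C⋆ᵐᵒᵈ(F, Π _ : Fin m, F)) (x := Y) (y := X)
  have h1 : (⟪Y, X⟫_F : F) = ∑ i, x i * y i := by
    rw [pi_inner]
    refine Finset.sum_congr rfl fun i _ => ?_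
    rw [inner_def]
    simp [X, Y]
  have h2 : ‖X‖ ^ 2 = ‖∑ i, x i * star (x i)‖ := by
    rw [pi_norm_sq]; rfl
  have h3 : ‖Y‖ ^ 2 = ‖∑ i, star (y i) * y i‖ := by
    rw [pi_norm_sq]
    congr 1
    refine Finset.sum_congr rfl fun i _ => ?_
    rw [inner_def]
    simp [Y]
  rw [← h1, ← h2, ← h3]
  calc _ ≤ (‖Y‖ * ‖X‖) ^ 2 := by gcongr
    _ = _ := by ring

lemma norm_sum_conj_le {F : Type u} [CStarAlgebra F] {m : ℕ} (b : F) (y : Fin m → F) :
    ‖∑ i, star (b * y i) * (b * y i)‖ ≤ ‖b‖ ^ 2 * ‖∑ i, star (y i) * y i‖ := by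
  let _ : PartialOrder F := CStarAlgebra.spectralOrder F
  have _ : StarOrderedRing F := CStarAlgebra.spectralOrderedRing F
  have h0 : (0 : F) ≤ ∑ i, star (b * y i) * (b * y i) :=
    Finset.sum_nonneg fun i _ => star_mul_self_nonneg _
  have h1 : ∑ i, star (b * y i) * (b * y i) ≤ (‖b‖ ^ 2) • ∑ i, star (y i) * y i := by
    rw [Finset.smul_sum]
    refine Finset.sum_le_sum fun i _ => ?_
    have h2 := star_left_conjugate_le_conjugate
      (CStarAlgebra.star_mul_le_algebraMap_norm_sq (a := b)) (y i)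
    have h3 : star (y i) * (algebraMap ℝ F (‖b‖ ^ 2)) * y i
        = (‖b‖ ^ 2) • (star (y i) * y i) := by
      rw [Algebra.algebraMap_eq_smul_one]
      simp
    rw [h3] at h2
    simpa [mul_assoc] using h2
  have h4 := CStarAlgebra.norm_le_norm_of_nonneg_of_le h0 h1
  refine h4.trans ?_
  rw [norm_smul]
  simp

/-- The inequality used: `‖∑ x i * b * y i‖ ≤ s t ‖b‖`. -/
lemma norm_sum_mid_le {F : Type u} [CStarAlgebra F] {m : ℕ} (x y : Fin m → F) (b : F)
    {s t : ℝ} (hs : 0 ≤ s) (ht : 0 ≤ t)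
    (hx : ‖∑ i, x i * star (x i)‖ ≤ s ^ 2) (hy : ‖∑ i, star (y i) * y i‖ ≤ t ^ 2) :
    ‖∑ i, x i * b * y i‖ ≤ s * t * ‖b‖ := by
  have h1 := norm_sum_mul_sq_le x (fun i => b * y i)
  have h2 := norm_sum_conj_le b y
  refine le_of_sq_le_sq ?_ (by positivity)
  simp only [mul_assoc] at h1 ⊢
  refine h1.trans ?_
  calc _ ≤ s ^ 2 * (‖b‖ ^ 2 * t ^ 2) := by
        refine mul_le_mul hx (h2.trans ?_) (norm_nonneg _) (by positivity)
        gcongr
    _ = _ := by ring

/-- clamp -/
noncomputable def clp (t : ℝ) : ℝ := max 0 (min 1 t)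

/-- tent -/
noncomputable def tent (t : ℝ) : ℝ := clp (t + 1) - clp t

lemma clp_cont : Continuous clp := by unfold clp; fun_prop
lemma tent_cont : Continuous tent := by
  unfold tent
  exact (clp_cont.comp (by fun_prop)).sub clp_cont

lemma tent_nonneg (t : ℝ) : 0 ≤ tent t := by
  unfold tent clp
  have : min 1 t ≤ min 1 (t + 1) := min_le_min_left _ (by linarith)
  have := max_le_max_left 0 this
  linarith

lemma tent_eq_zero {t : ℝ} (h : 1 ≤ |t|) : tent t = 0 := by
  unfold tent clp
  rcases le_abs.1 h with h | h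
  · rw [min_eq_left (by linarith), min_eq_left (by linarith)]; simp
  · rw [min_eq_right (by linarith), min_eq_right (by linarith), max_eq_left (by linarith),
      max_eq_left (by linarith)]; simp

lemma tent_sum (m : ℕ) (y : ℝ) (h0 : 0 ≤ y) (hy : y ≤ (m : ℝ)) :
    ∑ i : Fin (m + 1), tent (y - (i : ℕ)) = 1 := by
  rw [Fin.sum_univ_eq_sum_range (fun i : ℕ => tent (y - i)) (m + 1)]
  have h : ∀ n : ℕ, ∑ i ∈ range n, tent (y - i) = clp (y + 1) - clp (y + 1 - n) := by
    intro n
    induction n with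
    | zero => simp
    | succ n ih =>
      rw [Finset.sum_range_succ, ih]
      unfold tent
      push_cast
      have : y + 1 - (n + 1) = y - n := by ring
      rw [this]
      have : y - n + 1 = y + 1 - n := by ring
      rw [this]
      ring
  rw [h]
  unfold clp
  rw [min_eq_left (by linarith), min_eq_right (by push_cast; linarith)]
  push_cast
  rw [max_eq_right (by norm_num), max_eq_left (by linarith)]
  ring

lemma star_cfc_real {F : Type u} [CStarAlgebra F] (A : F) (u : ℝ → ℝ) :
    star (cfc u A) = cfc u A := (cfc_predicate u A).star_eq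

lemma norm_sum_sq_cfc_le {F : Type u} [CStarAlgebra F] (A : F) {m : ℕ}
    (u : Fin m → ℝ → ℝ) (hu : ∀ i, Continuous (u i)) {c : ℝ} (hc : 0 ≤ c)
    (h : ∀ x ∈ spectrum ℝ A, ∑ i, u i x ^ 2 ≤ c) :
    ‖∑ i, cfc (u i) A * cfc (u i) A‖ ≤ c := by
  have h1 : ∑ i, cfc (u i) A * cfc (u i) A = cfc (∑ i, fun x => u i x * u i x) A := by
    rw [cfc_sum_univ (fun i x => u i x * u i x) A
      (fun i => ((hu i).mul (hu i)).continuousOn)]
    refine Finset.sum_congr rfl fun i _ => ?_
    rw [cfc_mul (u i) (u i) A (hu i).continuousOn (hu i).continuousOn]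
  rw [h1]
  refine norm_cfc_le hc fun x hx => ?_
  rw [Finset.sum_apply, Real.norm_eq_abs, abs_of_nonneg]
  · simpa [sq] using h x hx
  · exact Finset.sum_nonneg fun i _ => mul_self_nonneg _

lemma near_le {F : Type u} [CStarAlgebra F] (A : F) (hA : IsSelfAdjoint A) {m : ℕ}
    (T γ : Fin m → ℝ → ℝ) (lam : Fin m → ℝ) {η : ℝ} (hη : 0 ≤ η)
    (hTc : ∀ i, Continuous (T i)) (hγc : ∀ i, Continuous (γ i))
    (hT0 : ∀ i x, 0 ≤ T i x) (hγ0 : ∀ i x, 0 ≤ γ i x)
    (hTs : ∀ x ∈ spectrum ℝ A, ∑ i, T i x = 1)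
    (hγ1 : ∀ i, ∀ x ∈ spectrum ℝ A, γ i x ≤ 1)
    (hγs : ∀ x ∈ spectrum ℝ A, ∑ i, γ i x ≤ 25)
    (hT : ∀ i x, |T i x * (x - lam i)| ≤ η * T i x)
    (hγ : ∀ i x, |(x - lam i) * γ i x| ≤ 12 * η * γ i x)
    (b : F) :
    ‖∑ i, cfc (T i) A * (A * b - b * A) * cfc (γ i) A‖ ≤ 65 * η * ‖b‖ := by
  have hT1 : ∀ i, ∀ x ∈ spectrum ℝ A, T i x ≤ 1 := by
    intro i x hx
    rw [← hTs x hx]
    exact Finset.single_le_sum (f := fun i => T i x) (fun j _ => hT0 j x) (Finset.mem_univ i)
  have e1 : ∀ i, cfc (fun x => T i x * (x - lam i)) A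
      = cfc (T i) A * (A - algebraMap ℝ F (lam i)) := by
    intro i
    rw [cfc_mul (T i) (fun x => x - lam i) A (hTc i).continuousOn (by fun_prop),
      cfc_sub (fun x => x) (fun _ => lam i) A (by fun_prop) (by fun_prop), cfc_id' ℝ A hA,
      cfc_const (lam i) A hA]
  have e2 : ∀ i, cfc (fun x => (x - lam i) * γ i x) A
      = (A - algebraMap ℝ F (lam i)) * cfc (γ i) A := by
    intro i
    rw [cfc_mul (fun x => x - lam i) (γ i) A (by fun_prop) (hγc i).continuousOn,
      cfc_sub (fun x => x) (fun _ => lam i) A (by fun_prop) (by fun_prop), cfc_id' ℝ A hA,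
      cfc_const (lam i) A hA]
  have e3 : ∑ i, cfc (T i) A * (A * b - b * A) * cfc (γ i) A
      = ∑ i, cfc (fun x => T i x * (x - lam i)) A * b * cfc (γ i) A
        - ∑ i, cfc (T i) A * b * cfc (fun x => (x - lam i) * γ i x) A := by
    rw [← Finset.sum_sub_distrib]
    refine Finset.sum_congr rfl fun i _ => ?_
    rw [e1, e2]
    have hc : algebraMap ℝ F (lam i) * b = b * algebraMap ℝ F (lam i) :=
      Algebra.commutes _ _
    have : cfc (T i) A * (A - algebraMap ℝ F (lam i)) * b * cfc (γ i) A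
        - cfc (T i) A * b * ((A - algebraMap ℝ F (lam i)) * cfc (γ i) A)
        = cfc (T i) A * (A * b - b * A - (algebraMap ℝ F (lam i) * b
          - b * algebraMap ℝ F (lam i))) * cfc (γ i) A := by noncomm_ring
    rw [this, hc]
    simp
  rw [e3]
  have b1 : ‖∑ i, cfc (fun x => T i x * (x - lam i)) A * b * cfc (γ i) A‖ ≤ η * 5 * ‖b‖ := by
    refine norm_sum_mid_le _ _ b hη (by norm_num) ?_ ?_
    · simp only [star_cfc_real]
      refine norm_sum_sq_cfc_le A _ (fun i => (hTc i).mul (by fun_prop)) (by positivity) ?_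
      intro x hx
      calc ∑ i, (T i x * (x - lam i)) ^ 2 ≤ ∑ i, η ^ 2 * T i x := by
            refine Finset.sum_le_sum fun i _ => ?_
            rw [← sq_abs]
            calc |T i x * (x - lam i)| ^ 2 ≤ (η * T i x) ^ 2 := by
                  have := hT i x
                  gcongr
              _ = η ^ 2 * (T i x * T i x) := by ring
              _ ≤ η ^ 2 * T i x := by
                  have h1 := hT1 i x hx
                  have h0 := hT0 i x
                  gcongr
                  nlinarith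
        _ = η ^ 2 := by rw [← Finset.mul_sum, hTs x hx, mul_one]
    · simp only [star_cfc_real]
      refine norm_sum_sq_cfc_le A _ hγc (by positivity) ?_
      intro x hx
      calc ∑ i, γ i x ^ 2 ≤ ∑ i, γ i x := by
            refine Finset.sum_le_sum fun i _ => ?_
            have h1 := hγ1 i x hx
            have h0 := hγ0 i x
            nlinarith
        _ ≤ 25 := hγs x hx
        _ = _ := by norm_num
  have b2 : ‖∑ i, cfc (T i) A * b * cfc (fun x => (x - lam i) * γ i x) A‖
      ≤ 1 * (12 * η * 5) * ‖b‖ := by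
    refine norm_sum_mid_le _ _ b (by norm_num) (by positivity) ?_ ?_
    · simp only [star_cfc_real]
      refine norm_sum_sq_cfc_le A _ hTc (by positivity) ?_
      intro x hx
      calc ∑ i, T i x ^ 2 ≤ ∑ i, T i x := by
            refine Finset.sum_le_sum fun i _ => ?_
            have h1 := hT1 i x hx
            have h0 := hT0 i x
            nlinarith
        _ = 1 := hTs x hx
        _ = _ := by norm_num
    · simp only [star_cfc_real]
      refine norm_sum_sq_cfc_le A _ (fun i => Continuous.mul (by fun_prop) (hγc i))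
        (by positivity) ?_
      intro x hx
      calc ∑ i, ((x - lam i) * γ i x) ^ 2 ≤ ∑ i, (12 * η) ^ 2 * γ i x := by
            refine Finset.sum_le_sum fun i _ => ?_
            rw [← sq_abs]
            calc |(x - lam i) * γ i x| ^ 2 ≤ (12 * η * γ i x) ^ 2 := by
                  have := hγ i x
                  gcongr
              _ = (12 * η) ^ 2 * (γ i x * γ i x) := by ring
              _ ≤ (12 * η) ^ 2 * γ i x := by
                  have h1 := hγ1 i x hx
                  have h0 := hγ0 i x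
                  gcongr
                  nlinarith
        _ = (12 * η) ^ 2 * ∑ i, γ i x := by rw [← Finset.mul_sum]
        _ ≤ (12 * η) ^ 2 * 25 := by
            have := hγs x hx
            gcongr
        _ = _ := by ring
  calc _ ≤ _ := norm_sub_le _ _
    _ ≤ η * 5 * ‖b‖ + 1 * (12 * η * 5) * ‖b‖ := add_le_add b1 b2
    _ = _ := by ring

/-- the indices are at distance at least `12` -/
def FarIdx {m : ℕ} (i k : Fin m) : Prop := (i : ℕ) + 12 ≤ k ∨ (k : ℕ) + 12 ≤ i

instance {m : ℕ} : DecidableRel (FarIdx (m := m)) := fun i k => by unfold FarIdx; infer_instance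

lemma card_near_le (m : ℕ) (k : Fin m) :
    ((Finset.univ : Finset (Fin m)).filter (fun i => ¬ FarIdx i k)).card ≤ 23 := by
  have h : ((Finset.univ : Finset (Fin m)).filter (fun i => ¬ FarIdx i k)).card
      ≤ (Finset.Ico ((k : ℕ) - 11) (k + 12)).card := by
    refine Finset.card_le_card_of_injOn (fun i : Fin m => (i : ℕ)) ?_ ?_
    · intro i hi
      have hi' : ¬ FarIdx i k := (Finset.mem_filter.1 (Finset.mem_coe.1 hi)).2
      unfold FarIdx at hi'
      simp only [Finset.coe_Ico, Set.mem_Ico]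
      omega
    · intro i _ j _ hij
      exact Fin.ext hij
  refine h.trans ?_
  rw [Nat.card_Ico]
  omega

/-- The chain partition of unity of a self-adjoint element of mesh `η`. -/
lemma exists_chain {F : Type u} [CStarAlgebra F] (A : F) (hA : IsSelfAdjoint A) {η : ℝ}
    (hη : 0 < η) : ∃ (m : ℕ) (f : Fin m → F),
      ∑ i, f i = 1 ∧
      (∀ i j : Fin m, (i : ℕ) + 2 ≤ j → f i * f j = 0 ∧ f j * f i = 0) ∧
      ∀ b : F, ‖∑ i, f i * (A * b - b * A) *
        ∑ k with ¬ FarIdx i k, f k‖ ≤ 65 * η * ‖b‖ := by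
  set R : ℝ := ‖A‖ with hR
  set m : ℕ := ⌈2 * R / η⌉₊ with hm
  have hspec : ∀ x ∈ spectrum ℝ A, |x| ≤ R := by
    intro x hx
    obtain (_ | _) := subsingleton_or_nontrivial F
    · simp [spectrum.of_subsingleton] at hx
    · have := spectrum.norm_le_norm_of_mem hx
      simpa using this
  set T : Fin (m + 1) → ℝ → ℝ := fun i x => tent ((x + R) / η - (i : ℕ)) with hTdef
  have hTc : ∀ i, Continuous (T i) := by
    intro i
    exact tent_cont.comp (by fun_prop)
  have hT0 : ∀ i x, 0 ≤ T i x := fun i x => tent_nonneg _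
  have hTs : ∀ x ∈ spectrum ℝ A, ∑ i, T i x = 1 := by
    intro x hx
    have h1 := abs_le.1 (hspec x hx)
    refine tent_sum m _ (div_nonneg (by linarith) hη.le) ?_
    refine le_trans ?_ (Nat.le_ceil _)
    gcongr
    linarith
  set γ : Fin (m + 1) → ℝ → ℝ := fun i x => ∑ k with ¬ FarIdx i k, T k x with hγdef
  have hγc : ∀ i, Continuous (γ i) := fun i => continuous_finsetSum _ fun k _ => hTc k
  have hγ0 : ∀ i x, 0 ≤ γ i x := fun i x => Finset.sum_nonneg fun k _ => hT0 k x
  have hγ1 : ∀ i, ∀ x ∈ spectrum ℝ A, γ i x ≤ 1 := by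
    intro i x hx
    rw [← hTs x hx]
    exact Finset.sum_le_sum_of_subset_of_nonneg (Finset.filter_subset _ _)
      (fun k _ _ => hT0 k x)
  have hγs : ∀ x ∈ spectrum ℝ A, ∑ i, γ i x ≤ 25 := by
    intro x hx
    have h1 : ∑ i, γ i x = ∑ k, ∑ i with ¬ FarIdx i k, T k x := by
      simp only [hγdef, Finset.sum_filter]
      rw [Finset.sum_comm]
    rw [h1]
    calc _ ≤ ∑ k, 25 * T k x := by
          refine Finset.sum_le_sum fun k _ => ?_
          rw [Finset.sum_const, nsmul_eq_mul]
          refine mul_le_mul_of_nonneg_right ?_ (hT0 k x)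
          have := card_near_le (m + 1) k
          have h2 : ((((Finset.univ : Finset (Fin (m + 1))).filter
            (fun i => ¬ FarIdx i k)).card : ℕ) : ℝ) ≤ ((23 : ℕ) : ℝ) := by exact_mod_cast this
          refine h2.trans (by norm_num)
      _ = 25 := by rw [← Finset.mul_sum, hTs x hx, mul_one]
  have key : ∀ (k : Fin (m + 1)) (x : ℝ), T k x ≠ 0 → |(x + R) / η - (k : ℕ)| < 1 := by
    intro k x hk
    by_contra hcon
    exact hk (tent_eq_zero (not_lt.1 hcon))
  have hxl : ∀ (i : Fin (m + 1)) (x : ℝ),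
      x - (η * (i : ℕ) - R) = η * ((x + R) / η - (i : ℕ)) := by
    intro i x
    field_simp
    ring
  have hT : ∀ i x, |T i x * (x - (η * (i : ℕ) - R))| ≤ η * T i x := by
    intro i x
    by_cases h : T i x = 0
    · rw [h]; simp
    · have h1 := key i x h
      rw [hxl, abs_mul, abs_mul, abs_of_nonneg (hT0 i x), abs_of_pos hη]
      have h0 := hT0 i x
      calc T i x * (η * |(x + R) / η - (i : ℕ)|) ≤ T i x * (η * 1) := by gcongr
        _ = _ := by ring
  have hγ : ∀ (i : Fin (m + 1)) (x : ℝ),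
      |(x - (η * (i : ℕ) - R)) * γ i x| ≤ 12 * η * γ i x := by
    intro i x
    rw [abs_mul, abs_of_nonneg (hγ0 i x)]
    simp only [hγdef]
    rw [Finset.mul_sum, Finset.mul_sum]
    refine Finset.sum_le_sum fun k hk => ?_
    have hk' : ¬ FarIdx i k := (Finset.mem_filter.1 hk).2
    unfold FarIdx at hk'
    by_cases h : T k x = 0
    · rw [h]; simp
    · have h1 := abs_lt.1 (key k x h)
      refine mul_le_mul_of_nonneg_right ?_ (hT0 k x)
      rw [hxl, abs_mul, abs_of_pos hη, mul_comm]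
      refine mul_le_mul_of_nonneg_right ?_ hη.le
      have h2 : (i : ℕ) ≤ (k : ℕ) + 11 := by omega
      have h3 : (k : ℕ) ≤ (i : ℕ) + 11 := by omega
      have h2' : ((i : ℕ) : ℝ) ≤ (k : ℕ) + 11 := by exact_mod_cast h2
      have h3' : ((k : ℕ) : ℝ) ≤ (i : ℕ) + 11 := by exact_mod_cast h3
      rw [abs_le]
      constructor <;> linarith
  have hcg : ∀ i, cfc (γ i) A = ∑ k with ¬ FarIdx i k, cfc (T k) A := by
    intro i
    rw [← cfc_sum T A _ (fun k _ => (hTc k).continuousOn)]
    congr 1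
    ext x
    simp [hγdef]
  refine ⟨m + 1, fun i => cfc (T i) A, ?_, ?_, ?_⟩
  · rw [← cfc_sum_univ T A (fun k => (hTc k).continuousOn)]
    rw [show (1 : F) = cfc (fun _ : ℝ => (1 : ℝ)) A from (cfc_const_one ℝ A hA).symm]
    refine cfc_congr fun x hx => ?_
    simpa using hTs x hx
  · intro i j hij
    have h0 : ∀ x, T i x * T j x = 0 := by
      intro x
      by_cases h : T i x = 0
      · rw [h, zero_mul]
      · by_cases h' : T j x = 0
        · rw [h', mul_zero]
        · exfalso
          have h1 := abs_lt.1 (key i x h)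
          have h2 := abs_lt.1 (key j x h')
          have h3 : ((i : ℕ) : ℝ) + 2 ≤ (j : ℕ) := by exact_mod_cast hij
          linarith
    constructor
    · rw [← cfc_mul (T i) (T j) A (hTc i).continuousOn (hTc j).continuousOn]
      simp only [h0]
      exact cfc_const_zero ℝ A
    · rw [← cfc_mul (T j) (T i) A (hTc j).continuousOn (hTc i).continuousOn]
      have : (fun x => T j x * T i x) = fun _ => 0 := by
        ext x; rw [mul_comm]; exact h0 x
      rw [this]
      exact cfc_const_zero ℝ A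
  · intro b
    have := near_le A hA T γ (fun i => η * (i : ℕ) - R) hη.le hTc hγc hT0 hγ0 hTs hγ1 hγs hT hγ b
    simp only [hcg] at this
    exact this

theorem far : S_FAR.{u} := by
  intro F _ hNC
  obtain ⟨a, ha, n, idx, b, c, d, hsum⟩ := hNC
  have hidx : ∀ j, idx j = 0 := fun j => Subsingleton.elim _ _
  set A := a 0 with hAdef
  have hA : IsSelfAdjoint A := ha 0
  simp only [hidx] at hsum
  rw [← hAdef] at hsum
  set C : ℝ := ∑ j, ‖c j‖ * ‖b j‖ * ‖d j‖ with hC
  have hC0 : 0 ≤ C := Finset.sum_nonneg fun j _ => by positivity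
  obtain ⟨m, f, hf1, hf2, hf3⟩ := exists_chain A hA (η := 1 / (65 * (C + 1))) (by positivity)
  refine ⟨m, f, hf1, hf2, ?_⟩
  -- near part
  set E : F := ∑ j, c j * (∑ i, f i * (A * b j - b j * A) *
        ∑ k with ¬ FarIdx i k, f k) * d j with hE
  have hEn : ‖E‖ < 1 := by
    have h1 : ‖E‖ ≤ ∑ j, 1 / (C + 1) * (‖c j‖ * ‖b j‖ * ‖d j‖) := by
      refine (norm_sum_le _ _).trans (Finset.sum_le_sum fun j _ => ?_)
      refine (norm_mul_le _ _).trans ?_
      calc _ ≤ (‖c j‖ * (65 * (1 / (65 * (C + 1))) * ‖b j‖)) * ‖d j‖ := by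
            refine mul_le_mul_of_nonneg_right ?_ (norm_nonneg _)
            refine (norm_mul_le _ _).trans ?_
            exact mul_le_mul_of_nonneg_left (hf3 (b j)) (norm_nonneg _)
        _ = _ := by
            have : (C + 1) ≠ 0 := by positivity
            field_simp
    rw [← Finset.mul_sum, ← hC] at h1
    refine h1.trans_lt ?_
    rw [one_div, inv_mul_lt_iff₀ (by positivity)]
    linarith
  set G : F := ∑ j, ∑ i, ∑ k with FarIdx i k,
    c j * f i * (A * b j - b j * A) * f k * d j with hG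
  have hGE : G = 1 - E := by
    rw [eq_sub_iff_add_eq, ← hsum, hG, hE, ← Finset.sum_add_distrib]
    refine Finset.sum_congr rfl fun j _ => ?_
    have e1 : c j * (A * b j - b j * A) * d j
        = ∑ i, ∑ k, c j * f i * (A * b j - b j * A) * f k * d j := by
      calc c j * (A * b j - b j * A) * d j
          = c j * (∑ i, f i) * (A * b j - b j * A) * (∑ k, f k) * d j := by
            rw [hf1]; simp
        _ = _ := by
            simp only [Finset.mul_sum, Finset.sum_mul]
            rw [Finset.sum_comm]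
    have e2 : c j * (∑ i, f i * (A * b j - b j * A) *
        ∑ k with ¬ FarIdx i k, f k) * d j
        = ∑ i, ∑ k with ¬ FarIdx i k,
          c j * f i * (A * b j - b j * A) * f k * d j := by
      simp only [Finset.mul_sum, Finset.sum_mul, mul_assoc]
    rw [e1, e2, ← Finset.sum_add_distrib]
    refine Finset.sum_congr rfl fun i _ => ?_
    exact Finset.sum_filter_add_sum_filter_not _ _ _
  obtain ⟨W, hW⟩ : IsUnit G := by
    rw [hGE]; exact isUnit_one_sub_of_norm_lt_one hEn
  have hGW : G * (↑W⁻¹ : F) = 1 := by rw [← hW]; simp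
  -- reindex
  let ι := {p : Fin n × Fin m × Fin m // FarIdx p.2.1 p.2.2}
  let e : Fin (Fintype.card ι) ≃ ι := (Fintype.equivFin ι).symm
  refine ⟨Fintype.card ι, fun t => (e t).1.2.1, fun t => (e t).1.2.2, fun t => c (e t).1.1,
    fun t => A * b (e t).1.1 - b (e t).1.1 * A, fun t => d (e t).1.1 * (↑W⁻¹ : F),
    fun t => (e t).2, ?_⟩
  rw [e.sum_comp (fun p : ι => c p.1.1 * f p.1.2.1 * (A * b p.1.1 - b p.1.1 * A) * f p.1.2.2 *
    (d p.1.1 * (↑W⁻¹ : F)))]
  rw [← hGW, hG]
  simp only [Finset.sum_mul]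
  rw [← Finset.sum_subtype ((Finset.univ : Finset (Fin n × Fin m × Fin m)).filter
    (fun p => FarIdx p.2.1 p.2.2)) (by simp)
    (fun p : Fin n × Fin m × Fin m => c p.1 * f p.2.1 * (A * b p.1 - b p.1 * A) * f p.2.2 *
    (d p.1 * (↑W⁻¹ : F)))]
  rw [Finset.sum_filter, Fintype.sum_prod_type]
  refine Finset.sum_congr rfl fun j _ => ?_
  rw [Fintype.sum_prod_type]
  refine Finset.sum_congr rfl fun i _ => ?_
  rw [Finset.sum_filter]
  refine Finset.sum_congr rfl fun k _ => ?_
  simp only [mul_assoc]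

end Vale.Agent.P101
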