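import Vale.Agent.P101.Defs

open Matrix

namespace Vale.Agent.P101

universe u

/-- pairwise commuting copies of a countable family (together with the algebra it generates) -/
theorem HasCopies.family {F : Type u} [CStarAlgebra F] (h : HasCopies F) {ι : Type*} [Countable ι]
    (x : ι → F) (K : ℕ) :
    ∃ (S : StarSubalgebra ℂ F) (y : ι → S) (κ : Fin K → (S →⋆ₐ[ℂ] F)),
      (∀ i, (y i : F) = x i) ∧ ∀ l l', l ≠ l' → ∀ a b, κ l a * κ l' b = κ l' b * κ l a := by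
  obtain ⟨κ, hκ⟩ := h (Set.range x) (Set.countable_range x) K
  exact ⟨StarAlgebra.adjoin ℂ (Set.range x),
    fun i => ⟨x i, StarAlgebra.subset_adjoin ℂ _ ⟨i, rfl⟩⟩, κ, fun _ => rfl, hκ⟩

/-- commuting copies of finitely many finite families at once -/
theorem HasCopies.family₂ {F : Type u} [CStarAlgebra F] (h : HasCopies F) {ι₁ ι₂ : Type*}
    [Countable ι₁] [Countable ι₂] (x₁ : ι₁ → F) (x₂ : ι₂ → F) (K : ℕ) :
    ∃ (S : StarSubalgebra ℂ F) (y₁ : ι₁ → S) (y₂ : ι₂ → S) (κ : Fin K → (S →⋆ₐ[ℂ] F)),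
      (∀ i, (y₁ i : F) = x₁ i) ∧ (∀ i, (y₂ i : F) = x₂ i) ∧
      ∀ l l', l ≠ l' → ∀ a b, κ l a * κ l' b = κ l' b * κ l a := by
  obtain ⟨S, y, κ, hy, hκ⟩ := h.family (Sum.elim x₁ x₂) K
  exact ⟨S, fun i => y (Sum.inl i), fun i => y (Sum.inr i), κ, fun i => hy (Sum.inl i),
    fun i => hy (Sum.inr i), hκ⟩

theorem HasCopies.family₃ {F : Type u} [CStarAlgebra F] (h : HasCopies F) {ι₁ ι₂ ι₃ : Type*}
    [Countable ι₁] [Countable ι₂] [Countable ι₃] (x₁ : ι₁ → F) (x₂ : ι₂ → F) (x₃ : ι₃ → F) (K : ℕ) :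
    ∃ (S : StarSubalgebra ℂ F) (y₁ : ι₁ → S) (y₂ : ι₂ → S) (y₃ : ι₃ → S)
      (κ : Fin K → (S →⋆ₐ[ℂ] F)),
      (∀ i, (y₁ i : F) = x₁ i) ∧ (∀ i, (y₂ i : F) = x₂ i) ∧ (∀ i, (y₃ i : F) = x₃ i) ∧
      ∀ l l', l ≠ l' → ∀ a b, κ l a * κ l' b = κ l' b * κ l a := by
  obtain ⟨S, y, κ, hy, hκ⟩ := h.family (Sum.elim (Sum.elim x₁ x₂) x₃) K
  exact ⟨S, fun i => y (Sum.inl (Sum.inl i)), fun i => y (Sum.inl (Sum.inr i)),
    fun i => y (Sum.inr i), κ, fun i => hy (Sum.inl (Sum.inl i)),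
    fun i => hy (Sum.inl (Sum.inr i)), fun i => hy (Sum.inr i), hκ⟩

/-- a linear map from matrices into a star-subalgebra determined on its range -/
theorem linear_restrict {F : Type u} [CStarAlgebra F] {n : ℕ} (S : StarSubalgebra ℂ F)
    (p : Matrix (Fin n) (Fin n) ℂ →ₗ[ℂ] F) (h : ∀ i j, p (Matrix.single i j 1) ∈ S) :
    ∃ q : Matrix (Fin n) (Fin n) ℂ →ₗ[ℂ] S, ∀ a, (q a : F) = p a := by
  have hall : ∀ a, p a ∈ S := by
    intro a
    rw [Matrix.matrix_eq_sum_single a, map_sum]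
    refine sum_mem fun i _ => ?_
    rw [map_sum]
    refine sum_mem fun j _ => ?_
    have : Matrix.single i j (a i j) = (a i j) • Matrix.single i j (1 : ℂ) := by
      rw [Matrix.smul_single, smul_eq_mul, mul_one]
    rw [this, map_smul]
    exact SMulMemClass.smul_mem _ (h i j)
  exact ⟨{ toFun := fun a => ⟨p a, hall a⟩
           map_add' := fun a b => Subtype.ext (map_add p a b)
           map_smul' := fun c a => Subtype.ext (map_smul p c a) }, fun _ => rfl⟩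

end Vale.Agent.P101
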