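import Vale.Agent.P101.Defs
import Vale.Agent.P101.Util

/-!
# P101, module JOIN: the key algebraic formula
-/

open Matrix

namespace Vale.Agent.P101

universe u

namespace Join

open scoped Kronecker

section sqrt

variable {F : Type u} [CStarAlgebra F]

attribute [local instance] CStarAlgebra.spectralOrder CStarAlgebra.spectralOrderedRing

lemma exists_sqrt {a : F} (h : ∃ (ι : Type) (s : Finset ι) (y : ι → F), a = ∑ i ∈ s, star (y i) * y i) :
    ∃ r : F, star r = r ∧ r * r = a ∧ ∀ b, a * b = b * a → r * b = b * r := by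
  obtain ⟨ι, s, y, hy⟩ := h
  have ha : 0 ≤ a := by
    rw [hy]
    exact Finset.sum_nonneg fun i _ => star_mul_self_nonneg _
  refine ⟨CFC.sqrt a, (IsSelfAdjoint.of_nonneg (CFC.sqrt_nonneg a)).star_eq,
    CFC.sqrt_mul_sqrt_self a ha, fun b hb => ?_⟩
  have h1 : Commute a b := hb
  exact (Commute.cfcₙ_nnreal h1 NNReal.sqrt).eq

end sqrt

variable {N : ℕ}

/-- the flip matrix -/
def Fl (N : ℕ) : Matrix (Fin N × Fin N) (Fin N × Fin N) ℂ :=
  fun x y => if x.1 = y.2 ∧ x.2 = y.1 then 1 else 0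

lemma Fl_mul (Z : Matrix (Fin N × Fin N) (Fin N × Fin N) ℂ) :
    Fl N * Z = fun x y => Z (x.2, x.1) y := by
  ext x y
  rw [Matrix.mul_apply, Finset.sum_eq_single (x.2, x.1)]
  · simp [Fl]
  · rintro ⟨a, b⟩ - hne
    have : ¬ (x.1 = b ∧ x.2 = a) := fun h => hne (by rw [← h.1, ← h.2])
    simp [Fl, this]
  · simp

lemma mul_Fl (Z : Matrix (Fin N × Fin N) (Fin N × Fin N) ℂ) :
    Z * Fl N = fun x y => Z x (y.2, y.1) := by
  ext x y
  rw [Matrix.mul_apply, Finset.sum_eq_single (y.2, y.1)]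
  · simp [Fl]
  · rintro ⟨a, b⟩ - hne
    have : ¬ (a = y.2 ∧ b = y.1) := fun h => hne (by rw [← h.1, ← h.2])
    simp [Fl, this]
  · simp

lemma Fl_kron (a b : Matrix (Fin N) (Fin N) ℂ) : Fl N * (a ⊗ₖ b) = (b ⊗ₖ a) * Fl N := by
  rw [Fl_mul, mul_Fl]
  ext x y
  simp [Matrix.kroneckerMap_apply, mul_comm]

lemma Fl_Fl : Fl N * Fl N = 1 := by
  rw [Fl_mul]
  ext x y
  simp only [Fl, Matrix.one_apply]
  congr 1
  rw [Prod.ext_iff]
  simp [and_comm]

lemma Fl_star : (Fl N)ᴴ = Fl N := by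
  ext x y
  rw [Matrix.conjTranspose_apply]
  unfold Fl
  by_cases h : x.1 = y.2 ∧ x.2 = y.1
  · have h' : y.1 = x.2 ∧ y.2 = x.1 := ⟨h.2.symm, h.1.symm⟩
    rw [if_pos h, if_pos h', star_one]
  · have h' : ¬ (y.1 = x.2 ∧ y.2 = x.1) := fun h2 => h ⟨h2.2.symm, h2.1.symm⟩
    rw [if_neg h, if_neg h', star_zero]

variable {F : Type u} [Ring F] [StarRing F] [Algebra ℂ F] [StarModule ℂ F]

/-- `Ψ (a ⊗ b) = p a * q b` -/
noncomputable def Psi (p q : Matrix (Fin N) (Fin N) ℂ →ₗ[ℂ] F) :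
    Matrix (Fin N × Fin N) (Fin N × Fin N) ℂ →ₗ[ℂ] F where
  toFun Z := ∑ x, ∑ y, Z x y • (p (Matrix.single x.1 y.1 1) * q (Matrix.single x.2 y.2 1))
  map_add' Z Z' := by simp [add_smul, Finset.sum_add_distrib]
  map_smul' c Z := by simp [mul_smul, Finset.smul_sum]

lemma Psi_kron (p q : Matrix (Fin N) (Fin N) ℂ →ₗ[ℂ] F) (a b : Matrix (Fin N) (Fin N) ℂ) :
    Psi p q (a ⊗ₖ b) = p a * q b := by
  have e : ∀ (r : Matrix (Fin N) (Fin N) ℂ →ₗ[ℂ] F) (c : Matrix (Fin N) (Fin N) ℂ),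
      r c = ∑ i, ∑ j, c i j • r (Matrix.single i j 1) := by
    intro r c
    conv_lhs => rw [Matrix.matrix_eq_sum_single c]
    simp only [map_sum]
    refine Finset.sum_congr rfl fun i _ => Finset.sum_congr rfl fun j _ => ?_
    rw [← map_smul, Matrix.smul_single, smul_eq_mul, mul_one]
  rw [e p a, e q b]
  simp only [Psi, LinearMap.coe_mk, AddHom.coe_mk, Fintype.sum_prod_type, Matrix.kroneckerMap_apply]
  rw [Finset.sum_mul]
  refine Finset.sum_congr rfl fun i _ => ?_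
  rw [Finset.sum_comm, Finset.sum_mul]
  refine Finset.sum_congr rfl fun j _ => ?_
  rw [Finset.mul_sum]
  refine Finset.sum_congr rfl fun k _ => ?_
  rw [Finset.mul_sum]
  refine Finset.sum_congr rfl fun l _ => ?_
  rw [smul_mul_smul_comm]

/-- linear maps on `M_N ⊗ M_N` are determined on elementary tensors -/
lemma ext_kron {G : Type*} [AddCommGroup G] [Module ℂ G]
    {f g : Matrix (Fin N × Fin N) (Fin N × Fin N) ℂ →ₗ[ℂ] G}
    (h : ∀ a b : Matrix (Fin N) (Fin N) ℂ, f (a ⊗ₖ b) = g (a ⊗ₖ b))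
    (Z : Matrix (Fin N × Fin N) (Fin N × Fin N) ℂ) : f Z = g Z := by
  rw [Matrix.matrix_eq_sum_single Z]
  simp only [map_sum]
  refine Finset.sum_congr rfl fun x _ => Finset.sum_congr rfl fun y _ => ?_
  have e : Matrix.single x y (Z x y) = Z x y •
      ((Matrix.single x.1 y.1 (1 : ℂ)) ⊗ₖ (Matrix.single x.2 y.2 (1 : ℂ))) := by
    rw [Matrix.single_kronecker_single, Matrix.smul_single]
    simp
  rw [e, map_smul, map_smul, h]

/-- the commuting pair of order zero maps -/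
structure Pair (p q : Matrix (Fin N) (Fin N) ℂ →ₗ[ℂ] F) : Prop where
  ps : ∀ a, p (star a) = star (p a)
  qs : ∀ a, q (star a) = star (q a)
  pm : ∀ a b, p a * p b = p 1 * p (a * b)
  qm : ∀ a b, q a * q b = q 1 * q (a * b)
  comm : ∀ a b, p a * q b = q b * p a

namespace Pair

variable {p q : Matrix (Fin N) (Fin N) ℂ →ₗ[ℂ] F} (H : Pair p q)
include H

lemma K_comm (a : Matrix (Fin N) (Fin N) ℂ) : p a * p 1 = p 1 * p a := by
  rw [H.pm a 1, mul_one]

lemma M_comm (a : Matrix (Fin N) (Fin N) ℂ) : q a * q 1 = q 1 * q a := by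
  rw [H.qm a 1, mul_one]

lemma p_Psi (a : Matrix (Fin N) (Fin N) ℂ) (Z : Matrix (Fin N × Fin N) (Fin N × Fin N) ℂ) :
    p a * Psi p q Z = p 1 * Psi p q ((a ⊗ₖ 1) * Z) := by
  have h := ext_kron (f := (LinearMap.mulLeft ℂ (p a)).comp (Psi p q))
    (g := (LinearMap.mulLeft ℂ (p 1)).comp ((Psi p q).comp (LinearMap.mulLeft ℂ (a ⊗ₖ 1)))) ?_ Z
  · simpa using h
  · intro x y
    simp only [LinearMap.comp_apply, LinearMap.mulLeft_apply, ← Matrix.mul_kronecker_mul, one_mul,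
      Psi_kron]
    rw [← mul_assoc, H.pm, mul_assoc]

lemma Psi_p (a : Matrix (Fin N) (Fin N) ℂ) (Z : Matrix (Fin N × Fin N) (Fin N × Fin N) ℂ) :
    Psi p q Z * p a = p 1 * Psi p q (Z * (a ⊗ₖ 1)) := by
  have h := ext_kron (f := (LinearMap.mulRight ℂ (p a)).comp (Psi p q))
    (g := (LinearMap.mulLeft ℂ (p 1)).comp ((Psi p q).comp (LinearMap.mulRight ℂ (a ⊗ₖ 1)))) ?_ Z
  · simpa using h
  · intro x y
    simp only [LinearMap.comp_apply, LinearMap.mulLeft_apply, LinearMap.mulRight_apply,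
      ← Matrix.mul_kronecker_mul, mul_one, Psi_kron]
    rw [mul_assoc, ← H.comm, ← mul_assoc, H.pm, mul_assoc]

lemma q_Psi (a : Matrix (Fin N) (Fin N) ℂ) (Z : Matrix (Fin N × Fin N) (Fin N × Fin N) ℂ) :
    q a * Psi p q Z = q 1 * Psi p q ((1 ⊗ₖ a) * Z) := by
  have h := ext_kron (f := (LinearMap.mulLeft ℂ (q a)).comp (Psi p q))
    (g := (LinearMap.mulLeft ℂ (q 1)).comp ((Psi p q).comp (LinearMap.mulLeft ℂ (1 ⊗ₖ a)))) ?_ Z
  · simpa using h
  · intro x y
    simp only [LinearMap.comp_apply, LinearMap.mulLeft_apply, ← Matrix.mul_kronecker_mul, one_mul,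
      Psi_kron]
    rw [← mul_assoc, ← H.comm, mul_assoc, H.qm, ← mul_assoc, H.comm, mul_assoc]

lemma Psi_q (a : Matrix (Fin N) (Fin N) ℂ) (Z : Matrix (Fin N × Fin N) (Fin N × Fin N) ℂ) :
    Psi p q Z * q a = q 1 * Psi p q (Z * (1 ⊗ₖ a)) := by
  have h := ext_kron (f := (LinearMap.mulRight ℂ (q a)).comp (Psi p q))
    (g := (LinearMap.mulLeft ℂ (q 1)).comp ((Psi p q).comp (LinearMap.mulRight ℂ (1 ⊗ₖ a)))) ?_ Z
  · simpa using h
  · intro x y
    simp only [LinearMap.comp_apply, LinearMap.mulLeft_apply, LinearMap.mulRight_apply,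
      ← Matrix.mul_kronecker_mul, mul_one, Psi_kron]
    rw [mul_assoc, H.qm, ← mul_assoc, H.comm, mul_assoc]

lemma Psi_Psi (Z Z' : Matrix (Fin N × Fin N) (Fin N × Fin N) ℂ) :
    Psi p q Z * Psi p q Z' = p 1 * q 1 * Psi p q (Z * Z') := by
  have h := ext_kron (f := (LinearMap.mulRight ℂ (Psi p q Z')).comp (Psi p q))
    (g := (LinearMap.mulLeft ℂ (p 1 * q 1)).comp ((Psi p q).comp (LinearMap.mulRight ℂ Z'))) ?_ Z
  · simpa [mul_assoc] using h
  · intro x y
    simp only [LinearMap.comp_apply, LinearMap.mulLeft_apply, LinearMap.mulRight_apply, Psi_kron]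
    rw [mul_assoc, H.q_Psi, ← mul_assoc, H.comm, mul_assoc, H.p_Psi, ← mul_assoc, ← mul_assoc,
      ← Matrix.mul_kronecker_mul, mul_one, one_mul, H.comm 1 1]

lemma star_Psi (Z : Matrix (Fin N × Fin N) (Fin N × Fin N) ℂ) :
    star (Psi p q Z) = Psi p q Zᴴ := by
  simp only [Psi, LinearMap.coe_mk, AddHom.coe_mk, star_sum]
  rw [Finset.sum_comm]
  refine Finset.sum_congr rfl fun y _ => Finset.sum_congr rfl fun x _ => ?_
  rw [star_smul, star_mul, ← H.ps, ← H.qs, ← H.comm, Matrix.conjTranspose_apply,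
    Matrix.star_eq_conjTranspose, Matrix.star_eq_conjTranspose, Matrix.conjTranspose_single,
    Matrix.conjTranspose_single, star_one]

lemma Psi_comm {g : F} (hp : ∀ a, g * p a = p a * g) (hq : ∀ a, g * q a = q a * g)
    (Z : Matrix (Fin N × Fin N) (Fin N × Fin N) ℂ) : g * Psi p q Z = Psi p q Z * g := by
  have h := ext_kron (f := (LinearMap.mulLeft ℂ g).comp (Psi p q))
    (g := (LinearMap.mulRight ℂ g).comp (Psi p q)) ?_ Z
  · simpa using h
  · intro x y
    simp only [LinearMap.comp_apply, LinearMap.mulLeft_apply, LinearMap.mulRight_apply, Psi_kron]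
    rw [← mul_assoc, hp, mul_assoc, hq, mul_assoc]

end Pair

/-- `Z a = F (a ⊗ 1) - (a ⊗ 1) F` -/
def Zm (a : Matrix (Fin N) (Fin N) ℂ) : Matrix (Fin N × Fin N) (Fin N × Fin N) ℂ :=
  Fl N * (a ⊗ₖ 1) - (a ⊗ₖ 1) * Fl N

lemma kk (a b c d : Matrix (Fin N) (Fin N) ℂ) : (a ⊗ₖ b) * (c ⊗ₖ d) = (a * c) ⊗ₖ (b * d) :=
  (Matrix.mul_kronecker_mul _ _ _ _).symm

lemma Zm_one : Zm (1 : Matrix (Fin N) (Fin N) ℂ) = 0 := by
  simp [Zm]

lemma Zm_p (a b : Matrix (Fin N) (Fin N) ℂ) :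
    (a ⊗ₖ 1) * Zm b + Zm a * (b ⊗ₖ 1) = Zm (a * b) := by
  unfold Zm
  have h : (a * b) ⊗ₖ (1 : Matrix (Fin N) (Fin N) ℂ) = (a ⊗ₖ 1) * (b ⊗ₖ 1) := by rw [kk, one_mul]
  rw [h]
  noncomm_ring

lemma Zm_q (a b : Matrix (Fin N) (Fin N) ℂ) :
    (1 ⊗ₖ a) * Zm b + Zm a * (1 ⊗ₖ b) = Zm (a * b) := by
  unfold Zm
  have h : (a * b) ⊗ₖ (1 : Matrix (Fin N) (Fin N) ℂ) = (a ⊗ₖ 1) * (b ⊗ₖ 1) := by rw [kk, one_mul]
  have h1 : (1 ⊗ₖ a) * Fl N = Fl N * (a ⊗ₖ 1) := (Fl_kron a 1).symm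
  have h2 : Fl N * (1 ⊗ₖ b) = (b ⊗ₖ 1) * Fl N := Fl_kron 1 b
  have h3 : (1 ⊗ₖ a) * (b ⊗ₖ 1) * Fl N = Fl N * ((a ⊗ₖ 1) * (1 ⊗ₖ b)) := by
    simp only [kk, one_mul, mul_one]
    exact (Fl_kron a b).symm
  rw [h]
  calc (1 ⊗ₖ a) * (Fl N * (b ⊗ₖ 1) - (b ⊗ₖ 1) * Fl N) + (Fl N * (a ⊗ₖ 1) - (a ⊗ₖ 1) * Fl N) * (1 ⊗ₖ b)
      = ((1 ⊗ₖ a) * Fl N) * (b ⊗ₖ 1) - (1 ⊗ₖ a) * (b ⊗ₖ 1) * Fl N + Fl N * ((a ⊗ₖ 1) * (1 ⊗ₖ b))
        - (a ⊗ₖ 1) * (Fl N * (1 ⊗ₖ b)) := by noncomm_ring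
    _ = _ := by
      rw [h1, h2, h3]
      noncomm_ring

lemma Zm_Zm (a b : Matrix (Fin N) (Fin N) ℂ) :
    Zm a * Zm b = b ⊗ₖ a - 1 ⊗ₖ (a * b) - (a * b) ⊗ₖ 1 + a ⊗ₖ b := by
  unfold Zm
  have h1 : Fl N * (a ⊗ₖ 1) * Fl N = 1 ⊗ₖ a := by
    rw [Fl_kron, mul_assoc, Fl_Fl, mul_one]
  have h2 : Fl N * ((a ⊗ₖ 1) * (b ⊗ₖ 1)) * Fl N = 1 ⊗ₖ (a * b) := by
    rw [kk, one_mul, Fl_kron, mul_assoc, Fl_Fl, mul_one]
  have h3 : Fl N * (b ⊗ₖ 1) * Fl N = 1 ⊗ₖ b := by
    rw [Fl_kron, mul_assoc, Fl_Fl, mul_one]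
  calc (Fl N * (a ⊗ₖ 1) - (a ⊗ₖ 1) * Fl N) * (Fl N * (b ⊗ₖ 1) - (b ⊗ₖ 1) * Fl N)
      = (Fl N * (a ⊗ₖ 1) * Fl N) * (b ⊗ₖ 1) - Fl N * ((a ⊗ₖ 1) * (b ⊗ₖ 1)) * Fl N
        - (a ⊗ₖ 1) * (Fl N * Fl N) * (b ⊗ₖ 1) + (a ⊗ₖ 1) * (Fl N * (b ⊗ₖ 1) * Fl N) := by
        noncomm_ring
    _ = _ := by
      rw [h1, h2, h3, Fl_Fl, mul_one]
      simp only [kk, one_mul, mul_one]

lemma Zm_star (a : Matrix (Fin N) (Fin N) ℂ) : (Zm a)ᴴ = -Zm (star a) := by
  unfold Zm
  rw [Matrix.conjTranspose_sub, Matrix.conjTranspose_mul, Matrix.conjTranspose_mul, Fl_star,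
    Matrix.conjTranspose_kronecker, Matrix.conjTranspose_one, Matrix.star_eq_conjTranspose, neg_sub]

/-- the abstract product computation -/
lemma prod_formula {A : Type*} [Ring A] [Algebra ℂ A] (K M g : A) (pa qa xa pb qb xb pc qc xc : A)
    (hMK : M * K = K * M) (hgK : g * K = K * g) (hgM : g * M = M * g)
    (hpaK : pa * K = K * pa) (hpaM : pa * M = M * pa) (hpag : pa * g = g * pa)
    (hqaK : qa * K = K * qa) (hqaM : qa * M = M * qa) (hqag : qa * g = g * qa)
    (hxaK : xa * K = K * xa) (hxaM : xa * M = M * xa) (hxag : xa * g = g * xa)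
    (hpp : pa * pb = K * pc) (hqq : qa * qb = M * qc)
    (hpx : pa * xb = K * xc - xa * pb) (hqx : qa * xb = M * xc - xa * qb)
    (hxx : xa * xb = K * (M * (pb * qa)) - K * (K * (M * qc)) - K * (M * (M * pc))
      + K * (M * (pa * qb)))
    (hqp : qa * pb = pb * qa) :
    (K * pa + g * (g * (M * qa)) - Complex.I • (g * xa)) *
      (K * pb + g * (g * (M * qb)) - Complex.I • (g * xb)) =
    (K * K + g * (g * (M * M))) * (K * pc + g * (g * (M * qc)) - Complex.I • (g * xc)) := by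
  have lc : ∀ {x y : A}, x * y = y * x → ∀ z, x * (y * z) = y * (x * z) := by
    intro x y h z
    rw [← mul_assoc, h, mul_assoc]
  have t1 : (K * pa) * (K * pb) = K * (K * (K * pc)) := by
    rw [mul_assoc, lc hpaK, hpp]
  have t2 : (K * pa) * (g * (g * (M * qb))) = K * (g * (g * (M * (pa * qb)))) := by
    rw [mul_assoc, lc hpag, lc hpag, lc hpaM]
  have t3 : (g * (g * (M * qa))) * (K * pb) = K * (g * (g * (M * (pb * qa)))) := by
    rw [mul_assoc, mul_assoc, mul_assoc, lc hqaK, hqp, lc hMK, lc hgK, lc hgK]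
  have t4 : (g * (g * (M * qa))) * (g * (g * (M * qb))) =
      g * (g * (g * (g * (M * (M * (M * qc)))))) := by
    rw [mul_assoc, mul_assoc, mul_assoc, lc hqag, lc hqag, lc hqaM, hqq, ← lc hgM, ← lc hgM]
  have t5 : (K * pa) * (g * xb) = K * (g * (K * xc)) - K * (g * (xa * pb)) := by
    rw [mul_assoc, lc hpag, hpx, mul_sub, mul_sub]
  have t6 : (g * xa) * (K * pb) = K * (g * (xa * pb)) := by
    rw [mul_assoc, lc hxaK, lc hgK]
  have t7 : (g * (g * (M * qa))) * (g * xb) =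
      g * (g * (g * (M * (M * xc)))) - g * (g * (g * (M * (xa * qb)))) := by
    rw [mul_assoc, mul_assoc, mul_assoc, lc hqag, hqx, mul_sub, mul_sub, mul_sub, mul_sub,
      ← lc hgM, ← lc hgM]
  have t8 : (g * xa) * (g * (g * (M * qb))) = g * (g * (g * (M * (xa * qb)))) := by
    rw [mul_assoc, lc hxag, lc hxag, lc hxaM]
  have t9 : (g * xa) * (g * xb) = g * (g * (K * (M * (pb * qa)) - K * (K * (M * qc)) -
      K * (M * (M * pc)) + K * (M * (pa * qb)))) := by
    rw [mul_assoc, lc hxag, hxx]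
  have u1 : K * (g * (K * xc)) = g * (K * (K * xc)) := by rw [← lc hgK]
  have expand : (K * pa + g * (g * (M * qa)) - Complex.I • (g * xa)) *
      (K * pb + g * (g * (M * qb)) - Complex.I • (g * xb)) =
      (K * pa) * (K * pb) + (K * pa) * (g * (g * (M * qb))) + (g * (g * (M * qa))) * (K * pb)
      + (g * (g * (M * qa))) * (g * (g * (M * qb)))
      - Complex.I • ((K * pa) * (g * xb) + (g * xa) * (K * pb)
        + (g * (g * (M * qa))) * (g * xb) + (g * xa) * (g * (g * (M * qb))))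
      - (g * xa) * (g * xb) := by
    simp only [sub_mul, add_mul, mul_sub, mul_add, smul_mul_assoc, mul_smul_comm, smul_smul,
      Complex.I_mul_I, smul_add, smul_sub, neg_smul, one_smul]
    abel
  rw [expand, t1, t2, t3, t4, t5, t6, t7, t8, t9, u1]
  have r1 : (K * K + g * (g * (M * M))) * (K * pc + g * (g * (M * qc)) - Complex.I • (g * xc)) =
      K * (K * (K * pc)) + g * (g * (K * (K * (M * qc)))) + g * (g * (K * (M * (M * pc))))
      + g * (g * (g * (g * (M * (M * (M * qc))))))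
      - Complex.I • (g * (K * (K * xc)) + g * (g * (g * (M * (M * xc))))) := by
    have a1 : (K * K) * (g * (g * (M * qc))) = g * (g * (K * (K * (M * qc)))) := by
      rw [mul_assoc, ← lc hgK, ← lc hgK, ← lc hgK, ← lc hgK]
    have a2 : (g * (g * (M * M))) * (K * pc) = g * (g * (K * (M * (M * pc)))) := by
      rw [mul_assoc, mul_assoc, mul_assoc, lc hMK, lc hMK]
    have a3 : (g * (g * (M * M))) * (g * (g * (M * qc))) =
        g * (g * (g * (g * (M * (M * (M * qc)))))) := by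
      rw [mul_assoc, mul_assoc, mul_assoc, ← lc hgM, ← lc hgM, ← lc hgM, ← lc hgM]
    have a4 : (K * K) * (g * xc) = g * (K * (K * xc)) := by
      rw [mul_assoc, ← lc hgK, ← lc hgK]
    have a5 : (g * (g * (M * M))) * (g * xc) = g * (g * (g * (M * (M * xc)))) := by
      rw [mul_assoc, mul_assoc, mul_assoc, ← lc hgM, ← lc hgM]
    rw [mul_sub, mul_add, add_mul, add_mul, add_mul, mul_smul_comm, mul_smul_comm, a1, a2, a3, a4,
      a5, mul_assoc K K, smul_add]
    abel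
  rw [r1]
  have v1 : K * (g * (g * (M * (pa * qb)))) = g * (g * (K * (M * (pa * qb)))) := by
    rw [← lc hgK, ← lc hgK]
  have v2 : K * (g * (g * (M * (pb * qa)))) = g * (g * (K * (M * (pb * qa)))) := by
    rw [← lc hgK, ← lc hgK]
  rw [v1, v2]
  simp only [mul_sub, mul_add, smul_add, smul_sub]
  abel

lemma Zm_add (a b : Matrix (Fin N) (Fin N) ℂ) : Zm (a + b) = Zm a + Zm b := by
  unfold Zm
  rw [Matrix.add_kronecker]
  noncomm_ring

lemma Zm_smul (c : ℂ) (a : Matrix (Fin N) (Fin N) ℂ) : Zm (c • a) = c • Zm a := by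
  unfold Zm
  rw [Matrix.smul_kronecker, Matrix.mul_smul, Matrix.smul_mul, smul_sub]

/-- the joined order zero map -/
noncomputable def Phi (p q : Matrix (Fin N) (Fin N) ℂ →ₗ[ℂ] F) (g : F) :
    Matrix (Fin N) (Fin N) ℂ →ₗ[ℂ] F where
  toFun a := p 1 * p a + g * (g * (q 1 * q a)) - Complex.I • (g * Psi p q (Zm a))
  map_add' a b := by
    simp only [map_add, Zm_add, mul_add, smul_add]
    abel
  map_smul' c a := by
    simp only [map_smul, Zm_smul, mul_smul_comm, smul_add, smul_sub, RingHom.id_apply,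
      smul_comm c Complex.I]

lemma Phi_apply (p q : Matrix (Fin N) (Fin N) ℂ →ₗ[ℂ] F) (g : F) (a : Matrix (Fin N) (Fin N) ℂ) :
    Phi p q g a = p 1 * p a + g * (g * (q 1 * q a)) - Complex.I • (g * Psi p q (Zm a)) := rfl

lemma Phi_one (p q : Matrix (Fin N) (Fin N) ℂ →ₗ[ℂ] F) (g : F) :
    Phi p q g 1 = p 1 * p 1 + g * (g * (q 1 * q 1)) := by
  rw [Phi_apply, Zm_one, map_zero, mul_zero, smul_zero, sub_zero]

lemma Phi_mul {p q : Matrix (Fin N) (Fin N) ℂ →ₗ[ℂ] F} (H : Pair p q) {g : F}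
    (hp : ∀ a, g * p a = p a * g) (hq : ∀ a, g * q a = q a * g) (a b : Matrix (Fin N) (Fin N) ℂ) :
    Phi p q g a * Phi p q g b = Phi p q g 1 * Phi p q g (a * b) := by
  rw [Phi_one]
  have hK : Psi p q (Zm a) * p 1 = p 1 * Psi p q (Zm a) := by
    rw [H.Psi_p, Matrix.one_kronecker_one, mul_one]
  have hM : Psi p q (Zm a) * q 1 = q 1 * Psi p q (Zm a) := by
    rw [H.Psi_q, Matrix.one_kronecker_one, mul_one]
  refine prod_formula (p 1) (q 1) g (p a) (q a) (Psi p q (Zm a)) (p b) (q b) (Psi p q (Zm b))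
    (p (a * b)) (q (a * b)) (Psi p q (Zm (a * b))) (H.comm 1 1).symm (hp 1) (hq 1) (H.K_comm a)
    (H.comm a 1) (hp a).symm (H.comm 1 a).symm (H.M_comm a) (hq a).symm hK hM
    (H.Psi_comm hp hq _).symm (H.pm a b) (H.qm a b) ?_ ?_ ?_ (H.comm b a).symm
  · rw [eq_sub_iff_add_eq, H.p_Psi, H.Psi_p, ← mul_add, ← map_add, Zm_p]
  · rw [eq_sub_iff_add_eq, H.q_Psi, H.Psi_q, ← mul_add, ← map_add, Zm_q]
  · rw [H.Psi_Psi, Zm_Zm, map_add, map_sub, map_sub, Psi_kron, Psi_kron, Psi_kron, Psi_kron,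
      (H.comm (a * b) 1)]
    simp only [mul_add, mul_sub]
    have e1 : p 1 * q 1 * (p 1 * q (a * b)) = p 1 * (p 1 * (q 1 * q (a * b))) := by
      rw [mul_assoc, ← mul_assoc (q 1), ← H.comm, mul_assoc]
    simp only [mul_assoc] at e1 ⊢
    rw [e1]

lemma Phi_star {p q : Matrix (Fin N) (Fin N) ℂ →ₗ[ℂ] F} (H : Pair p q) {g : F} (hg : star g = g)
    (hp : ∀ a, g * p a = p a * g) (hq : ∀ a, g * q a = q a * g) (a : Matrix (Fin N) (Fin N) ℂ) :
    Phi p q g (star a) = star (Phi p q g a) := by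
  have h1 : star (p (1 : Matrix (Fin N) (Fin N) ℂ)) = p 1 := by rw [← H.ps, star_one]
  have h2 : star (q (1 : Matrix (Fin N) (Fin N) ℂ)) = q 1 := by rw [← H.qs, star_one]
  rw [Phi_apply, Phi_apply, star_sub, star_add, star_smul, star_mul, star_mul, star_mul, star_mul,
    star_mul, hg, h1, h2, ← H.ps, ← H.qs, H.star_Psi, Zm_star, map_neg, H.K_comm, H.M_comm,
    Complex.star_def, Complex.conj_I, neg_mul, smul_neg, neg_smul, neg_neg,
    ← H.Psi_comm hp hq]
  congr 2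
  have c1 : (q 1 * q (star a)) * g = g * (q 1 * q (star a)) := by
    rw [mul_assoc, ← hq, ← mul_assoc, ← hq, mul_assoc]
  rw [c1, mul_assoc, c1]

section core

variable {F : Type u} [CStarAlgebra F]

lemma ann {x y g : F} (hg : star g = g) (hgg : g * g = 1 - x * x) (hxy : x * y = y) : g * y = 0 := by
  have h2 : star (g * y) * (g * y) = 0 := by
    rw [star_mul, hg]
    have : star y * g * (g * y) = star y * ((g * g) * y) := by noncomm_ring
    rw [this, hgg, sub_mul, one_mul, mul_assoc, hxy, hxy, sub_self, mul_zero]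
  exact (CStarRing.star_mul_self_eq_zero_iff _).mp h2

lemma core {n m : ℕ} {p q : Matrix (Fin (n + 2)) (Fin (n + 2)) ℂ →ₗ[ℂ] F} (H : Pair p q)
    {σ τ : Fin (m + 2) → F} (hσ : ∀ i, p (Matrix.single 0 0 1) * σ i = σ i)
    (hτ : ∀ i, q (Matrix.single 0 0 1) * τ i = τ i)
    (sσ : ∑ i, star (σ i) * σ i = 1 - p 1 * p 1) (sτ : ∑ i, star (τ i) * τ i = 1 - q 1 * q 1)
    (cσq : ∀ i a, σ i * q a = q a * σ i) (cpτ : ∀ i a, p a * τ i = τ i * p a)
    (cστ : ∀ i j, σ i * τ j = τ j * σ i) (cσsτ : ∀ i j, star (σ i) * τ j = τ j * star (σ i)) :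
    Q n (m + 1) F := by
  have K1 : star (p (1 : Matrix (Fin (n + 2)) (Fin (n + 2)) ℂ)) = p 1 := by rw [← H.ps, star_one]
  have M1 : star (q (1 : Matrix (Fin (n + 2)) (Fin (n + 2)) ℂ)) = q 1 := by rw [← H.qs, star_one]
  obtain ⟨g, hg, hgg, hgc⟩ := exists_sqrt (F := F) (a := 1 - p 1 * p 1)
    ⟨Fin (m + 2), Finset.univ, σ, sσ.symm⟩
  obtain ⟨t, ht, htt, htc⟩ := exists_sqrt (F := F) (a := 1 - q 1 * q 1)
    ⟨Fin (m + 2), Finset.univ, τ, sτ.symm⟩
  -- commutation with `g` and `t`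
  have gc : ∀ b, p 1 * b = b * p 1 → g * b = b * g := by
    intro b hb
    refine hgc b ?_
    rw [sub_mul, mul_sub, one_mul, mul_one, mul_assoc, hb, ← mul_assoc, hb, mul_assoc]
  have tc : ∀ b, q 1 * b = b * q 1 → t * b = b * t := by
    intro b hb
    refine htc b ?_
    rw [sub_mul, mul_sub, one_mul, mul_one, mul_assoc, hb, ← mul_assoc, hb, mul_assoc]
  have gp : ∀ a, g * p a = p a * g := fun a => gc _ (H.K_comm a).symm
  have gq : ∀ a, g * q a = q a * g := fun a => gc _ (H.comm 1 a)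
  have tp : ∀ a, t * p a = p a * t := fun a => tc _ (H.comm a 1).symm
  have tq : ∀ a, t * q a = q a * t := fun a => tc _ (H.M_comm a).symm
  have tσ : ∀ i, t * σ i = σ i * t := fun i => tc _ (cσq i 1).symm
  have tσs : ∀ i, t * star (σ i) = star (σ i) * t := by
    intro i
    have := congrArg star (tσ i)
    rw [star_mul, star_mul, ht] at this
    exact this.symm
  have gt : g * t = t * g := (tc g (gq 1).symm).symm
  -- annihilation
  have e00 : (Matrix.single 0 0 1 : Matrix (Fin (n + 2)) (Fin (n + 2)) ℂ) * Matrix.single 0 0 1 =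
      Matrix.single 0 0 1 := by rw [Matrix.single_mul_single_same, mul_one]
  have Kσ : ∀ i, p 1 * σ i = σ i := by
    intro i
    conv_lhs => rw [← hσ i]
    have h1 : p 1 * p (Matrix.single 0 0 1) = p (Matrix.single 0 0 1) * p (Matrix.single 0 0 1) := by
      rw [H.pm (Matrix.single 0 0 1), e00]
    rw [← mul_assoc, h1, mul_assoc, hσ, hσ]
  have Mτ : ∀ i, q 1 * τ i = τ i := by
    intro i
    conv_lhs => rw [← hτ i]
    have h1 : q 1 * q (Matrix.single 0 0 1) = q (Matrix.single 0 0 1) * q (Matrix.single 0 0 1) := by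
      rw [H.qm (Matrix.single 0 0 1), e00]
    rw [← mul_assoc, h1, mul_assoc, hτ, hτ]
  have gσ : ∀ i, g * σ i = 0 := fun i => ann hg hgg (Kσ i)
  have tτ : ∀ i, t * τ i = 0 := fun i => ann ht htt (Mτ i)
  have τst : ∀ i, star (τ i) * t = 0 := by
    intro i
    have := congrArg star (tτ i)
    rwa [star_mul, ht, star_zero] at this
  -- the elements
  set sL := σ (Fin.last (m + 1)) with hsL
  set tL := τ (Fin.last (m + 1)) with htL
  set C : F := q (Matrix.single 1 0 1) * (sL * tL) with hC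
  set s : Fin (m + 1) → F := fun k => σ k.castSucc * t + sL * τ k.castSucc + if k = 0 then C else 0
    with hs
  have e10star : star (q (Matrix.single 1 0 1 : Matrix (Fin (n + 2)) (Fin (n + 2)) ℂ)) =
      q (Matrix.single 0 1 1) := by
    rw [← H.qs, Matrix.star_eq_conjTranspose, Matrix.conjTranspose_single, star_one]
  have e00star : star (q (Matrix.single 0 0 1 : Matrix (Fin (n + 2)) (Fin (n + 2)) ℂ)) =
      q (Matrix.single 0 0 1) := by
    rw [← H.qs, Matrix.star_eq_conjTranspose, Matrix.conjTranspose_single, star_one]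
  have q01q10 : q (Matrix.single 0 1 1) * q (Matrix.single 1 0 1) = q 1 * q (Matrix.single 0 0 1) := by
    rw [H.qm, Matrix.single_mul_single_same, mul_one]
  have q00q10 : q (Matrix.single 0 0 1) * q (Matrix.single 1 0 1) = 0 := by
    rw [H.qm, Matrix.single_mul_single_of_ne, map_zero, mul_zero]
    simp
  have τsq10 : ∀ i, star (τ i) * q (Matrix.single 1 0 1) = 0 := by
    intro i
    have h := congrArg star (hτ i)
    rw [star_mul, e00star] at h
    rw [← h, mul_assoc, q00q10, mul_zero]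
  have cτsσ : ∀ i j, star (τ j) * σ i = σ i * star (τ j) := by
    intro i j
    have := congrArg star (cσsτ i j)
    rw [star_mul, star_mul, star_star] at this
    exact this
  have cσsq : ∀ i a, star (σ i) * q a = q a * star (σ i) := by
    intro i a
    have h := congrArg star (cσq i (star a))
    rw [star_mul, star_mul, H.qs, star_star] at h
    exact h.symm
  have AA : ∀ i, star (σ i * t) * (σ i * t) = star (σ i) * σ i * (1 - q 1 * q 1) := by
    intro i
    rw [star_mul, ht, ← htt, tσs, mul_assoc, ← mul_assoc t, tσ]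
    simp only [mul_assoc]
  have AB : ∀ i j, star (σ i * t) * (sL * τ j) = 0 := by
    intro i j
    rw [star_mul, ht, tσs, mul_assoc, ← mul_assoc t, hsL, tσ, mul_assoc (σ _), tτ, mul_zero,
      mul_zero]
  have BB : ∀ j, star (sL * τ j) * (sL * τ j) = star sL * sL * (star (τ j) * τ j) := by
    intro j
    have h1 : star sL * sL * star (τ j) = star (τ j) * (star sL * sL) := by
      rw [mul_assoc, hsL, ← cτsσ, ← mul_assoc, ← star_mul, ← cστ, star_mul, mul_assoc]
    rw [star_mul, ← mul_assoc, ← mul_assoc, h1]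
    simp only [mul_assoc]
  have AC : ∀ i, star (σ i * t) * C = 0 := by
    intro i
    have h1 : t * C = 0 := by
      rw [hC, ← mul_assoc, tq, mul_assoc, ← mul_assoc t, hsL, tσ, mul_assoc (σ _), htL, tτ,
        mul_zero, mul_zero]
    rw [star_mul, ht, tσs, mul_assoc, h1, mul_zero]
  have BC : ∀ j, star (sL * τ j) * C = 0 := by
    intro j
    have h1 : star sL * (q (Matrix.single 1 0 1) * (sL * tL)) =
        q (Matrix.single 1 0 1) * (star sL * (sL * tL)) := by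
      rw [← mul_assoc, hsL, cσsq, mul_assoc]
    rw [star_mul, hC, mul_assoc, h1, ← mul_assoc, τsq10, zero_mul]
  have CC : star C * C = star sL * sL * (star tL * tL) := by
    have h0 : C = q (Matrix.single 1 0 1) * tL * sL := by
      rw [hC, hsL, htL, cστ, mul_assoc]
    have h1 : star (q (Matrix.single 1 0 1) * tL) * (q (Matrix.single 1 0 1) * tL) = star tL * tL := by
      rw [star_mul, e10star, mul_assoc, ← mul_assoc (q (Matrix.single 0 1 1)), q01q10, mul_assoc,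
        htL, hτ, Mτ]
    have h2 : star tL * tL * sL = sL * (star tL * tL) := by
      rw [mul_assoc, htL, hsL, ← cστ, ← mul_assoc, cτsσ, mul_assoc]
    rw [h0, star_mul, mul_assoc, ← mul_assoc (star (q (Matrix.single 1 0 1) * tL)), h1, h2,
      ← mul_assoc]
  have BA : ∀ i j, star (sL * τ j) * (σ i * t) = 0 := by
    intro i j
    have := congrArg star (AB i j)
    rwa [star_mul, star_star, star_zero] at this
  have CA : ∀ i, star C * (σ i * t) = 0 := by
    intro i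
    have := congrArg star (AC i)
    rwa [star_mul, star_star, star_zero] at this
  have CB : ∀ j, star C * (sL * τ j) = 0 := by
    intro j
    have := congrArg star (BC j)
    rwa [star_mul, star_star, star_zero] at this
  have ss : ∀ k, star (s k) * s k = star (σ k.castSucc) * σ k.castSucc * (1 - q 1 * q 1) +
      star sL * sL * (star (τ k.castSucc) * τ k.castSucc) +
      if k = 0 then star sL * sL * (star tL * tL) else 0 := by
    intro k
    simp only [hs]
    by_cases hk : k = 0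
    · rw [if_pos hk, if_pos hk, star_add, star_add]
      simp only [add_mul, mul_add, AA, AB, BB, AC, BC, CC, BA, CA, CB, add_zero, zero_add]
    · rw [if_neg hk, if_neg hk, add_zero, star_add]
      simp only [add_mul, mul_add, AA, AB, BB, BA, add_zero, zero_add]
  have sum_s : ∑ k, star (s k) * s k = (1 - p 1 * p 1) * (1 - q 1 * q 1) := by
    simp only [ss]
    rw [Finset.sum_add_distrib, Finset.sum_add_distrib, ← Finset.sum_mul, ← Finset.mul_sum,
      Finset.sum_ite_eq' Finset.univ (0 : Fin (m + 1)), if_pos (Finset.mem_univ _)]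
    rw [Fin.sum_univ_castSucc] at sσ sτ
    have e1 : ∑ k : Fin (m + 1), star (σ k.castSucc) * σ k.castSucc =
        1 - p 1 * p 1 - star sL * sL := by rw [← sσ]; abel
    have e2 : ∑ k : Fin (m + 1), star (τ k.castSucc) * τ k.castSucc =
        1 - q 1 * q 1 - star tL * tL := by rw [← sτ]; abel
    rw [e1, e2]
    noncomm_ring
  -- the order zero map
  set Φ := Phi p q g with hΦ
  have Φ1 : Φ 1 = p 1 * p 1 + g * (g * (q 1 * q 1)) := Phi_one p q g
  have gM : (g * q 1) * (g * q 1) = g * (g * (q 1 * q 1)) := by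
    rw [mul_assoc, ← mul_assoc (q 1), ← gq, mul_assoc]
  have sgM : star (g * q 1) = g * q 1 := by rw [star_mul, hg, M1, gq]
  have one_sub : 1 - Φ 1 = (1 - p 1 * p 1) * (1 - q 1 * q 1) := by
    rw [Φ1, ← mul_assoc g g, hgg]
    noncomm_ring
  obtain ⟨r, hr, hrr, -⟩ := exists_sqrt (F := F) (a := Φ 1)
    ⟨Fin 2, Finset.univ, ![p 1, g * q 1], by
      rw [Fin.sum_univ_two]
      simp only [Matrix.cons_val_zero, Matrix.cons_val_one]
      rw [K1, sgM, gM, Φ1]⟩
  obtain ⟨v, hv, hvv, hvc⟩ := exists_sqrt (F := F) (a := 1 + Φ 1)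
    ⟨Fin 3, Finset.univ, ![1, p 1, g * q 1], by
      rw [Fin.sum_univ_three]
      simp only [Matrix.cons_val_zero, Matrix.cons_val_one, Matrix.cons_val]
      rw [K1, sgM, gM, Φ1, star_one, one_mul, add_assoc]⟩
  have hOZ : OZ Φ := by
    refine ⟨fun a => Phi_star H hg gp gq a, fun a b => Phi_mul H gp gq a b, ⟨r, by rw [hr, hrr]⟩,
      ⟨g * t, ?_⟩⟩
    rw [one_sub, ← hgg, ← htt, star_mul, hg, ht, gt, mul_assoc, ← mul_assoc g t, gt]
    rw [mul_assoc, ← mul_assoc t g, ← gt]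
    simp only [mul_assoc]
    rw [← mul_assoc t g, ← gt, mul_assoc]
  -- `Φ e₀₀` fixes everything that is fixed by `p e₀₀` and killed by `g`
  have fix : ∀ z, p (Matrix.single 0 0 1) * z = z → g * z = 0 → Φ (Matrix.single 0 0 1) * z = z := by
    intro z hz hgz
    have hKz : p 1 * z = z := by
      conv_lhs => rw [← hz]
      have h1 : p 1 * p (Matrix.single 0 0 1) =
          p (Matrix.single 0 0 1) * p (Matrix.single 0 0 1) := by
        rw [H.pm (Matrix.single 0 0 1), e00]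
      rw [← mul_assoc, h1, mul_assoc, hz, hz]
    have h2 : g * (g * (q 1 * q (Matrix.single 0 0 1))) * z = 0 := by
      have : g * (q 1 * q (Matrix.single 0 0 1)) = q 1 * q (Matrix.single 0 0 1) * g := by
        rw [← mul_assoc, gq, mul_assoc, gq, mul_assoc]
      rw [this, mul_assoc, mul_assoc, hgz, mul_zero, mul_zero]
    have h3 : g * Psi p q (Zm (Matrix.single 0 0 1)) * z = 0 := by
      rw [H.Psi_comm gp gq, mul_assoc, hgz, mul_zero]
    rw [hΦ, Phi_apply, sub_mul, add_mul, smul_mul_assoc, h2, h3, smul_zero, mul_assoc, hz, hKz,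
      add_zero, sub_zero]
  have fs : ∀ k, Φ (Matrix.single 0 0 1) * s k = s k := by
    intro k
    refine fix _ ?_ ?_
    · simp only [hs, mul_add, ← mul_assoc, hσ]
      congr 1
      · rw [hsL, hσ]
      · by_cases hk : k = 0
        · rw [if_pos hk, hC, ← mul_assoc, H.comm, mul_assoc, ← mul_assoc (p _), hsL, hσ]
        · rw [if_neg hk, mul_zero]
    · simp only [hs, mul_add, ← mul_assoc, gσ, zero_mul]
      by_cases hk : k = 0
      · have gC : g * C = 0 := by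
          rw [hC, ← mul_assoc, gq, mul_assoc, ← mul_assoc g, hsL, gσ, zero_mul, mul_zero]
        rw [if_pos hk, gC, hsL, gσ]
        simp
      · rw [if_neg hk, mul_zero, hsL, gσ]
        simp
  refine ⟨Φ, hOZ, fun k => s k * v, fun k => by rw [← mul_assoc, fs], ?_⟩
  have e : ∀ k, star (s k * v) * (s k * v) = v * (star (s k) * s k) * v := by
    intro k
    rw [star_mul, hv]
    simp only [mul_assoc]
  simp only [e]
  rw [← Finset.sum_mul, ← Finset.mul_sum, sum_s, ← one_sub]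
  have hvΦ : v * (1 - Φ 1) = (1 - Φ 1) * v := by
    refine hvc _ ?_
    noncomm_ring
  rw [hvΦ, mul_assoc, hvv]
  noncomm_ring

end core

end Join

theorem join : S_JOIN.{u} := by
  intro F _ hF n m ⟨p0, hp0, σ0, hσ0, hsum⟩
  obtain ⟨S, y₁, y₂, κ, h1, h2, hκ⟩ := hF.family₂
    (fun x : Fin (n + 2) × Fin (n + 2) => p0 (Matrix.single x.1 x.2 1)) σ0 2
  obtain ⟨pS, hpS⟩ := linear_restrict S p0 (fun i j => by
    have := (y₁ (i, j)).2
    rw [h1] at this
    exact this)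
  have hc := hκ 0 1 (by decide)
  have ps : ∀ a, pS (star a) = star (pS a) := fun a => Subtype.ext (by
    rw [hpS, hp0.star_map]
    exact congrArg star (hpS a).symm)
  have pm : ∀ a b, pS a * pS b = pS 1 * pS (a * b) := fun a b => Subtype.ext (by
    change (pS a : F) * pS b = (pS 1 : F) * pS (a * b)
    rw [hpS, hpS, hpS, hpS, hp0.mul_map])
  have hy : ∀ i, pS (Matrix.single 0 0 1) * y₂ i = y₂ i := fun i => Subtype.ext (by
    change (pS _ : F) * (y₂ i : F) = y₂ i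
    rw [hpS, h2, hσ0])
  have hs : ∑ i, star (y₂ i) * y₂ i = 1 - pS 1 * pS 1 := by
    apply Subtype.ext
    have e : ((∑ i, star (y₂ i) * y₂ i : S) : F) = ∑ i, star (y₂ i : F) * (y₂ i : F) := by
      rw [AddSubmonoidClass.coe_finsetSum]
      rfl
    rw [e]
    change _ = (1 : F) - (pS 1 : F) * pS 1
    rw [hpS]
    simp only [h2]
    exact hsum
  refine Join.core (p := (κ 0).toAlgHom.toLinearMap.comp pS) (q := (κ 1).toAlgHom.toLinearMap.comp pS)
    (σ := fun i => κ 0 (y₂ i)) (τ := fun i => κ 1 (y₂ i)) ⟨?_, ?_, ?_, ?_, ?_⟩ ?_ ?_ ?_ ?_ ?_ ?_ ?_ ?_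
  · intro a
    change κ 0 (pS (star a)) = star (κ 0 (pS a))
    rw [ps, map_star]
  · intro a
    change κ 1 (pS (star a)) = star (κ 1 (pS a))
    rw [ps, map_star]
  · intro a b
    change κ 0 (pS a) * κ 0 (pS b) = κ 0 (pS 1) * κ 0 (pS (a * b))
    rw [← map_mul (κ 0), ← map_mul (κ 0), pm]
  · intro a b
    change κ 1 (pS a) * κ 1 (pS b) = κ 1 (pS 1) * κ 1 (pS (a * b))
    rw [← map_mul (κ 1), ← map_mul (κ 1), pm]
  · intro a b
    exact hc _ _
  · intro i
    change κ 0 (pS _) * κ 0 (y₂ i) = κ 0 (y₂ i)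
    rw [← map_mul (κ 0), hy]
  · intro i
    change κ 1 (pS _) * κ 1 (y₂ i) = κ 1 (y₂ i)
    rw [← map_mul (κ 1), hy]
  · change ∑ i, star (κ 0 (y₂ i)) * κ 0 (y₂ i) = 1 - κ 0 (pS 1) * κ 0 (pS 1)
    have := congrArg (κ 0) hs
    rw [map_sum, map_sub, map_one, map_mul] at this
    rw [← this]
    refine Finset.sum_congr rfl fun i _ => ?_
    rw [map_mul, map_star]
  · change ∑ i, star (κ 1 (y₂ i)) * κ 1 (y₂ i) = 1 - κ 1 (pS 1) * κ 1 (pS 1)
    have := congrArg (κ 1) hs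
    rw [map_sum, map_sub, map_one, map_mul] at this
    rw [← this]
    refine Finset.sum_congr rfl fun i _ => ?_
    rw [map_mul, map_star]
  · intro i a
    exact hc _ _
  · intro i a
    exact hc _ _
  · intro i j
    exact hc _ _
  · intro i j
    change star (κ 0 (y₂ i)) * κ 1 (y₂ j) = κ 1 (y₂ j) * star (κ 0 (y₂ i))
    rw [← map_star]
    exact hc _ _

end Vale.Agent.P101
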