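import Vale.Agent.P101.Util

/-!
# P101, module PAIRB
-/

namespace Vale.Agent.P101.PairB

open Finset

section ring

variable {D F : Type*} [Ring D] [Ring F] {m : ℕ}

/-- pairwise commuting copies -/
def Cm (κ : Fin m → (D →+* F)) : Prop :=
  ∀ l l', l ≠ l' → ∀ x y, κ l x * κ l' y = κ l' y * κ l x

/-- the product over the copies -/
noncomputable def Pm (κ : Fin m → (D →+* F)) (h : Cm κ) : (Fin m → D) →* F :=
  MonoidHom.noncommPiCoprod (fun l => (κ l : D →* F)) (fun l l' hl x y => h l l' hl x y)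

lemma Pm_update (κ : Fin m → (D →+* F)) (h : Cm κ) (x : Fin m → D) (l : Fin m) (a : D) :
    Pm κ h (Function.update x l a) = Pm κ h (Function.update x l 1) * κ l a := by
  have e : Function.update x l a = Function.update x l 1 * Pi.mulSingle l a := by
    funext i
    by_cases hi : i = l
    · subst hi; simp
    · simp [hi]
  have e2 : Pm κ h (Pi.mulSingle l a) = κ l a :=
    MonoidHom.noncommPiCoprod_mulSingle (N := fun _ : Fin m => D) (fun l => (κ l : D →* F)) l a
  rw [e, map_mul, e2]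

/-- the product over the copies as a multilinear map -/
noncomputable def Mm (κ : Fin m → (D →+* F)) (h : Cm κ) :
    MultilinearMap ℤ (fun _ : Fin m => D) F where
  toFun := Pm κ h
  map_update_add' := by
    intro inst x l a b
    have : inst = instDecidableEqFin m := Subsingleton.elim _ _
    subst this
    rw [Pm_update, Pm_update κ h x l a, Pm_update κ h x l b, map_add, mul_add]
  map_update_smul' := by
    intro inst x l c a
    have : inst = instDecidableEqFin m := Subsingleton.elim _ _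
    subst this
    rw [Pm_update, Pm_update κ h x l a, map_zsmul, mul_smul_comm]

lemma Pm_sum (κ : Fin m → (D →+* F)) (h : Cm κ) {n : ℕ} (g : Fin m → Fin n → D) :
    Pm κ h (fun l => ∑ j, g l j) = ∑ r : Fin m → Fin n, Pm κ h (fun l => g l (r l)) :=
  (Mm κ h).map_sum g

lemma Pm_zero (κ : Fin m → (D →+* F)) (h : Cm κ) (x : Fin m → D) (l : Fin m) (hl : x l = 0) :
    Pm κ h x = 0 :=
  (Mm κ h).map_coord_zero l hl

variable (κ : Fin m → (D →+* F)) (h : Cm κ) (f : Fin m → D)

/-- the product function -/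
noncomputable def Fq (q : Fin m → Fin m) : F := Pm κ h (fun l => f (q l))

/-- initial sums -/
noncomputable def gs (Z : Finset (Fin m → Fin m)) : F := ∑ q ∈ Z, Fq κ h f q

/-- the sum of the indices -/
def sm (q : Fin m → Fin m) : ℕ := ∑ l, (q l : ℕ)

/-- indices with residue in an interval -/
def Zi (m a b : ℕ) : Finset (Fin m → Fin m) :=
  univ.filter fun q => a ≤ sm q % (12 * m) ∧ sm q % (12 * m) < b

/-- far apart in some coordinate -/
def Far (p q : Fin m → Fin m) : Prop := ∃ l, (p l : ℕ) + 2 ≤ q l ∨ (q l : ℕ) + 2 ≤ p l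

variable {f}

lemma Fq_mul (hf : Chain m f) (p q : Fin m → Fin m) (hpq : Far p q) :
    Fq κ h f p * Fq κ h f q = 0 := by
  obtain ⟨l, hl⟩ := hpq
  unfold Fq
  rw [← map_mul]
  apply Pm_zero κ h _ l
  show f (p l) * f (q l) = 0
  rcases hl with hl | hl
  · exact (hf.orth (p l) (q l) hl).1
  · exact (hf.orth (q l) (p l) hl).2

lemma gs_mul (hf : Chain m f) (Z Z' : Finset (Fin m → Fin m))
    (hZ : ∀ p ∈ Z, ∀ q ∈ Z', Far p q) : gs κ h f Z * gs κ h f Z' = 0 := by
  unfold gs
  rw [sum_mul_sum]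
  refine sum_eq_zero fun p hp => sum_eq_zero fun q hq => Fq_mul κ h hf p q (hZ p hp q hq)

lemma gs_univ (hf : Chain m f) : gs κ h f univ = 1 := by
  unfold gs Fq
  rw [← Pm_sum κ h (fun _ i => f i), hf.sum_one]
  exact map_one (Pm κ h)

lemma gs_compl (hf : Chain m f) (Z : Finset (Fin m → Fin m)) :
    gs κ h f Zᶜ = 1 - gs κ h f Z := by
  rw [← gs_univ κ h hf]
  unfold gs
  rw [← sum_compl_add_sum Z]
  abel

lemma near_sm (p q : Fin m → Fin m) (hn : ¬ Far p q) : sm p ≤ sm q + m ∧ sm q ≤ sm p + m := by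
  unfold Far at hn
  push Not at hn
  have h1 : ∀ l, (p l : ℕ) ≤ q l + 1 := fun l => by have := (hn l).2; omega
  have h2 : ∀ l, (q l : ℕ) ≤ p l + 1 := fun l => by have := (hn l).1; omega
  unfold sm
  constructor
  · calc ∑ l, (p l : ℕ) ≤ ∑ l, ((q l : ℕ) + 1) := sum_le_sum fun l _ => h1 l
      _ = _ := by rw [sum_add_distrib]; simp
  · calc ∑ l, (q l : ℕ) ≤ ∑ l, ((p l : ℕ) + 1) := sum_le_sum fun l _ => h2 l
      _ = _ := by rw [sum_add_distrib]; simp

lemma res (M k a b : ℕ) (hk : k < M) (h1 : a ≤ b + k) (h2 : b ≤ a + k) :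
    (a % M ≤ b % M + k ∧ b % M ≤ a % M + k) ∨ a % M + M ≤ b % M + k ∨ b % M + M ≤ a % M + k := by
  have ha := Nat.div_add_mod a M
  have hb := Nat.div_add_mod b M
  have ra := Nat.mod_lt a (by omega : 0 < M)
  have rb := Nat.mod_lt b (by omega : 0 < M)
  rcases Nat.lt_trichotomy (a / M) (b / M) with h | h | h
  · have h3 : M * (a / M) + M ≤ M * (b / M) := by
      have := Nat.mul_le_mul_left M h
      rw [Nat.mul_succ] at this
      exact this
    right; right; omega
  · rw [h] at ha
    left; omega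
  · have h3 : M * (b / M) + M ≤ M * (a / M) := by
      have := Nat.mul_le_mul_left M h
      rw [Nat.mul_succ] at this
      exact this
    right; left; omega

lemma far_of_res (hm : 0 < m) (p q : Fin m → Fin m)
    (hr : ¬ ((sm p % (12 * m) ≤ sm q % (12 * m) + m ∧ sm q % (12 * m) ≤ sm p % (12 * m) + m) ∨
      sm p % (12 * m) + 12 * m ≤ sm q % (12 * m) + m ∨
      sm q % (12 * m) + 12 * m ≤ sm p % (12 * m) + m)) : Far p q := by
  by_contra hn
  obtain ⟨h1, h2⟩ := near_sm p q hn
  exact hr (res (12 * m) m (sm p) (sm q) (by omega) h1 h2)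

lemma path (m : ℕ) (hm : 0 < m) (a : ℕ → ℕ) (hstep : ∀ t < m, a (t + 1) ≤ a t + m)
    (htot : a 0 + 12 * m ≤ a m) (c : ℕ) (hc : c + m ≤ 12 * m) :
    ∃ t ≤ m, c ≤ a t % (12 * m) ∧ a t % (12 * m) < c + m := by
  -- target
  obtain ⟨N, hN1, hN2, hN3⟩ : ∃ N, a 0 ≤ N ∧ N < a 0 + 12 * m ∧ N % (12 * m) = c := by
    have ha := Nat.div_add_mod (a 0) (12 * m)
    have ra := Nat.mod_lt (a 0) (by omega : 0 < 12 * m)
    by_cases hcc : a 0 % (12 * m) ≤ c
    · refine ⟨12 * m * (a 0 / (12 * m)) + c, by omega, by omega, ?_⟩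
      rw [Nat.mul_add_mod, Nat.mod_eq_of_lt (by omega)]
    · refine ⟨12 * m * (a 0 / (12 * m) + 1) + c, ?_, ?_, ?_⟩
      · rw [Nat.mul_succ]; omega
      · rw [Nat.mul_succ]; omega
      · rw [Nat.mul_add_mod, Nat.mod_eq_of_lt (by omega)]
  have hex : ∃ t, N ≤ a t := ⟨m, by omega⟩
  classical
  set t := Nat.find hex with ht
  have ht1 : N ≤ a t := Nat.find_spec hex
  have htm : t ≤ m := Nat.find_min' hex (by omega)
  have ht2 : a t ≤ N + (m - 1) := by
    rcases Nat.eq_zero_or_pos t with h0 | h0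
    · rw [h0]; omega
    · have h3 : ¬ N ≤ a (t - 1) := Nat.find_min hex (by omega)
      have h4 := hstep (t - 1) (by omega)
      rw [Nat.sub_add_cancel h0] at h4
      omega
  refine ⟨t, htm, ?_⟩
  have hNd := Nat.div_add_mod N (12 * m)
  rw [hN3] at hNd
  have e : a t = 12 * m * (N / (12 * m)) + (c + (a t - N)) := by omega
  rw [e, Nat.mul_add_mod, Nat.mod_eq_of_lt (by omega)]
  omega

/-- the inner elements are absorbed -/
lemma absorb (hf : Chain m f) (hm : 0 < m) (c : ℕ) (hc1 : m ≤ c) (hc2 : c + 2 * m ≤ 12 * m)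
    (q : Fin m → Fin m) (hq1 : c ≤ sm q % (12 * m)) (hq2 : sm q % (12 * m) < c + m) :
    Fq κ h f q * gs κ h f (Zi m (c - m) (c + 2 * m)) = Fq κ h f q := by
  have h1 : gs κ h f {q} * gs κ h f (Zi m (c - m) (c + 2 * m))ᶜ = 0 := by
    apply gs_mul κ h hf
    intro p hp q' hq'
    rw [mem_singleton] at hp
    subst hp
    simp only [Zi, mem_compl, mem_filter, mem_univ, true_and] at hq'
    have := Nat.mod_lt (sm q') (by omega : 0 < 12 * m)
    apply far_of_res hm
    omega
  rw [gs_compl κ h hf] at h1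
  have h2 : gs κ h f {q} = Fq κ h f q := by simp [gs]
  rw [h2, mul_sub, mul_one, sub_eq_zero] at h1
  exact h1.symm

lemma full (hf : Chain m f) (hm : 0 < m) (c : ℕ) (hc1 : m ≤ c) (hc2 : c + 2 * m ≤ 12 * m) :
    FullEl (gs κ h f (Zi m (c - m) (c + 2 * m))) := by
  classical
  obtain ⟨n, i, k, v, b, w, hfar, hsum⟩ := hf.far
  -- the path of a tuple
  have hpath : ∀ j : Fin m → Fin n, ∃ q : Fin m → Fin m,
      (∀ l, q l = i (j l) ∨ q l = k (j l)) ∧ c ≤ sm q % (12 * m) ∧ sm q % (12 * m) < c + m := by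
    intro j
    set q : ℕ → Fin m → Fin m := fun t l =>
      if (l : ℕ) < t then max (i (j l)) (k (j l)) else min (i (j l)) (k (j l)) with hq
    have hmm : ∀ l : Fin m, ((min (i (j l)) (k (j l)) : Fin m) : ℕ) + 12 ≤
        ((max (i (j l)) (k (j l)) : Fin m) : ℕ) := by
      intro l
      rcases hfar (j l) with h1 | h1
      · rw [min_eq_left (by rw [Fin.le_def]; omega), max_eq_right (by rw [Fin.le_def]; omega)]
        exact h1
      · rw [min_eq_right (by rw [Fin.le_def]; omega), max_eq_left (by rw [Fin.le_def]; omega)]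
        exact h1
    have hstep : ∀ t < m, sm (q (t + 1)) ≤ sm (q t) + m := by
      intro t ht
      have e : ∀ l : Fin m, ((q (t + 1) l : Fin m) : ℕ) ≤ (q t l : ℕ) +
          (if l = ⟨t, ht⟩ then m else 0) := by
        intro l
        by_cases hl : l = ⟨t, ht⟩
        · rw [if_pos hl]
          have := (q (t + 1) l).isLt
          omega
        · have hl' : (l : ℕ) ≠ t := fun h' => hl (Fin.ext h')
          rw [if_neg hl, add_zero]
          simp only [hq]
          by_cases h1 : (l : ℕ) < t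
          · rw [if_pos h1, if_pos (by omega)]
          · rw [if_neg h1, if_neg (by omega)]
      unfold sm
      calc ∑ l, ((q (t + 1) l : Fin m) : ℕ) ≤ ∑ l, ((q t l : ℕ) + (if l = ⟨t, ht⟩ then m else 0)) :=
            sum_le_sum fun l _ => e l
        _ = _ := by rw [sum_add_distrib]; simp
    have htot : sm (q 0) + 12 * m ≤ sm (q m) := by
      unfold sm
      calc ∑ l, ((q 0 l : Fin m) : ℕ) + 12 * m = ∑ l : Fin m, (((q 0 l : Fin m) : ℕ) + 12) := by
            rw [sum_add_distrib]; simp [mul_comm]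
        _ ≤ ∑ l, ((q m l : Fin m) : ℕ) := by
            refine sum_le_sum fun l _ => ?_
            simp only [hq]
            rw [if_neg (by omega), if_pos l.isLt]
            exact hmm l
    obtain ⟨t, _, ht⟩ := path m hm (fun t => sm (q t)) hstep htot c (by omega)
    refine ⟨q t, ?_, ht⟩
    intro l
    simp only [hq]
    split_ifs
    · rcases max_choice (i (j l)) (k (j l)) with h1 | h1
      · exact Or.inl h1
      · exact Or.inr h1
    · rcases min_choice (i (j l)) (k (j l)) with h1 | h1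
      · exact Or.inl h1
      · exact Or.inr h1
  choose q hq1 hq2 using hpath
  -- the decomposition
  set x : (Fin m → Fin n) → Fin m → D := fun j l =>
    if q j l = i (j l) then v (j l) else v (j l) * f (i (j l)) * b (j l) with hx
  set y : (Fin m → Fin n) → Fin m → D := fun j l =>
    if q j l = i (j l) then b (j l) * f (k (j l)) * w (j l) else w (j l) with hy
  have hT : ∀ j : Fin m → Fin n,
      Pm κ h (fun l => v (j l) * f (i (j l)) * b (j l) * f (k (j l)) * w (j l)) =
      (Pm κ h (x j) * Fq κ h f (q j)) * gs κ h f (Zi m (c - m) (c + 2 * m)) * Pm κ h (y j) := by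
    intro j
    rw [mul_assoc (Pm κ h (x j)), absorb κ h hf hm c hc1 hc2 (q j) (hq2 j).1 (hq2 j).2]
    unfold Fq
    rw [← map_mul, ← map_mul]
    congr 1
    funext l
    simp only [Pi.mul_apply, hx, hy]
    by_cases h1 : q j l = i (j l)
    · rw [if_pos h1, if_pos h1, h1]
      simp only [mul_assoc]
    · have h2 : q j l = k (j l) := (hq1 j l).resolve_left h1
      rw [if_neg h1, if_neg h1, h2]
  have hone : ∑ j : Fin m → Fin n, (Pm κ h (x j) * Fq κ h f (q j)) *
      gs κ h f (Zi m (c - m) (c + 2 * m)) * Pm κ h (y j) = 1 := by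
    rw [← sum_congr rfl fun j _ => hT j,
      ← Pm_sum κ h (fun _ j => v j * f (i j) * b j * f (k j) * w j), hsum]
    exact map_one (Pm κ h)
  let e := Fintype.equivFin (Fin m → Fin n)
  refine ⟨Fintype.card (Fin m → Fin n), fun a => Pm κ h (x (e.symm a)) * Fq κ h f (q (e.symm a)),
    fun a => Pm κ h (y (e.symm a)), ?_⟩
  rw [← hone]
  exact e.symm.sum_comp (fun j => (Pm κ h (x j) * Fq κ h f (q j)) *
      gs κ h f (Zi m (c - m) (c + 2 * m)) * Pm κ h (y j))

include κ h in
theorem pair (hf : Chain m f) (hm : 0 < m) : OrthPair F := by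
  have key : ∀ c, 2 * m ≤ c → c + 3 * m ≤ 12 * m →
      gs κ h f (Zi m (c - 2 * m) (c + 3 * m)) * gs κ h f (Zi m (c - m) (c + 2 * m)) =
        gs κ h f (Zi m (c - m) (c + 2 * m)) ∧
      gs κ h f (Zi m (c - m) (c + 2 * m)) * gs κ h f (Zi m (c - 2 * m) (c + 3 * m)) =
        gs κ h f (Zi m (c - m) (c + 2 * m)) := by
    intro c hc1 hc2
    have h1 : gs κ h f (Zi m (c - 2 * m) (c + 3 * m))ᶜ * gs κ h f (Zi m (c - m) (c + 2 * m)) = 0 := by
      apply gs_mul κ h hf
      intro p hp q hq
      simp only [Zi, mem_compl, mem_filter, mem_univ, true_and] at hp hq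
      have := Nat.mod_lt (sm p) (by omega : 0 < 12 * m)
      apply far_of_res hm
      omega
    have h2 : gs κ h f (Zi m (c - m) (c + 2 * m)) * gs κ h f (Zi m (c - 2 * m) (c + 3 * m))ᶜ = 0 := by
      apply gs_mul κ h hf
      intro p hp q hq
      simp only [Zi, mem_compl, mem_filter, mem_univ, true_and] at hp hq
      have := Nat.mod_lt (sm q) (by omega : 0 < 12 * m)
      apply far_of_res hm
      omega
    rw [gs_compl κ h hf] at h1 h2
    constructor
    · rw [sub_mul, one_mul, sub_eq_zero] at h1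
      exact h1.symm
    · rw [mul_sub, mul_one, sub_eq_zero] at h2
      exact h2.symm
  have hgh : ∀ (a b a' b' : ℕ), b + m ≤ a' → b' + m ≤ 12 * m + a → 
      gs κ h f (Zi m a b) * gs κ h f (Zi m a' b') = 0 ∧
      gs κ h f (Zi m a' b') * gs κ h f (Zi m a b) = 0 := by
    intro a b a' b' hb hb'
    constructor
    · apply gs_mul κ h hf
      intro p hp q hq
      simp only [Zi, mem_filter, mem_univ, true_and] at hp hq
      apply far_of_res hm
      omega
    · apply gs_mul κ h hf
      intro p hp q hq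
      simp only [Zi, mem_filter, mem_univ, true_and] at hp hq
      apply far_of_res hm
      omega
  have k1 := key (2 * m) le_rfl (by omega)
  have k2 := key (8 * m) (by omega) (by omega)
  have k3 := hgh (2 * m - 2 * m) (2 * m + 3 * m) (8 * m - 2 * m) (8 * m + 3 * m) (by omega) (by omega)
  exact ⟨gs κ h f (Zi m (2 * m - 2 * m) (2 * m + 3 * m)),
    gs κ h f (Zi m (8 * m - 2 * m) (8 * m + 3 * m)),
    gs κ h f (Zi m (2 * m - m) (2 * m + 2 * m)), gs κ h f (Zi m (8 * m - m) (8 * m + 2 * m)),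
    k3.1, k3.2, k1.1, k1.2, k2.1, k2.2,
    full κ h hf hm (2 * m) (by omega) (by omega), full κ h hf hm (8 * m) (by omega) (by omega)⟩

end ring

end Vale.Agent.P101.PairB

namespace Vale.Agent.P101

universe u

theorem pairb : S_PAIRB.{u} := by
  intro F _ hC hex
  obtain ⟨m, f, hf⟩ := hex
  rcases Nat.eq_zero_or_pos m with rfl | hm
  · have h01 : (0 : F) = 1 := by
      have := hf.sum_one
      simpa using this
    have : Subsingleton F := subsingleton_of_zero_eq_one h01
    have hfull : FullEl (0 : F) := ⟨0, Fin.elim0, Fin.elim0, Subsingleton.elim _ _⟩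
    exact ⟨0, 0, 0, 0, Subsingleton.elim _ _, Subsingleton.elim _ _, Subsingleton.elim _ _,
      Subsingleton.elim _ _, Subsingleton.elim _ _, Subsingleton.elim _ _, hfull, hfull⟩
  obtain ⟨n, i, k, v, b, w, hfar, hsum⟩ := hf.far
  obtain ⟨S, y, κ, hy, hκ⟩ := hC.family (Sum.elim (Sum.elim f v) (Sum.elim b w)) m
  have hyf : ∀ i, (y (Sum.inl (Sum.inl i)) : F) = f i := fun i => hy (Sum.inl (Sum.inl i))
  have hyv : ∀ i, (y (Sum.inl (Sum.inr i)) : F) = v i := fun i => hy (Sum.inl (Sum.inr i))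
  have hyb : ∀ i, (y (Sum.inr (Sum.inl i)) : F) = b i := fun i => hy (Sum.inr (Sum.inl i))
  have hyw : ∀ i, (y (Sum.inr (Sum.inr i)) : F) = w i := fun i => hy (Sum.inr (Sum.inr i))
  have hf' : Chain m (fun i => y (Sum.inl (Sum.inl i))) := by
    refine ⟨?_, ?_, ?_⟩
    · apply Subtype.ext
      have : ((∑ i, y (Sum.inl (Sum.inl i)) : S) : F) = ∑ i, (y (Sum.inl (Sum.inl i)) : F) :=
        map_sum S.subtype _ _
      rw [this]
      simp only [hyf]
      exact hf.sum_one
    · intro a c hac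
      constructor
      · apply Subtype.ext
        show (y (Sum.inl (Sum.inl a)) : F) * (y (Sum.inl (Sum.inl c)) : F) = 0
        rw [hyf, hyf]
        exact (hf.orth a c hac).1
      · apply Subtype.ext
        show (y (Sum.inl (Sum.inl c)) : F) * (y (Sum.inl (Sum.inl a)) : F) = 0
        rw [hyf, hyf]
        exact (hf.orth a c hac).2
    · refine ⟨n, i, k, fun j => y (Sum.inl (Sum.inr j)), fun j => y (Sum.inr (Sum.inl j)),
        fun j => y (Sum.inr (Sum.inr j)), hfar, ?_⟩
      apply Subtype.ext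
      have : ((∑ j, y (Sum.inl (Sum.inr j)) * y (Sum.inl (Sum.inl (i j))) * y (Sum.inr (Sum.inl j)) *
          y (Sum.inl (Sum.inl (k j))) * y (Sum.inr (Sum.inr j)) : S) : F) =
          ∑ j, (y (Sum.inl (Sum.inr j)) : F) * (y (Sum.inl (Sum.inl (i j))) : F) *
            (y (Sum.inr (Sum.inl j)) : F) *
          (y (Sum.inl (Sum.inl (k j))) : F) * (y (Sum.inr (Sum.inr j)) : F) :=
        map_sum S.subtype _ _
      rw [this]
      simp only [hyf, hyv, hyb, hyw]
      exact hsum
  exact PairB.pair (fun l => ((κ l : S →⋆ₐ[ℂ] F) : S →+* F)) (fun l l' hl a c => hκ l l' hl a c)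
    hf' hm

end Vale.Agent.P101
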