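import Vale.Agent.P101.Defs

open Matrix

namespace Vale.Agent.P101

universe u

/-- the square root of `1 - x²` -/
theorem exists_gam {F : Type u} [CStarAlgebra F] (x : F) (h0 : ∃ t : F, x = star t * t)
    (h1 : ∃ t : F, 1 - x = star t * t) :
    ∃ γ : F, star γ = γ ∧ γ * γ = 1 - x * x ∧ (∀ y : F, x * y = y * x → γ * y = y * γ) ∧
      (∀ y : F, x * y = y → γ * y = 0) := by
  letI := CStarAlgebra.spectralOrder F
  haveI := CStarAlgebra.spectralOrderedRing F
  obtain ⟨t, ht⟩ := h0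
  obtain ⟨s, hs⟩ := h1
  have hx0 : 0 ≤ x := by rw [ht]; exact star_mul_self_nonneg t
  have hx1 : x ≤ 1 := by rw [← sub_nonneg, hs]; exact star_mul_self_nonneg s
  have hxs : IsSelfAdjoint x := IsSelfAdjoint.of_nonneg hx0
  have hspec0 : ∀ r ∈ spectrum ℝ x, 0 ≤ r := fun r hr => spectrum_nonneg_of_nonneg hx0 hr
  have hspec1 : ∀ r ∈ spectrum ℝ x, r ≤ 1 := by
    intro r hr
    refine (le_algebraMap_iff_spectrum_le (r := (1 : ℝ)) (a := x) hxs).mp ?_ r hr
    rw [map_one]
    exact hx1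
  set γ : F := cfc (fun r : ℝ => Real.sqrt (1 - r ^ 2)) x with hγ
  have hsa : star γ = γ := (cfc_predicate (fun r : ℝ => Real.sqrt (1 - r ^ 2)) x)
  have hmul : γ * γ = 1 - x * x := by
    rw [hγ, ← cfc_mul _ _ x]
    have h2 : cfc (fun r : ℝ => (1 : ℝ) - r ^ 2) x = 1 - x * x := by
      rw [cfc_sub _ _ x, cfc_const_one ℝ x, cfc_pow_id x 2, pow_two]
    rw [← h2]
    refine cfc_congr fun r hr => ?_
    have : 0 ≤ 1 - r ^ 2 := by
      have h0 := hspec0 r hr
      have h1 := hspec1 r hr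
      nlinarith
    exact Real.mul_self_sqrt this
  refine ⟨γ, hsa, hmul, ?_, ?_⟩
  · intro y hy
    have hc : Commute x y := hy
    exact (hxs.commute_cfc hc _).eq
  · intro y hy
    have h2 : star (γ * y) * (γ * y) = 0 := by
      rw [star_mul, hsa]
      have : star y * γ * (γ * y) = star y * ((γ * γ) * y) := by noncomm_ring
      rw [this, hmul, sub_mul, one_mul, mul_assoc, hy, hy, sub_self, mul_zero]
    exact (CStarRing.star_mul_self_eq_zero_iff _).mp h2

theorem q1q : S_Q1Q.{u} := by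
  intro F _ n m hQ
  obtain ⟨p, hp, σ, hσ, hsum⟩ := hQ
  obtain ⟨γ, hγs, hγm, hγc, hγz⟩ := exists_gam (p 1) hp.nonneg hp.le_one
  refine ⟨p, hp, fun i => σ i * γ, fun i => by rw [← mul_assoc, hσ], ?_⟩
  have : ∀ i, star (σ i * γ) * (σ i * γ) = γ * (star (σ i) * σ i) * γ := by
    intro i
    rw [star_mul, hγs]
    noncomm_ring
  simp only [this]
  rw [← Finset.sum_mul, ← Finset.mul_sum, hsum, mul_one, hγm]

end Vale.Agent.P101
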