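import Vale.Agent.P101.Defs

open Matrix

namespace Vale.Agent.P101

universe u

theorem qrw : S_QRW.{u} := by
  intro F _ n hQ
  obtain ⟨p, hp, σ, hσ, hsum⟩ := hQ
  have hcomm : ∀ a, p 1 * p a = p a * p 1 := by
    intro a
    have h1 := hp.mul_map a 1
    rw [mul_one] at h1
    rw [h1]
  have h1self : star (p 1) = p 1 := by
    have := hp.star_map 1
    rw [star_one] at this
    exact this.symm
  refine ⟨(LinearMap.mulLeft ℂ (p 1)).comp p, ?_, σ 0, ?_, ?_⟩
  · constructor
    · intro a
      simp only [LinearMap.comp_apply, LinearMap.mulLeft_apply]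
      rw [hp.star_map, star_mul, h1self, ← hp.star_map, hcomm]
    · intro a b
      simp only [LinearMap.comp_apply, LinearMap.mulLeft_apply]
      calc p 1 * p a * (p 1 * p b) = p 1 * (p a * p 1) * p b := by noncomm_ring
        _ = p 1 * (p 1 * p a) * p b := by rw [hcomm a]
        _ = p 1 * p 1 * (p a * p b) := by noncomm_ring
        _ = p 1 * p 1 * (p 1 * p (a * b)) := by rw [hp.mul_map a b]
    · refine ⟨p 1, ?_⟩
      simp only [LinearMap.comp_apply, LinearMap.mulLeft_apply]
      rw [h1self]
    · refine ⟨σ 0, ?_⟩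
      simp only [LinearMap.comp_apply, LinearMap.mulLeft_apply]
      rw [← hsum]
      simp
  · simp only [LinearMap.comp_apply, LinearMap.mulLeft_apply]
    have h0 := hσ 0
    have h2 := hp.mul_map (Matrix.single 0 0 1) (Matrix.single 0 0 (1 : ℂ))
    rw [Matrix.single_mul_single_same, one_mul] at h2
    rw [← h2, mul_assoc, h0, h0]
  · simp only [LinearMap.comp_apply, LinearMap.mulLeft_apply]
    rw [← hsum]
    simp

end Vale.Agent.P101
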