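import Vale.Agent.P101.Slem

namespace Vale.Agent.P101

universe u

theorem fullEl_of_mem {R : Type*} [Ring R] {x : R} (h : (1 : R) ∈ genIdeal {x}) : FullEl x := by
  obtain ⟨n, t, c, d, ht, hsum⟩ := (mem_genIdeal _ _).mp h
  refine ⟨n, c, d, ?_⟩
  rw [← hsum]
  refine Finset.sum_congr rfl fun j _ => ?_
  rw [Set.mem_singleton_iff.mp (ht j)]

theorem selectors {R D : Type*} [Ring R] [Ring D] (g h g' h' : D) (hgh : g * h = 0)
    (hhg : h * g = 0) (hg : g' * g = g') (hh : h' * h = h') (fg : FullEl g') (fh : FullEl h') :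
    ∀ (N : ℕ) (κ : Fin N → (D →+* R)), (∀ l l', l ≠ l' → ∀ x y, κ l x * κ l' y = κ l' y * κ l x) →
      ∃ p p' : Fin N → R, (∀ e, p' e * p e = p' e) ∧ (∀ e f, e ≠ f → p' e * p f = 0) ∧
        (∀ z, (∀ l x, κ l x * z = z * κ l x) → ∀ e, p e * z = z * p e ∧ p' e * z = z * p' e) ∧
        ∀ e, ∃ (ι : Type) (_ : Fintype ι) (v w : ι → R),
          (∀ z, (∀ l x, κ l x * z = z * κ l x) → ∀ i, v i * z = z * v i ∧ w i * z = z * w i) ∧
          ∑ i, v i * p' e * w i = 1 := by
  intro N
  induction N with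
  | zero =>
    intro κ _
    exact ⟨Fin.elim0, Fin.elim0, fun e => e.elim0, fun e => e.elim0, fun _ _ e => e.elim0,
      fun e => e.elim0⟩
  | succ N ih =>
    intro κ hκ
    obtain ⟨p, p', h1, h2, h3, h4⟩ := ih (fun l => κ l.succ)
      (fun l l' hl x y => hκ l.succ l'.succ (fun e => hl (Fin.succ_injective _ e)) x y)
    -- elements of copy `0` commute with everything built from the other copies
    have hz : ∀ x : D, ∀ (l : Fin N) y, κ l.succ y * κ 0 x = κ 0 x * κ l.succ y := fun x l y =>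
      hκ l.succ 0 (Fin.succ_ne_zero l) y x
    have hp : ∀ x e, p e * κ 0 x = κ 0 x * p e := fun x e => (h3 (κ 0 x) (hz x) e).1
    have hp' : ∀ x e, p' e * κ 0 x = κ 0 x * p' e := fun x e => (h3 (κ 0 x) (hz x) e).2
    have hg'h : g' * h = 0 := by rw [← hg, mul_assoc, hgh, mul_zero]
    have hh'g : h' * g = 0 := by rw [← hh, mul_assoc, hhg, mul_zero]
    refine ⟨Fin.cons (κ 0 g) (fun e => κ 0 h * p e), Fin.cons (κ 0 g') (fun e => κ 0 h' * p' e),
      ?_, ?_, ?_, ?_⟩
    · intro e
      refine Fin.cases ?_ (fun e => ?_) e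
      · rw [Fin.cons_zero, Fin.cons_zero, ← map_mul, hg]
      · rw [Fin.cons_succ, Fin.cons_succ]
        calc κ 0 h' * p' e * (κ 0 h * p e) = κ 0 h' * (p' e * κ 0 h) * p e := by noncomm_ring
          _ = κ 0 h' * κ 0 h * (p' e * p e) := by rw [hp']; noncomm_ring
          _ = κ 0 h' * p' e := by rw [h1, ← map_mul, hh]
    · intro e f hef
      revert hef
      refine Fin.cases ?_ (fun e => ?_) e
      · refine Fin.cases (fun h => absurd rfl h) (fun f _ => ?_) f
        rw [Fin.cons_zero, Fin.cons_succ, ← mul_assoc, ← map_mul, hg'h, map_zero, zero_mul]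
      · refine Fin.cases (fun _ => ?_) (fun f hef => ?_) f
        · rw [Fin.cons_succ, Fin.cons_zero, mul_assoc, hp', ← mul_assoc, ← map_mul, hh'g, map_zero,
            zero_mul]
        · rw [Fin.cons_succ, Fin.cons_succ]
          calc κ 0 h' * p' e * (κ 0 h * p f) = κ 0 h' * (p' e * κ 0 h) * p f := by noncomm_ring
            _ = κ 0 h' * κ 0 h * (p' e * p f) := by rw [hp']; noncomm_ring
            _ = 0 := by rw [h2 e f (fun h => hef (by rw [h])), mul_zero]
    · intro z hzz e
      have hzs : ∀ (l : Fin N) x, κ l.succ x * z = z * κ l.succ x := fun l x => hzz l.succ x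
      refine Fin.cases ?_ (fun e => ?_) e
      · rw [Fin.cons_zero, Fin.cons_zero]
        exact ⟨hzz 0 g, hzz 0 g'⟩
      · rw [Fin.cons_succ, Fin.cons_succ]
        constructor
        · rw [mul_assoc, (h3 z hzs e).1, ← mul_assoc, hzz 0 h, mul_assoc]
        · rw [mul_assoc, (h3 z hzs e).2, ← mul_assoc, hzz 0 h', mul_assoc]
    · intro e
      refine Fin.cases ?_ (fun e => ?_) e
      · obtain ⟨n, v, w, hvw⟩ := fg
        refine ⟨Fin n, inferInstance, fun i => κ 0 (v i), fun i => κ 0 (w i), ?_, ?_⟩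
        · intro z hzz i
          exact ⟨hzz 0 _, hzz 0 _⟩
        · rw [Fin.cons_zero, ← map_one (κ 0), ← hvw, map_sum]
          simp only [map_mul]
      · obtain ⟨n, v', w', hvw'⟩ := fh
        obtain ⟨ι, _, v, w, hc, hvw⟩ := h4 e
        refine ⟨Fin n × ι, inferInstance, fun i => κ 0 (v' i.1) * v i.2,
          fun i => w i.2 * κ 0 (w' i.1), ?_, ?_⟩
        · intro z hzz i
          have hzs : ∀ (l : Fin N) x, κ l.succ x * z = z * κ l.succ x := fun l x => hzz l.succ x
          constructor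
          · rw [mul_assoc, (hc z hzs i.2).1, ← mul_assoc, hzz 0, mul_assoc]
          · rw [mul_assoc, hzz 0, ← mul_assoc, (hc z hzs i.2).2, mul_assoc]
        · rw [Fin.cons_succ, Fintype.sum_prod_type]
          have : ∀ i : Fin n, ∑ j : ι, κ 0 (v' i) * v j * (κ 0 h' * p' e) * (w j * κ 0 (w' i))
              = κ 0 (v' i * h' * w' i) := by
            intro i
            have h5 : ∀ j : ι, κ 0 (v' i) * v j * (κ 0 h' * p' e) * (w j * κ 0 (w' i))
                = κ 0 (v' i * h') * (v j * p' e * w j) * κ 0 (w' i) := by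
              intro j
              calc κ 0 (v' i) * v j * (κ 0 h' * p' e) * (w j * κ 0 (w' i))
                  = κ 0 (v' i) * (v j * κ 0 h') * p' e * w j * κ 0 (w' i) := by noncomm_ring
                _ = κ 0 (v' i) * (κ 0 h' * v j) * p' e * w j * κ 0 (w' i) := by
                  rw [(hc (κ 0 h') (hz h') j).1]
                _ = κ 0 (v' i * h') * (v j * p' e * w j) * κ 0 (w' i) := by
                  rw [map_mul]; noncomm_ring
            rw [Finset.sum_congr rfl fun j _ => h5 j, ← Finset.sum_mul, ← Finset.mul_sum, hvw,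
              mul_one, ← map_mul]
          rw [Finset.sum_congr rfl fun i _ => this i, ← map_sum, hvw', map_one]

theorem sel : S_SEL.{u} := by
  intro F _ hF hO
  obtain ⟨g, h, g', h', hgh, hhg, hgg', hg'g, hhh', hh'h, ⟨n1, v1, w1, hs1⟩, ⟨n2, v2, w2, hs2⟩⟩ :=
    hO
  obtain ⟨S, z, κ, hz, hκ⟩ := hF.family
    (Sum.elim (![g, h, g', h'] : Fin 4 → F) (Sum.elim (Sum.elim v1 w1) (Sum.elim v2 w2)))
    (n1 * n2 + 1)
  set G : S := z (Sum.inl 0) with hG
  set H : S := z (Sum.inl 1) with hH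
  set G' : S := z (Sum.inl 2) with hG'
  set H' : S := z (Sum.inl 3) with hH'
  set V1 : Fin n1 → S := fun i => z (Sum.inr (Sum.inl (Sum.inl i))) with hV1
  set W1 : Fin n1 → S := fun i => z (Sum.inr (Sum.inl (Sum.inr i))) with hW1
  set V2 : Fin n2 → S := fun i => z (Sum.inr (Sum.inr (Sum.inl i))) with hV2
  set W2 : Fin n2 → S := fun i => z (Sum.inr (Sum.inr (Sum.inr i))) with hW2
  have cG : (G : F) = g := hz _
  have cH : (H : F) = h := hz _
  have cG' : (G' : F) = g' := hz _
  have cH' : (H' : F) = h' := hz _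
  have cV1 : ∀ i, (V1 i : F) = v1 i := fun i => hz _
  have cW1 : ∀ i, (W1 i : F) = w1 i := fun i => hz _
  have cV2 : ∀ i, (V2 i : F) = v2 i := fun i => hz _
  have cW2 : ∀ i, (W2 i : F) = w2 i := fun i => hz _
  have eGH : G * H = 0 := Subtype.ext (by push_cast; rw [cG, cH]; exact hgh)
  have eHG : H * G = 0 := Subtype.ext (by push_cast; rw [cG, cH]; exact hhg)
  have eG'G : G' * G = G' := Subtype.ext (by push_cast; rw [cG, cG']; exact hg'g)
  have eH'H : H' * H = H' := Subtype.ext (by push_cast; rw [cH, cH']; exact hh'h)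
  have eHH' : H * H' = H' := Subtype.ext (by push_cast; rw [cH, cH']; exact hhh')
  have eS1 : ∑ i, V1 i * G' * W1 i = 1 := Subtype.ext (by
    push_cast; simp only [cV1, cG', cW1]; exact hs1)
  have eS2 : ∑ i, V2 i * H' * W2 i = 1 := Subtype.ext (by
    push_cast; simp only [cV2, cH', cW2]; exact hs2)
  have eG'H' : G' * H' = 0 := by
    rw [← eG'G, ← eHH', mul_assoc, ← mul_assoc G H H', eGH, zero_mul, mul_zero]
  obtain ⟨p, p', h1, h2, h3, h4⟩ := selectors (R := F) G H G' H' eGH eHG eG'G eH'H ⟨n1, V1, W1, eS1⟩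
    ⟨n2, V2, W2, eS2⟩ (n1 * n2) (fun l => ((κ l.succ : S →⋆ₐ[ℂ] F) : S →+* F))
    (fun l l' hl x y => hκ l.succ l'.succ (fun e => hl (Fin.succ_injective _ e)) x y)
  set μ : S →⋆ₐ[ℂ] F := κ 0 with hμ
  have hμc : ∀ x : S, ∀ (l : Fin (n1 * n2)) (y : S),
      ((κ l.succ : S →⋆ₐ[ℂ] F) : S →+* F) y * μ x = μ x * ((κ l.succ : S →⋆ₐ[ℂ] F) : S →+* F) y :=
    fun x l y => hκ l.succ 0 (Fin.succ_ne_zero l) y x
  set y : Fin (n1 * n2) → S := fun e =>
    H' * (W2 (finProdFinEquiv.symm e).2 * V1 (finProdFinEquiv.symm e).1) * G' with hy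
  have hyy : ∀ e f, y e * y f = 0 := by
    intro e f
    simp only [hy]
    calc H' * (W2 (finProdFinEquiv.symm e).2 * V1 (finProdFinEquiv.symm e).1) * G' *
          (H' * (W2 (finProdFinEquiv.symm f).2 * V1 (finProdFinEquiv.symm f).1) * G')
        = H' * (W2 (finProdFinEquiv.symm e).2 * V1 (finProdFinEquiv.symm e).1) * (G' * H') *
          ((W2 (finProdFinEquiv.symm f).2 * V1 (finProdFinEquiv.symm f).1) * G') := by
          noncomm_ring
      _ = 0 := by rw [eG'H', mul_zero, zero_mul]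
  have hysum : ∑ e, V2 (finProdFinEquiv.symm e).2 * y e * W1 (finProdFinEquiv.symm e).1 = 1 := by
    rw [← (finProdFinEquiv (m := n1) (n := n2)).sum_comp, Fintype.sum_prod_type_right]
    simp only [Equiv.symm_apply_apply, hy]
    have : ∀ j : Fin n2, ∑ i : Fin n1, V2 j * (H' * (W2 j * V1 i) * G') * W1 i
        = V2 j * H' * W2 j := by
      intro j
      have : ∀ i : Fin n1, V2 j * (H' * (W2 j * V1 i) * G') * W1 i
          = V2 j * H' * W2 j * (V1 i * G' * W1 i) := fun i => by noncomm_ring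
      rw [Finset.sum_congr rfl fun i _ => this i, ← Finset.mul_sum, eS1, mul_one]
    rw [Finset.sum_congr rfl fun j _ => this j, eS2]
  refine ⟨∑ e, p e * μ (y e), ?_, ?_⟩
  · rw [Finset.sum_mul]
    refine Finset.sum_eq_zero fun e _ => ?_
    rw [Finset.mul_sum]
    refine Finset.sum_eq_zero fun f _ => ?_
    calc p e * μ (y e) * (p f * μ (y f)) = p e * (μ (y e) * p f) * μ (y f) := by noncomm_ring
      _ = p e * (p f * μ (y e)) * μ (y f) := by rw [(h3 _ (hμc (y e)) f).1]
      _ = p e * p f * μ (y e * y f) := by rw [map_mul μ (y e) (y f)]; simp only [mul_assoc]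
      _ = 0 := by rw [hyy, map_zero, mul_zero]
  · set X : F := ∑ e, p e * μ (y e) with hX
    apply fullEl_of_mem
    have hXm : X ∈ genIdeal {X} := subset_genIdeal _ rfl
    have hp'X : ∀ e, p' e * X = p' e * μ (y e) := by
      intro e
      rw [hX, Finset.mul_sum, Finset.sum_eq_single e]
      · rw [← mul_assoc, h1]
      · intro f _ hf
        rw [← mul_assoc, h2 e f hf.symm, zero_mul]
      · intro h; exact absurd (Finset.mem_univ e) h
    have hye : ∀ e, μ (y e) ∈ genIdeal {X} := by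
      intro e
      obtain ⟨ι, _, v, w, hc, hvw⟩ := h4 e
      have : μ (y e) = ∑ i, v i * (p' e * X) * w i := by
        conv_lhs => rw [← one_mul (μ (y e)), ← hvw, Finset.sum_mul]
        refine Finset.sum_congr rfl fun i _ => ?_
        rw [hp'X, mul_assoc _ (w i), (hc _ (hμc (y e)) i).2]
        simp only [mul_assoc]
      rw [this]
      exact sum_mem fun i _ => TwoSidedIdeal.mul_mem_right _ _ _
        (TwoSidedIdeal.mul_mem_left _ _ _ (TwoSidedIdeal.mul_mem_left _ _ _ hXm))
    rw [← map_one μ, ← hysum, map_sum]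
    refine sum_mem fun e _ => ?_
    rw [map_mul, map_mul]
    exact TwoSidedIdeal.mul_mem_right _ _ _ (TwoSidedIdeal.mul_mem_left _ _ _ (hye e))

end Vale.Agent.P101
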