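import Vale.Agent.P101.Defs
import Vale.Agent.P101.Util
import Vale.Agent.P101.Q1Q

/-!
# P101, module TENS: tensor powers of order zero maps, compressed
-/

open Matrix

namespace Vale.Agent.P101

universe u

namespace TENS

/-- order zero data in coordinates -/
structure D (R : Type*) [Ring R] [StarRing R] (N m : ℕ) (e : Fin N → Fin N → R) (σ : Fin m → R)
    (i0 : Fin N) (t : Fin N → R) (s : R) : Prop where
  star_e : ∀ i j, star (e i j) = e j i
  mul_e : ∀ i j k l, e i j * e k l = if j = k then (∑ k, e k k) * e i l else 0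
  pos : ∀ k, e k k = star (t k) * t k
  le : 1 - ∑ k, e k k = star s * s
  sig : ∀ i, e i0 i0 * σ i = σ i
  sum : ∑ i, star (σ i) * σ i = 1

section
variable {R R' : Type*} [Ring R] [StarRing R] [Ring R'] [StarRing R'] [Algebra ℂ R] [Algebra ℂ R']
  {N m : ℕ} {e : Fin N → Fin N → R} {σ : Fin m → R} {i0 : Fin N} {t : Fin N → R} {s : R}

theorem D.map (h : D R N m e σ i0 t s) (φ : R →⋆ₐ[ℂ] R') :
    D R' N m (fun i j => φ (e i j)) (fun i => φ (σ i)) i0 (fun k => φ (t k)) (φ s) where
  star_e i j := by rw [← map_star, h.star_e]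
  mul_e i j k l := by
    rw [← map_mul, h.mul_e]
    split_ifs
    · rw [map_mul, map_sum]
    · rw [map_zero]
  pos k := by rw [h.pos, map_mul, map_star]
  le := by rw [← map_sum, ← map_one φ, ← map_sub, h.le, map_mul, map_star]
  sig i := by rw [← map_mul, h.sig]
  sum := by
    simp only [← map_star, ← map_mul]
    rw [← map_sum, h.sum, map_one]

theorem D.of_map (φ : R →⋆ₐ[ℂ] R') (hφ : Function.Injective φ)
    (h : D R' N m (fun i j => φ (e i j)) (fun i => φ (σ i)) i0 (fun k => φ (t k)) (φ s)) :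
    D R N m e σ i0 t s where
  star_e i j := hφ (by rw [map_star]; exact h.star_e i j)
  mul_e i j k l := hφ (by
    rw [map_mul, h.mul_e]
    split_ifs
    · rw [map_mul, map_sum]
    · rw [map_zero])
  pos k := hφ (by rw [map_mul, map_star]; exact h.pos k)
  le := hφ (by rw [map_sub, map_one, map_sum, map_mul, map_star]; exact h.le)
  sig i := hφ (by rw [map_mul]; exact h.sig i)
  sum := hφ (by
    rw [map_sum, map_one]
    simp only [map_mul, map_star]
    exact h.sum)

end

theorem sq_of_sum {F : Type u} [CStarAlgebra F] {ι : Type*} (S : Finset ι) (x : ι → F) :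
    ∃ t : F, ∑ i ∈ S, star (x i) * x i = star t * t := by
  let _ := CStarAlgebra.spectralOrder F
  have _ := CStarAlgebra.spectralOrderedRing F
  have : 0 ≤ ∑ i ∈ S, star (x i) * x i := Finset.sum_nonneg fun i _ => star_mul_self_nonneg _
  exact CStarAlgebra.nonneg_iff_eq_star_mul_self.mp this

theorem sq_add {F : Type u} [CStarAlgebra F] {a b : F} (ha : ∃ t : F, a = star t * t)
    (hb : ∃ t : F, b = star t * t) : ∃ t : F, a + b = star t * t := by
  let _ := CStarAlgebra.spectralOrder F
  have _ := CStarAlgebra.spectralOrderedRing F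
  obtain ⟨t, rfl⟩ := ha
  obtain ⟨s, rfl⟩ := hb
  exact CStarAlgebra.nonneg_iff_eq_star_mul_self.mp
    (add_nonneg (star_mul_self_nonneg t) (star_mul_self_nonneg s))

/-- existence of data of size `N` -/
def T (N : ℕ) (F : Type u) [CStarAlgebra F] : Prop :=
  ∃ (m : ℕ) (e : Fin (N + 1) → Fin (N + 1) → F) (σ : Fin (m + 1) → F) (t : Fin (N + 1) → F) (s : F),
    D F (N + 1) (m + 1) e σ 0 t s

theorem T_of_Q1 {F : Type u} [CStarAlgebra F] (h : ∃ m, Q1 0 (m + 1) F) : T 1 F := by
  obtain ⟨m, p, hp, σ, hσ, hsum⟩ := h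
  obtain ⟨γ, hγs, hγm, _, _⟩ := exists_gam (p 1) hp.nonneg hp.le_one
  have hc : ∀ a, p a * p 1 = p 1 * p a := fun a => by rw [hp.mul_map, mul_one]
  have hsa : star (p 1) = p 1 := by rw [← hp.star_map, star_one]
  have hone : ∑ k : Fin 2, p (Matrix.single k k 1) = p 1 := by
    rw [← map_sum]
    congr 1
    ext i j
    fin_cases i <;> fin_cases j <;> simp
  have hsum' : ∑ k : Fin 2, p 1 * p (Matrix.single k k 1) = p 1 * p 1 := by
    rw [← Finset.mul_sum, hone]
  refine ⟨m, fun i j => p 1 * p (Matrix.single i j 1), σ, fun k => p (Matrix.single k k 1), γ, ?_⟩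
  refine ⟨?_, ?_, ?_, ?_, ?_, hsum⟩
  · intro i j
    have e : star (Matrix.single i j (1 : ℂ)) = Matrix.single j i (1 : ℂ) := by
      ext a b
      simp [Matrix.star_apply, Matrix.single_apply, and_comm]
    rw [star_mul, hsa, ← hp.star_map, e, hc]
  · intro i j k l
    rw [hsum']
    have e1 : p 1 * p (Matrix.single i j 1) * (p 1 * p (Matrix.single k l 1))
        = p 1 * p 1 * (p (Matrix.single i j 1) * p (Matrix.single k l 1)) := by
      calc p 1 * p (Matrix.single i j 1) * (p 1 * p (Matrix.single k l 1))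
          = p 1 * (p (Matrix.single i j 1) * p 1) * p (Matrix.single k l 1) := by noncomm_ring
        _ = _ := by rw [hc]; noncomm_ring
    rw [e1, hp.mul_map (Matrix.single i j 1)]
    split_ifs with hjk
    · subst hjk
      rw [Matrix.single_mul_single_same, mul_one]
    · rw [Matrix.single_mul_single_of_ne (h := hjk), map_zero, mul_zero, mul_zero]
  · intro k
    have e : star (Matrix.single k k (1 : ℂ)) = Matrix.single k k (1 : ℂ) := by
      ext a b
      simp [Matrix.star_apply, Matrix.single_apply, and_comm]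
    rw [← hp.star_map, e, hp.mul_map (Matrix.single k k 1), Matrix.single_mul_single_same, mul_one]
  · rw [hsum', hγs, hγm]
  · intro i
    have h1 : p 1 * p (Matrix.single 0 0 1)
        = p (Matrix.single 0 0 1) * p (Matrix.single 0 0 1) := by
      rw [hp.mul_map (Matrix.single 0 0 1) (Matrix.single 0 0 1), Matrix.single_mul_single_same,
        mul_one]
    change p 1 * p (Matrix.single 0 0 1) * σ i = σ i
    rw [h1, mul_assoc, hσ, hσ]

/-- the compressed tensor product -/
theorem D.tensor {F : Type u} [CStarAlgebra F] {N N' M m m' : ℕ} {e : Fin N → Fin N → F}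
    {σ : Fin m → F} {i0 : Fin N} {t : Fin N → F} {s : F} {e' : Fin N' → Fin N' → F}
    {σ' : Fin m' → F} {i0' : Fin N'} {t' : Fin N' → F} {s' : F}
    (h : D F N m e σ i0 t s) (h' : D F N' m' e' σ' i0' t' s')
    (c1 : ∀ i j k l, e i j * e' k l = e' k l * e i j)
    (c2 : ∀ i k l, σ i * e' k l = e' k l * σ i)
    (c3 : ∀ i j k, e i j * t' k = t' k * e i j)
    (c4 : ∀ i j, e i j * s' = s' * e i j)
    (ι : Fin M → Fin N × Fin N') (hι : Function.Injective ι) (k0 : Fin M) (hk0 : ι k0 = (i0, i0')) :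
    ∃ s'' : F, D F M (m * m') (fun i j => e (ι i).1 (ι j).1 * e' (ι i).2 (ι j).2)
      (fun x => σ (finProdFinEquiv.symm x).1 * σ' (finProdFinEquiv.symm x).2) k0
      (fun k => t (ι k).1 * t' (ι k).2) s'' := by
  have hh : ∀ i j, (∑ k, e k k) * e i j = e i i * e i j := by
    intro i j
    rw [h.mul_e, if_pos rfl]
  -- products
  have mulr : ∀ i j k l : Fin M, (e (ι i).1 (ι j).1 * e' (ι i).2 (ι j).2) *
      (e (ι k).1 (ι l).1 * e' (ι k).2 (ι l).2)
      = if j = k then ((∑ k, e k k) * (∑ k, e' k k)) * (e (ι i).1 (ι l).1 * e' (ι i).2 (ι l).2)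
        else 0 := by
    intro i j k l
    have r1 : (e (ι i).1 (ι j).1 * e' (ι i).2 (ι j).2) * (e (ι k).1 (ι l).1 * e' (ι k).2 (ι l).2)
        = (e (ι i).1 (ι j).1 * e (ι k).1 (ι l).1) * (e' (ι i).2 (ι j).2 * e' (ι k).2 (ι l).2) := by
      calc _ = e (ι i).1 (ι j).1 * (e' (ι i).2 (ι j).2 * e (ι k).1 (ι l).1) * e' (ι k).2 (ι l).2 := by
            noncomm_ring
        _ = _ := by rw [← c1]; noncomm_ring
    rw [r1, h.mul_e, h'.mul_e]
    by_cases hjk : j = k
    · subst hjk
      rw [if_pos rfl, if_pos rfl, if_pos rfl]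
      have c5 : e (ι i).1 (ι l).1 * (∑ k, e' k k) = (∑ k, e' k k) * e (ι i).1 (ι l).1 := by
        rw [Finset.mul_sum, Finset.sum_mul]
        exact Finset.sum_congr rfl fun k _ => c1 _ _ _ _
      calc (∑ k, e k k) * e (ι i).1 (ι l).1 * ((∑ k, e' k k) * e' (ι i).2 (ι l).2)
          = (∑ k, e k k) * (e (ι i).1 (ι l).1 * (∑ k, e' k k)) * e' (ι i).2 (ι l).2 := by
            noncomm_ring
        _ = _ := by rw [c5]; noncomm_ring
    · rw [if_neg hjk]
      by_cases h1 : (ι j).1 = (ι k).1
      · have h2 : (ι j).2 ≠ (ι k).2 := fun h2 => hjk (hι (Prod.ext h1 h2))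
        rw [if_neg h2, mul_zero]
      · rw [if_neg h1, zero_mul]
  have posr : ∀ (a : Fin N) (b : Fin N'), e a a * e' b b = star (t a * t' b) * (t a * t' b) := by
    intro a b
    rw [star_mul]
    have : star (t' b) * star (t a) * (t a * t' b) = star (t' b) * (star (t a) * t a) * t' b := by
      noncomm_ring
    rw [this, ← h.pos a, mul_assoc, c3, ← mul_assoc, ← h'.pos b, c1]
  have hle : ∃ t'' : F, 1 - ∑ k : Fin M, e (ι k).1 (ι k).1 * e' (ι k).2 (ι k).2 = star t'' * t'' := by
    have e1 : ∑ x : Fin N × Fin N', e x.1 x.1 * e' x.2 x.2 = (∑ k, e k k) * (∑ k, e' k k) := by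
      rw [Fintype.sum_prod_type, Finset.sum_mul_sum]
    have e2 : ∑ k : Fin M, e (ι k).1 (ι k).1 * e' (ι k).2 (ι k).2
        = ∑ x ∈ Finset.univ.image ι, e x.1 x.1 * e' x.2 x.2 := by
      rw [Finset.sum_image (fun a _ b _ hab => hι hab)]
    have e3 := Finset.sum_compl_add_sum (Finset.univ.image ι)
      (fun x : Fin N × Fin N' => e x.1 x.1 * e' x.2 x.2)
    rw [e1] at e3
    have e4 : 1 - ∑ k : Fin M, e (ι k).1 (ι k).1 * e' (ι k).2 (ι k).2
        = ((1 - ∑ k, e k k) + ∑ k, e k k * (1 - ∑ k, e' k k))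
          + ∑ x ∈ (Finset.univ.image ι)ᶜ, e x.1 x.1 * e' x.2 x.2 := by
      rw [e2, ← Finset.sum_mul, eq_sub_of_add_eq' e3, mul_sub, mul_one]
      abel
    rw [e4]
    refine sq_add (sq_add ⟨s, h.le⟩ ?_) ?_
    · have : ∀ k, e k k * (1 - ∑ k, e' k k) = star (t k * s') * (t k * s') := by
        intro k
        rw [star_mul, h'.le]
        have : star s' * star (t k) * (t k * s') = star s' * (star (t k) * t k) * s' := by
          noncomm_ring
        rw [this, ← h.pos k]
        have c6 : star s' * e k k = e k k * star s' := by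
          have := congrArg star (c4 k k)
          rw [star_mul, star_mul, h.star_e] at this
          exact this
        rw [c6]; noncomm_ring
      simp only [this]
      exact sq_of_sum _ _
    · simp only [posr]
      exact sq_of_sum _ _
  obtain ⟨s'', hs''⟩ := hle
  refine ⟨s'', ?_, ?_, ?_, hs'', ?_, ?_⟩
  · intro i j
    rw [star_mul, h.star_e, h'.star_e, c1]
  · intro i j k l
    rw [mulr]
    split_ifs with hjk
    · have : (∑ k : Fin M, e (ι k).1 (ι k).1 * e' (ι k).2 (ι k).2) *
          (e (ι i).1 (ι l).1 * e' (ι i).2 (ι l).2)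
          = ((∑ k, e k k) * (∑ k, e' k k)) * (e (ι i).1 (ι l).1 * e' (ι i).2 (ι l).2) := by
        rw [Finset.sum_mul]
        simp only [mulr]
        simp
      rw [this]
    · rfl
  · intro k
    exact posr _ _
  · intro x
    rw [hk0]
    simp only
    have := c2 (finProdFinEquiv.symm x).1 i0' i0'
    calc e i0 i0 * e' i0' i0' * (σ (finProdFinEquiv.symm x).1 * σ' (finProdFinEquiv.symm x).2)
        = e i0 i0 * (e' i0' i0' * σ (finProdFinEquiv.symm x).1) * σ' (finProdFinEquiv.symm x).2 := by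
          noncomm_ring
      _ = (e i0 i0 * σ (finProdFinEquiv.symm x).1) * (e' i0' i0' * σ' (finProdFinEquiv.symm x).2) := by
          rw [← this]; noncomm_ring
      _ = _ := by rw [h.sig, h'.sig]
  · rw [← (finProdFinEquiv).sum_comp]
    simp only [Equiv.symm_apply_apply]
    rw [Fintype.sum_prod_type, Finset.sum_comm]
    have : ∀ b : Fin m', ∑ a : Fin m, star (σ a * σ' b) * (σ a * σ' b) = star (σ' b) * σ' b := by
      intro b
      have h1 : ∀ a, star (σ a * σ' b) * (σ a * σ' b) = star (σ' b) * (star (σ a) * σ a) * σ' b := by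
        intro a
        rw [star_mul]; noncomm_ring
      simp only [h1]
      rw [← Finset.sum_mul, ← Finset.mul_sum, h.sum, mul_one]
    simp only [this]
    exact h'.sum

/-- the index map `Fin (n+3) → Fin 2 × Fin (n+2)` -/
def idx (n : ℕ) : Fin (n + 1 + 1) → Fin (1 + 1) × Fin (n + 1) :=
  Fin.snoc (α := fun _ => Fin (1 + 1) × Fin (n + 1)) (fun i => (0, i)) (1, 0)

theorem idx_inj (n : ℕ) : Function.Injective (idx n) := by
  intro a b
  refine Fin.lastCases ?_ (fun a => ?_) a
  · refine Fin.lastCases (fun _ => rfl) (fun b => ?_) b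
    intro h
    simp [idx, Fin.snoc_last, Fin.snoc_castSucc] at h
  · refine Fin.lastCases ?_ (fun b => ?_) b
    · intro h
      simp [idx, Fin.snoc_last, Fin.snoc_castSucc] at h
    · intro h
      simp only [idx, Fin.snoc_castSucc, Prod.mk.injEq, true_and] at h
      rw [h]

theorem idx_zero (n : ℕ) : idx n 0 = (0, 0) := by
  have : (0 : Fin (n + 1 + 1)) = Fin.castSucc 0 := by simp
  rw [this, idx, Fin.snoc_castSucc]

theorem T_succ {F : Type u} [CStarAlgebra F] (hF : HasCopies F) (h1 : T 1 F) {n : ℕ}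
    (hn : T n F) : T (n + 1) F := by
  obtain ⟨m, e, σ, t, s, h⟩ := h1
  obtain ⟨m', e', σ', t', s', h'⟩ := hn
  obtain ⟨S, y₁, y₂, κ, hy₁, hy₂, hκ⟩ := hF.family₂
    (Sum.elim (Sum.elim (fun x : Fin (1 + 1) × Fin (1 + 1) => e x.1 x.2) σ)
      (Sum.elim t (fun _ : Unit => s)))
    (Sum.elim (Sum.elim (fun x : Fin (n + 1) × Fin (n + 1) => e' x.1 x.2) σ')
      (Sum.elim t' (fun _ : Unit => s'))) 2
  have hS : Function.Injective (StarSubalgebra.subtype S) := Subtype.val_injective
  have d1 : D S (1 + 1) (m + 1) (fun i j => y₁ (Sum.inl (Sum.inl (i, j))))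
      (fun i => y₁ (Sum.inl (Sum.inr i))) 0 (fun k => y₁ (Sum.inr (Sum.inl k)))
      (y₁ (Sum.inr (Sum.inr ()))) := by
    refine D.of_map (StarSubalgebra.subtype S) hS ?_
    simp only [StarSubalgebra.subtype_apply, hy₁]
    exact h
  have d2 : D S (n + 1) (m' + 1) (fun i j => y₂ (Sum.inl (Sum.inl (i, j))))
      (fun i => y₂ (Sum.inl (Sum.inr i))) 0 (fun k => y₂ (Sum.inr (Sum.inl k)))
      (y₂ (Sum.inr (Sum.inr ()))) := by
    refine D.of_map (StarSubalgebra.subtype S) hS ?_
    simp only [StarSubalgebra.subtype_apply, hy₂]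
    exact h'
  have k1 := d1.map (κ 0)
  have k2 := d2.map (κ 1)
  have hc : ∀ a b, κ 0 a * κ 1 b = κ 1 b * κ 0 a := hκ 0 1 (by decide)
  obtain ⟨s'', hD⟩ := D.tensor k1 k2 (fun _ _ _ _ => hc _ _) (fun _ _ _ => hc _ _)
    (fun _ _ _ => hc _ _) (fun _ _ => hc _ _) (idx n) (idx_inj n) 0 (idx_zero n)
  have hm : (m + 1) * (m' + 1) = ((m + 1) * m' + m) + 1 := by ring
  rw [T]
  refine ⟨(m + 1) * m' + m, ?_⟩
  rw [← hm]
  exact ⟨_, _, _, _, hD⟩

theorem Q1_of_T {F : Type u} [CStarAlgebra F] {n : ℕ} (h : T (n + 1) F) : ∃ m, Q1 n (m + 1) F := by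
  obtain ⟨m, e, σ, t, s, h⟩ := h
  set p : Matrix (Fin (n + 2)) (Fin (n + 2)) ℂ →ₗ[ℂ] F :=
    { toFun := fun a => ∑ i, ∑ j, a i j • e i j
      map_add' := by
        intro a b
        simp only [Matrix.add_apply, add_smul, Finset.sum_add_distrib]
      map_smul' := by
        intro c a
        simp only [Matrix.smul_apply, smul_assoc, Finset.smul_sum, RingHom.id_apply] } with hp
  have hpa : ∀ a, p a = ∑ i, ∑ j, a i j • e i j := fun a => rfl
  have hsingle : ∀ i j, p (Matrix.single i j 1) = e i j := by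
    intro i j
    rw [hpa]
    rw [Finset.sum_eq_single i, Finset.sum_eq_single j]
    · simp
    · intro b _ hb
      rw [Matrix.single_apply, if_neg (fun hh => hb hh.2.symm), zero_smul]
    · simp
    · intro b _ hb
      refine Finset.sum_eq_zero fun k _ => ?_
      rw [Matrix.single_apply, if_neg (fun hh => hb hh.1.symm), zero_smul]
    · simp
  have hone : p 1 = ∑ k, e k k := by
    rw [hpa]
    refine Finset.sum_congr rfl fun i _ => ?_
    simp [Matrix.one_apply]
  refine ⟨m, p, ⟨?_, ?_, ?_, ?_⟩, σ, ?_, h.sum⟩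
  · intro a
    rw [hpa, hpa, star_sum, Finset.sum_comm]
    refine Finset.sum_congr rfl fun i _ => ?_
    rw [star_sum]
    refine Finset.sum_congr rfl fun j _ => ?_
    rw [star_smul, h.star_e, Matrix.star_apply]
  · intro a b
    rw [hone, hpa a, hpa b, hpa (a * b)]
    have hl : (∑ i, ∑ j, a i j • e i j) * (∑ k, ∑ l, b k l • e k l)
        = ∑ i, ∑ l, (a * b) i l • ((∑ k, e k k) * e i l) := by
      rw [Finset.sum_mul]
      refine Finset.sum_congr rfl fun i _ => ?_
      rw [Finset.sum_mul]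
      have h1 : ∀ j, (a i j • e i j) * (∑ k, ∑ l, b k l • e k l)
          = ∑ l, (a i j * b j l) • ((∑ k, e k k) * e i l) := by
        intro j
        rw [Finset.mul_sum, Finset.sum_eq_single j]
        · rw [Finset.mul_sum]
          refine Finset.sum_congr rfl fun l _ => ?_
          rw [smul_mul_smul_comm, h.mul_e, if_pos rfl]
        · intro k _ hk
          rw [Finset.mul_sum]
          refine Finset.sum_eq_zero fun l _ => ?_
          rw [smul_mul_smul_comm, h.mul_e, if_neg (Ne.symm hk), smul_zero]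
        · simp
      simp only [h1]
      rw [Finset.sum_comm]
      refine Finset.sum_congr rfl fun l _ => ?_
      rw [← Finset.sum_smul, Matrix.mul_apply]
    rw [hl, Finset.mul_sum]
    refine Finset.sum_congr rfl fun i _ => ?_
    rw [Finset.mul_sum]
    refine Finset.sum_congr rfl fun l _ => ?_
    rw [mul_smul_comm]
  · rw [hone]
    simp only [h.pos]
    exact sq_of_sum _ _
  · rw [hone]
    exact ⟨s, h.le⟩
  · intro i
    rw [hsingle]
    exact h.sig i

end TENS

/-- **module TENS** -/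
theorem tens : S_TENS.{u} := by
  intro F _ hF h0 n
  have h1 := TENS.T_of_Q1 h0
  have h : ∀ n, TENS.T (n + 1) F := by
    intro n
    induction n with
    | zero => exact h1
    | succ n ih => exact TENS.T_succ hF h1 ih
  exact TENS.Q1_of_T (h n)

end Vale.Agent.P101
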