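import Vale.Agent.P101.Slem
import Vale.Agent.P101.Far
import Vale.Agent.P101.PairB
import Vale.Agent.P101.Sel
import Vale.Agent.P101.Base
import Vale.Agent.P101.Tens
import Vale.Agent.P101.Q1Q
import Vale.Agent.P101.Join
import Vale.Agent.P101.QRW
import Vale.Agent.P101.Copies
import Vale.Agent.P101.Char
import Vale.Agent.P101.UltB
import Vale.Agent.P101.Conv

namespace Vale.Agent.P101

universe u

/-- transport of self-adjoint/positivity data of an order zero map along a star-homomorphism -/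
theorem RW.map {F G : Type*} [Ring F] [StarRing F] [Algebra ℂ F] [Ring G] [StarRing G]
    [Algebra ℂ G] (φ : F →⋆ₐ[ℂ] G) {n : ℕ} (h : RW n F) : RW n G := by
  obtain ⟨p, hp, s, hs, hs1⟩ := h
  refine ⟨(φ : F →ₗ[ℂ] G).comp p, ?_, φ s, ?_, ?_⟩
  · constructor
    · intro a
      change φ (p (star a)) = star (φ (p a))
      rw [hp.star_map, map_star]
    · intro a b
      change φ (p a) * φ (p b) = φ (p 1) * φ (p (a * b))
      rw [← map_mul φ, ← map_mul φ, hp.mul_map a b]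
    · obtain ⟨t, ht⟩ := hp.nonneg
      exact ⟨φ t, by change φ (p 1) = _; rw [ht, map_mul, map_star]⟩
    · obtain ⟨t, ht⟩ := hp.le_one
      exact ⟨φ t, by change 1 - φ (p 1) = _; rw [← map_one φ, ← map_sub, ht, map_mul, map_star]⟩
  · change φ (p (Matrix.single 0 0 1)) * φ s = φ s
    rw [← map_mul, hs]
  · change star (φ s) * φ s = 1 - φ (p 1)
    rw [← map_star, ← map_mul, hs1, map_sub, map_one]

/-- the abstract theorem: a unital C*-algebra which contains commuting copies of its separable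
subalgebras and has no characters admits the Rørdam–Winter relations for all `n` -/
theorem abstract (F : Type u) [CStarAlgebra F] (hS : SelfComm F)
    (hχ : IsEmpty (F →⋆ₐ[ℂ] ℂ)) (n : ℕ) : RW n F := by
  have hC : HasCopies F := copies F hS
  have hNC : NC 1 F := by
    obtain ⟨r, hr⟩ := char F hχ
    clear hχ
    induction r with
    | zero => exact hr
    | succ r ih => exact ih (slem F hC r hr)
  have hQ1 := tens F hC (base F (sel F hC (pairb F hC (far F hNC)))) n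
  obtain ⟨m, hm⟩ := hQ1
  have hQ : Q n (m + 1) F := q1q F n (m + 1) hm
  clear hm
  have h1 : Q n 1 F := by
    induction m with
    | zero => exact hQ
    | succ m ih => exact ih (join F hC n m hQ)
  exact qrw F n h1

theorem final_RW (A : Type u) [CStarAlgebra A]
    [TopologicalSpace.SeparableSpace A] (ω : Ultrafilter ℕ) (hω : (ω : Filter ℕ) ≤ Filter.cofinite) :
    IsEmpty (CentralSeq ω A →⋆ₐ[ℂ] ℂ) ↔ ∀ n, RW n (CentralSeq ω A) := by
  refine ⟨fun hχ n => ?_, fun h => rw_noChar 0 (h 0)⟩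
  obtain ⟨F, _, ⟨e⟩, hS⟩ := ult A ω hω
  have hF : IsEmpty (F →⋆ₐ[ℂ] ℂ) :=
    ⟨fun χ => hχ.false (χ.comp ((e.symm : CentralSeq ω A ≃⋆ₐ[ℂ] F) : CentralSeq ω A →⋆ₐ[ℂ] F))⟩
  exact (abstract F hS hF n).map (e : F →⋆ₐ[ℂ] CentralSeq ω A)

theorem final_DIM (hDIM : S_DIM.{u}) (A : Type u) [CStarAlgebra A]
    [TopologicalSpace.SeparableSpace A] (ω : Ultrafilter ℕ) (hω : (ω : Filter ℕ) ≤ Filter.cofinite) :
    IsEmpty (CentralSeq ω A →⋆ₐ[ℂ] ℂ) ↔
      ∀ n, Nonempty (DimDrop (n + 2) (n + 3) →⋆ₐ[ℂ] CentralSeq ω A) := by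
  refine ⟨fun hχ n => ?_, fun h => ⟨fun χ =>
    (dimDrop_noChar 0 1).false (χ.comp (h 0).some)⟩⟩
  obtain ⟨F, _, ⟨e⟩, hS⟩ := ult A ω hω
  have hF : IsEmpty (F →⋆ₐ[ℂ] ℂ) :=
    ⟨fun χ => hχ.false (χ.comp ((e.symm : CentralSeq ω A ≃⋆ₐ[ℂ] F) : CentralSeq ω A →⋆ₐ[ℂ] F))⟩
  obtain ⟨ρ⟩ := hDIM F n (abstract F hS hF n)
  exact ⟨(e : F →⋆ₐ[ℂ] CentralSeq ω A).comp ρ⟩

end Vale.Agent.P101
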