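import Vale.Agent.P101.Util

namespace Vale.Agent.P101

universe u

/-- the two-sided ideal generated by a set, as explicit finite sums -/
def genIdeal {R : Type*} [Ring R] (s : Set R) : TwoSidedIdeal R :=
  TwoSidedIdeal.mk' {x | ∃ (n : ℕ) (t c d : Fin n → R), (∀ j, t j ∈ s) ∧
      ∑ j, c j * t j * d j = x}
    ⟨0, Fin.elim0, Fin.elim0, Fin.elim0, fun j => j.elim0, by simp⟩
    (by
      rintro x y ⟨n, t, c, d, ht, rfl⟩ ⟨n', t', c', d', ht', rfl⟩
      refine ⟨n + n', Fin.append t t', Fin.append c c', Fin.append d d', ?_, ?_⟩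
      · intro j
        refine Fin.addCases (fun i => ?_) (fun i => ?_) j
        · rw [Fin.append_left]; exact ht i
        · rw [Fin.append_right]; exact ht' i
      · rw [Fin.sum_univ_add]
        simp)
    (by
      rintro x ⟨n, t, c, d, ht, rfl⟩
      refine ⟨n, t, fun j => - c j, d, ht, ?_⟩
      simp)
    (by
      rintro x y ⟨n, t, c, d, ht, rfl⟩
      refine ⟨n, t, fun j => x * c j, d, ht, ?_⟩
      rw [Finset.mul_sum]
      simp only [mul_assoc])
    (by
      rintro x y ⟨n, t, c, d, ht, rfl⟩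
      refine ⟨n, t, c, fun j => d j * y, ht, ?_⟩
      rw [Finset.sum_mul]
      simp only [mul_assoc])

theorem mem_genIdeal {R : Type*} [Ring R] (s : Set R) (x : R) :
    x ∈ genIdeal s ↔ ∃ (n : ℕ) (t c d : Fin n → R), (∀ j, t j ∈ s) ∧
      ∑ j, c j * t j * d j = x := by
  unfold genIdeal
  rw [TwoSidedIdeal.mem_mk']
  rfl

theorem subset_genIdeal {R : Type*} [Ring R] (s : Set R) {x : R} (hx : x ∈ s) :
    x ∈ genIdeal s := by
  rw [mem_genIdeal]
  exact ⟨1, fun _ => x, fun _ => 1, fun _ => 1, fun _ => hx, by simp⟩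

theorem slem_key {R D : Type*} [Ring R] [Ring D] (φ ψ : D →+* R)
    (hc : ∀ x y, φ x * ψ y = ψ y * φ x) {r : ℕ} (a : Fin (r + 2) → D) {n : ℕ}
    (idx : Fin n → Fin (r + 2)) (b c d : Fin n → D)
    (h1 : ∑ j, c j * (a (idx j) * b j - b j * a (idx j)) * d j = 1) (A : Fin (r + 1) → R)
    (hA0 : A 0 = φ (a 0) + ψ (a 0) + φ (a 1) * ψ (a 1))
    (hA : ∀ j : Fin r, A j.succ = φ (a j.succ.succ) + ψ (a j.succ.succ))
    (P : TwoSidedIdeal R) (hP : ∀ i x, A i * x - x * A i ∈ P) (y u v : D) :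
    ψ (u * (a 1 * y - y * a 1) * v) ∈ P := by
  -- the generators a_{j+2}
  have e1 : ∀ (j : Fin r) (x : D), φ (a j.succ.succ * x - x * a j.succ.succ) ∈ P := by
    intro j x
    have := hP j.succ (φ x)
    rw [hA] at this
    have h2 : (φ (a j.succ.succ) + ψ (a j.succ.succ)) * φ x
        - φ x * (φ (a j.succ.succ) + ψ (a j.succ.succ))
        = φ (a j.succ.succ * x - x * a j.succ.succ) := by
      rw [map_sub, map_mul, map_mul, add_mul, mul_add, ← hc]
      noncomm_ring
    rwa [h2] at this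
  have e2 : ∀ x : D, φ (a 0 * x - x * a 0) + φ (a 1 * x - x * a 1) * ψ (a 1) ∈ P := by
    intro x
    have := hP 0 (φ x)
    rw [hA0] at this
    have h2 : (φ (a 0) + ψ (a 0) + φ (a 1) * ψ (a 1)) * φ x
        - φ x * (φ (a 0) + ψ (a 0) + φ (a 1) * ψ (a 1))
        = φ (a 0 * x - x * a 0) + φ (a 1 * x - x * a 1) * ψ (a 1) := by
      simp only [map_sub, map_mul, add_mul, mul_add, sub_mul, mul_assoc]
      rw [← hc x (a 0), ← hc x (a 1)]
      noncomm_ring
    rwa [h2] at this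
  have e3 : ∀ x y : D, φ (a 1 * x - x * a 1) * ψ (a 1 * y - y * a 1) ∈ P := by
    intro x y
    have h := e2 x
    have h2 := P.sub_mem (P.mul_mem_right _ (ψ y) h) (P.mul_mem_left (ψ y) _ h)
    have h3 : (φ (a 0 * x - x * a 0) + φ (a 1 * x - x * a 1) * ψ (a 1)) * ψ y
        - ψ y * (φ (a 0 * x - x * a 0) + φ (a 1 * x - x * a 1) * ψ (a 1))
        = φ (a 1 * x - x * a 1) * ψ (a 1 * y - y * a 1) := by
      rw [mul_add, ← mul_assoc (ψ y), ← hc (a 0 * x - x * a 0) y, ← hc (a 1 * x - x * a 1) y,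
        map_sub ψ, map_mul, map_mul]
      noncomm_ring
    rwa [h3] at h2
  have e3b : ∀ x u y v : D,
      φ (a 1 * x - x * a 1) * ψ (u * (a 1 * y - y * a 1) * v) ∈ P := by
    intro x u y v
    have h := P.mul_mem_right _ (ψ v) (P.mul_mem_left (ψ u) _ (e3 x y))
    have h2 : ψ u * (φ (a 1 * x - x * a 1) * ψ (a 1 * y - y * a 1)) * ψ v
        = φ (a 1 * x - x * a 1) * ψ (u * (a 1 * y - y * a 1) * v) := by
      rw [← mul_assoc (ψ u), ← hc, map_mul, map_mul]
      noncomm_ring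
    rwa [h2] at h
  have e4 : ∀ x : D, φ (a 0 * x - x * a 0) * ψ (u * (a 1 * y - y * a 1) * v) ∈ P := by
    intro x
    have h := P.mul_mem_right _ (ψ (u * (a 1 * y - y * a 1) * v)) (e2 x)
    have h2 := e3b x (a 1 * u) y v
    have h3 := P.sub_mem h h2
    have h4 : (φ (a 0 * x - x * a 0) + φ (a 1 * x - x * a 1) * ψ (a 1)) *
        ψ (u * (a 1 * y - y * a 1) * v)
        - φ (a 1 * x - x * a 1) * ψ (a 1 * u * (a 1 * y - y * a 1) * v)
        = φ (a 0 * x - x * a 0) * ψ (u * (a 1 * y - y * a 1) * v) := by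
      have h5 : ψ (a 1 * u * (a 1 * y - y * a 1) * v)
          = ψ (a 1) * ψ (u * (a 1 * y - y * a 1) * v) := by
        rw [← map_mul]; congr 1; noncomm_ring
      rw [h5]
      noncomm_ring
    rwa [h4] at h3
  set k : D := u * (a 1 * y - y * a 1) * v with hk
  have h5 : ψ k = ∑ j, φ (c j) * (φ (a (idx j) * b j - b j * a (idx j)) * ψ k) * φ (d j) := by
    have h6 : φ (∑ j, c j * (a (idx j) * b j - b j * a (idx j)) * d j) * ψ k = ψ k := by
      rw [h1, map_one, one_mul]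
    refine h6.symm.trans ?_
    rw [map_sum, Finset.sum_mul]
    refine Finset.sum_congr rfl fun j _ => ?_
    rw [map_mul, map_mul, mul_assoc _ (φ (d j)), hc (d j) k]
    noncomm_ring
  rw [h5]
  refine sum_mem fun j _ => ?_
  refine P.mul_mem_right _ _ (P.mul_mem_left _ _ ?_)
  generalize idx j = i
  refine Fin.cases ?_ (fun i => ?_) i
  · exact e4 (b j)
  · refine Fin.cases ?_ (fun i => ?_) i
    · exact e3b (b j) u y v
    · exact P.mul_mem_right _ _ (e1 i (b j))

theorem slem : S_SLEM.{u} := by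
  intro F _ hF r hNC
  obtain ⟨a, hsa, n, idx, b, c, d, h1⟩ := hNC
  obtain ⟨S, z, κ, hz, hκ⟩ := hF.family
    (Sum.elim (Sum.elim a b) (Sum.elim c d)) 2
  set a' : Fin (r + 2) → S := fun i => z (Sum.inl (Sum.inl i)) with ha'
  set b' : Fin n → S := fun i => z (Sum.inl (Sum.inr i)) with hb'
  set c' : Fin n → S := fun i => z (Sum.inr (Sum.inl i)) with hc'
  set d' : Fin n → S := fun i => z (Sum.inr (Sum.inr i)) with hd'
  have haa : ∀ i, (a' i : F) = a i := fun i => hz _
  have hbb : ∀ i, (b' i : F) = b i := fun i => hz _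
  have hcc : ∀ i, (c' i : F) = c i := fun i => hz _
  have hdd : ∀ i, (d' i : F) = d i := fun i => hz _
  have h1' : ∑ j, c' j * (a' (idx j) * b' j - b' j * a' (idx j)) * d' j = 1 := by
    apply Subtype.ext
    push_cast
    simp only [haa, hbb, hcc, hdd]
    exact h1
  have hsa' : ∀ i, star (a' i) = a' i := by
    intro i
    apply Subtype.ext
    change star (a' i : F) = (a' i : F)
    rw [haa]
    exact hsa i
  have hcomm : ∀ x y, κ 0 x * κ 1 y = κ 1 y * κ 0 x := hκ 0 1 (by decide)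
  set A : Fin (r + 1) → F := Fin.cons (κ 0 (a' 0) + κ 1 (a' 0) + κ 0 (a' 1) * κ 1 (a' 1))
    (fun j : Fin r => κ 0 (a' j.succ.succ) + κ 1 (a' j.succ.succ)) with hA
  have hA0 : A 0 = κ 0 (a' 0) + κ 1 (a' 0) + κ 0 (a' 1) * κ 1 (a' 1) := rfl
  have hAs : ∀ j : Fin r, A j.succ = κ 0 (a' j.succ.succ) + κ 1 (a' j.succ.succ) := fun j => rfl
  set P : TwoSidedIdeal F := genIdeal {y | ∃ i x, y = A i * x - x * A i} with hP
  have hPm : ∀ i x, A i * x - x * A i ∈ P := fun i x => subset_genIdeal _ ⟨i, x, rfl⟩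
  -- the two symmetric applications
  have k1 : ∀ y u v : S, κ 1 (u * (a' 1 * y - y * a' 1) * v) ∈ P := fun y u v =>
    slem_key ((κ 0 : S →⋆ₐ[ℂ] F) : S →+* F) ((κ 1 : S →⋆ₐ[ℂ] F) : S →+* F) hcomm a' idx b' c' d'
      h1' A hA0 hAs P hPm y u v
  have k0 : ∀ y u v : S, κ 0 (u * (a' 1 * y - y * a' 1) * v) ∈ P := fun y u v =>
    slem_key ((κ 1 : S →⋆ₐ[ℂ] F) : S →+* F) ((κ 0 : S →⋆ₐ[ℂ] F) : S →+* F)
      (fun x y => (hcomm y x).symm) a' idx b' c' d'
      h1' A (by
        change A 0 = κ 1 (a' 0) + κ 0 (a' 0) + κ 1 (a' 1) * κ 0 (a' 1)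
        rw [hA0, hcomm (a' 1) (a' 1), add_comm (κ 0 (a' 0))])
      (fun j => by
        change A j.succ = κ 1 (a' j.succ.succ) + κ 0 (a' j.succ.succ)
        rw [hAs, add_comm]) P hPm y u v
  have hone : (1 : F) ∈ P := by
    have h2 : (1 : F) = ∑ j, κ 0 (c' j) * κ 0 (a' (idx j) * b' j - b' j * a' (idx j)) *
        κ 0 (d' j) := by
      rw [← map_one (κ 0), ← h1', map_sum]
      simp only [map_mul]
    rw [h2]
    refine sum_mem fun j _ => ?_
    refine P.mul_mem_right _ _ (P.mul_mem_left _ _ ?_)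
    generalize idx j = i
    refine Fin.cases ?_ (fun i => ?_) i
    · have e1 := hPm 0 (κ 0 (b' j))
      have e2 := P.mul_mem_right _ (κ 1 (a' 1)) (k0 (b' j) 1 1)
      have e3 := P.sub_mem e1 e2
      have e4 : A 0 * κ 0 (b' j) - κ 0 (b' j) * A 0
          - κ 0 (1 * (a' 1 * b' j - b' j * a' 1) * 1) * κ 1 (a' 1)
          = κ 0 (a' 0 * b' j - b' j * a' 0) := by
        rw [hA0, one_mul, mul_one]
        simp only [map_sub, map_mul, add_mul, mul_add, sub_mul, mul_assoc]
        rw [← hcomm (b' j) (a' 0), ← hcomm (b' j) (a' 1)]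
        noncomm_ring
      rwa [e4] at e3
    · refine Fin.cases ?_ (fun i => ?_) i
      · have := k0 (b' j) 1 1
        rwa [one_mul, mul_one] at this
      · have := hPm i.succ (κ 0 (b' j))
        rw [hAs] at this
        have h2 : (κ 0 (a' i.succ.succ) + κ 1 (a' i.succ.succ)) * κ 0 (b' j)
            - κ 0 (b' j) * (κ 0 (a' i.succ.succ) + κ 1 (a' i.succ.succ))
            = κ 0 (a' i.succ.succ * b' j - b' j * a' i.succ.succ) := by
          rw [map_sub, map_mul, map_mul, add_mul, mul_add, ← hcomm]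
          noncomm_ring
        rwa [h2] at this
  refine ⟨A, ?_, ?_⟩
  · intro i
    refine Fin.cases ?_ (fun j => ?_) i
    · rw [hA0]
      unfold IsSelfAdjoint
      rw [star_add, star_add, star_mul, ← map_star, ← map_star, ← map_star, ← map_star, hsa' 0,
        hsa' 1, hcomm]
    · rw [hAs]
      unfold IsSelfAdjoint
      rw [star_add, ← map_star, ← map_star, hsa']
  · obtain ⟨n', t, cc, dd, ht, hsum⟩ := (mem_genIdeal _ _).mp hone
    choose i x hix using ht
    refine ⟨n', i, x, cc, dd, ?_⟩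
    rw [← hsum]
    refine Finset.sum_congr rfl fun j _ => ?_
    rw [hix]

end Vale.Agent.P101
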