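import Vale.Agent.P101.Defs

/-!
# P101, module ULTA: the C*-algebra structure of the central sequence algebra
-/

open Filter Topology BoundedContinuousFunction

namespace Vale.Agent.P101

universe u

namespace UltA

variable (ω : Ultrafilter ℕ) {A : Type u} [CStarAlgebra A]

/-- the class of a sequence -/
abbrev cl (a : ℕ →ᵇ A) : Ultrapower ω A := RingCon.toQuotient a

lemma cl_eq {a b : ℕ →ᵇ A} : cl ω a = cl ω b ↔ Tendsto (fun n => ‖a n - b n‖) ω (𝓝 0) :=
  RingCon.eq (ultraCon ω A)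

lemma cl_add (a b : ℕ →ᵇ A) : cl ω (a + b) = cl ω a + cl ω b := rfl
lemma cl_mul (a b : ℕ →ᵇ A) : cl ω (a * b) = cl ω a * cl ω b := rfl
lemma cl_neg (a : ℕ →ᵇ A) : cl ω (-a) = -cl ω a := rfl
lemma cl_sub (a b : ℕ →ᵇ A) : cl ω (a - b) = cl ω a - cl ω b := rfl
lemma cl_one : cl ω (1 : ℕ →ᵇ A) = 1 := rfl
lemma cl_zero : cl ω (0 : ℕ →ᵇ A) = 0 := rfl
lemma cl_star (a : ℕ →ᵇ A) : cl ω (star a) = star (cl ω a) := rfl
lemma cl_smul (c : ℂ) (a : ℕ →ᵇ A) : cl ω (c • a) = c • cl ω a := rfl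

lemma exists_lim (a : ℕ →ᵇ A) : ∃ L : ℝ, Tendsto (fun n => ‖a n‖) ω (𝓝 L) := by
  have h := (isCompact_Icc (a := (0 : ℝ)) (b := ‖a‖)).ultrafilter_le_nhds
    (ω.map fun n => ‖a n‖) (by
      rw [le_principal_iff]
      refine Filter.mem_map.2 (Filter.univ_mem' fun n => ?_)
      exact ⟨norm_nonneg _, a.norm_coe_le_norm n⟩)
  obtain ⟨L, _, hL⟩ := h
  exact ⟨L, hL⟩

/-- the limit of the norms -/
noncomputable def nrm (x : Ultrapower ω A) : ℝ :=
  (exists_lim ω (mk_surj ω A x).choose).choose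

lemma tendsto_nrm {a : ℕ →ᵇ A} {x : Ultrapower ω A} (h : cl ω a = x) :
    Tendsto (fun n => ‖a n‖) ω (𝓝 (nrm ω x)) := by
  have h1 := (exists_lim ω (mk_surj ω A x).choose).choose_spec
  have h2 : cl ω (mk_surj ω A x).choose = x := (mk_surj ω A x).choose_spec
  have h3 := (cl_eq ω).1 (h.trans h2.symm)
  have h4 : Tendsto (fun n => ‖a n‖ - ‖(mk_surj ω A x).choose n‖) ω (𝓝 0) := by
    rw [← tendsto_zero_iff_norm_tendsto_zero] at h3
    refine squeeze_zero_norm (fun n => ?_) ((cl_eq ω).1 (h.trans h2.symm))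
    exact abs_norm_sub_norm_le _ _
  have h5 := h4.add h1
  simpa [nrm] using h5

lemma nrm_unique {a : ℕ →ᵇ A} {L : ℝ} (h : Tendsto (fun n => ‖a n‖) ω (𝓝 L)) :
    nrm ω (cl ω a) = L :=
  tendsto_nhds_unique (tendsto_nrm ω rfl) h

lemma nrm_nonneg (x : Ultrapower ω A) : 0 ≤ nrm ω x := by
  obtain ⟨a, rfl⟩ := mk_surj ω A x
  exact ge_of_tendsto' (tendsto_nrm ω rfl) fun n => norm_nonneg _

lemma nrm_zero : nrm ω (0 : Ultrapower ω A) = 0 := by
  rw [← cl_zero]
  apply nrm_unique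
  simp

lemma nrm_neg (x : Ultrapower ω A) : nrm ω (-x) = nrm ω x := by
  obtain ⟨a, rfl⟩ := mk_surj ω A x
  rw [← cl_neg]
  apply nrm_unique
  simpa using tendsto_nrm ω (a := a) rfl

lemma nrm_add_le (x y : Ultrapower ω A) : nrm ω (x + y) ≤ nrm ω x + nrm ω y := by
  obtain ⟨a, rfl⟩ := mk_surj ω A x
  obtain ⟨b, rfl⟩ := mk_surj ω A y
  refine le_of_tendsto_of_tendsto' (tendsto_nrm ω (a := a + b) rfl)
    ((tendsto_nrm ω (a := a) rfl).add (tendsto_nrm ω (a := b) rfl)) fun n => ?_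
  exact norm_add_le _ _

lemma nrm_mul_le (x y : Ultrapower ω A) : nrm ω (x * y) ≤ nrm ω x * nrm ω y := by
  obtain ⟨a, rfl⟩ := mk_surj ω A x
  obtain ⟨b, rfl⟩ := mk_surj ω A y
  refine le_of_tendsto_of_tendsto' (tendsto_nrm ω (a := a * b) rfl)
    ((tendsto_nrm ω (a := a) rfl).mul (tendsto_nrm ω (a := b) rfl)) fun n => ?_
  exact norm_mul_le _ _

lemma nrm_star_mul (x : Ultrapower ω A) : nrm ω (star x * x) = nrm ω x * nrm ω x := by
  obtain ⟨a, rfl⟩ := mk_surj ω A x
  apply nrm_unique (a := star a * a)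
  refine ((tendsto_nrm ω (a := a) rfl).mul (tendsto_nrm ω (a := a) rfl)).congr fun n => ?_
  exact (CStarRing.norm_star_mul_self (x := a n)).symm

lemma nrm_smul (c : ℂ) (x : Ultrapower ω A) : nrm ω (c • x) = ‖c‖ * nrm ω x := by
  obtain ⟨a, rfl⟩ := mk_surj ω A x
  apply nrm_unique (a := c • a)
  refine ((tendsto_nrm ω (a := a) rfl).const_mul ‖c‖).congr fun n => ?_
  exact (norm_smul c (a n)).symm

lemma eq_zero_of_nrm {x : Ultrapower ω A} (h : nrm ω x = 0) : x = 0 := by
  obtain ⟨a, rfl⟩ := mk_surj ω A x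
  rw [← cl_zero]
  refine (cl_eq ω).2 ?_
  have := tendsto_nrm ω (a := a) rfl
  rw [h] at this
  simpa using this

lemma nrm_le (a : ℕ →ᵇ A) : nrm ω (cl ω a) ≤ ‖a‖ :=
  le_of_tendsto' (tendsto_nrm ω rfl) fun n => a.norm_coe_le_norm n

/-- lifting with control of the norm -/
lemma exists_lift (x : Ultrapower ω A) {c : ℝ} (hc : nrm ω x < c) :
    ∃ a : ℕ →ᵇ A, cl ω a = x ∧ ‖a‖ ≤ c := by
  classical
  obtain ⟨a, rfl⟩ := mk_surj ω A x
  have hc0 : 0 ≤ c := (nrm_nonneg ω _).trans hc.le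
  let b : ℕ → A := fun n => if ‖a n‖ ≤ c then a n else 0
  have hb : ∀ n, ‖b n‖ ≤ c := by
    intro n
    simp only [b]
    split_ifs with h
    · exact h
    · simpa using hc0
  let B : ℕ →ᵇ A := BoundedContinuousFunction.ofNormedAddCommGroupDiscrete b c hb
  refine ⟨B, ?_, BoundedContinuousFunction.norm_ofNormedAddCommGroup_le _ hc0 hb⟩
  refine (cl_eq ω).2 ?_
  have h1 : ∀ᶠ n in (ω : Filter ℕ), ‖a n‖ < c :=
    (tendsto_nrm ω (a := a) rfl).eventually (gt_mem_nhds hc)
  refine (tendsto_const_nhds (x := (0 : ℝ))).congr' ?_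
  filter_upwards [h1] with n hn
  have : B n = a n := by
    change b n = a n
    simp only [b, hn.le, if_true]
  rw [this]; simp

variable (A)

/-- the underlying type of the central sequence algebra -/
abbrev FF : Type u := CentralSeq ω A

variable {A}

lemma mem_central {x : Ultrapower ω A} : x ∈ CentralSeq ω A ↔
    ∀ c : A, constSeq ω c * x = x * constSeq ω c ∧
      star (constSeq ω c) * x = x * star (constSeq ω c) := by
  unfold CentralSeq
  rw [StarSubalgebra.mem_centralizer_iff]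
  simp only [Set.mem_range, forall_exists_index, forall_apply_eq_imp_iff]

lemma mem_central' {x : Ultrapower ω A} : x ∈ CentralSeq ω A ↔
    ∀ c : A, constSeq ω c * x = x * constSeq ω c := by
  rw [mem_central]
  constructor
  · intro h c; exact (h c).1
  · intro h c
    refine ⟨h c, ?_⟩
    have : star (constSeq ω c) = constSeq ω (star c) := rfl
    rw [this]
    exact h (star c)

/-- the ring norm -/
noncomputable def rn : RingNorm (FF ω A) where
  toFun x := nrm ω (x : Ultrapower ω A)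
  map_zero' := nrm_zero ω
  add_le' _ _ := nrm_add_le ω _ _
  neg' _ := nrm_neg ω _
  mul_le' _ _ := nrm_mul_le ω _ _
  eq_zero_of_map_eq_zero' _ hx := Subtype.ext (eq_zero_of_nrm ω hx)

/-- the normed ring structure -/
noncomputable abbrev nr : NormedRing (FF ω A) := (rn ω).toNormedRing

lemma cl_sum (a : ℕ → (ℕ →ᵇ A)) (n : ℕ) :
    cl ω (∑ k ∈ Finset.range n, a k) = ∑ k ∈ Finset.range n, cl ω (a k) :=
  map_sum (ultraCon ω A).mk' a _

lemma nrm_constSeq_le (c : A) : nrm ω (constSeq ω c) ≤ ‖c‖ := by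
  refine (nrm_le ω _).trans ?_
  exact (BoundedContinuousFunction.norm_const_le c)

lemma central_of_lim {s : ℕ → Ultrapower ω A} (hs : ∀ n, s n ∈ CentralSeq ω A)
    {y : Ultrapower ω A} (h : Tendsto (fun n => nrm ω (s n - y)) atTop (𝓝 0)) :
    y ∈ CentralSeq ω A := by
  rw [mem_central']
  intro c
  rw [← sub_eq_zero]
  apply eq_zero_of_nrm ω
  refine le_antisymm ?_ (nrm_nonneg ω _)
  have h2 : Tendsto (fun n => 2 * ‖c‖ * nrm ω (s n - y)) atTop (𝓝 0) := by
    simpa using h.const_mul (2 * ‖c‖)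
  refine ge_of_tendsto' h2 fun n => ?_
  have h3 : constSeq ω c * y - y * constSeq ω c
      = (s n - y) * constSeq ω c + -(constSeq ω c * (s n - y)) := by
    have h4 := (mem_central' ω).1 (hs n) c
    rw [sub_mul, mul_sub, h4]
    abel
  rw [h3]
  refine (nrm_add_le ω _ _).trans ?_
  rw [nrm_neg]
  have h5 := nrm_mul_le ω (s n - y) (constSeq ω c)
  have h6 := nrm_mul_le ω (constSeq ω c) (s n - y)
  have h7 := nrm_constSeq_le ω c
  have h8 := nrm_nonneg ω (s n - y)
  nlinarith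

theorem exists_limit (x : ℕ → FF ω A) (hx : Summable fun k => nrm ω (x k : Ultrapower ω A)) :
    ∃ y : FF ω A, Tendsto (fun n => nrm ω ((∑ k ∈ Finset.range n, (x k : Ultrapower ω A)) -
      (y : Ultrapower ω A))) atTop (𝓝 0) := by
  have h1 : ∀ k, ∃ a : ℕ →ᵇ A, cl ω a = (x k : Ultrapower ω A) ∧
      ‖a‖ ≤ nrm ω (x k : Ultrapower ω A) + (1 / 2) ^ k := fun k =>
    exists_lift ω _ (lt_add_of_pos_right _ (by positivity))
  choose a ha hn using h1
  have hs : Summable fun k => ‖a k‖ :=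
    Summable.of_nonneg_of_le (fun k => norm_nonneg _) hn
      (hx.add (summable_geometric_of_lt_one (by norm_num) (by norm_num)))
  have hs' : Summable a := hs.of_norm
  have h2 := hs'.hasSum.tendsto_sum_nat
  set b := ∑' k, a k with hb
  have h3 : ∀ n, nrm ω ((∑ k ∈ Finset.range n, (x k : Ultrapower ω A)) - cl ω b)
      ≤ ‖(∑ k ∈ Finset.range n, a k) - b‖ := by
    intro n
    have : (∑ k ∈ Finset.range n, (x k : Ultrapower ω A)) - cl ω b
        = cl ω ((∑ k ∈ Finset.range n, a k) - b) := by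
      rw [cl_sub, cl_sum]
      simp only [ha]
    rw [this]
    exact nrm_le ω _
  have h4 : Tendsto (fun n => nrm ω ((∑ k ∈ Finset.range n, (x k : Ultrapower ω A)) - cl ω b))
      atTop (𝓝 0) :=
    squeeze_zero (fun n => nrm_nonneg ω _) h3 (tendsto_iff_norm_sub_tendsto_zero.1 h2)
  have h5 : cl ω b ∈ CentralSeq ω A :=
    central_of_lim ω (fun n => sum_mem fun k _ => (x k).2) h4
  exact ⟨⟨cl ω b, h5⟩, h4⟩

theorem completeF : letI := nr ω (A := A); CompleteSpace (FF ω A) := by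
  let _ := nr ω (A := A)
  apply NormedAddCommGroup.completeSpace_of_summable_imp_tendsto
  intro u hu
  obtain ⟨y, hy⟩ := exists_limit ω u hu
  refine ⟨y, ?_⟩
  rw [tendsto_iff_norm_sub_tendsto_zero]
  refine hy.congr fun n => ?_
  change _ = nrm ω (((∑ i ∈ Finset.range n, u i) - y : FF ω A) : Ultrapower ω A)
  congr 1
  simp

/-- the C*-algebra structure -/
noncomputable abbrev cs : CStarAlgebra (FF ω A) :=
  letI := nr ω (A := A)
  { toNormedRing := nr ω
    toStarRing := inferInstance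
    complete := (completeF ω).complete
    norm_mul_self_le := fun x => (nrm_star_mul ω (x : Ultrapower ω A)).ge
    toAlgebra := inferInstance
    norm_smul_le := fun c x => (nrm_smul ω c (x : Ultrapower ω A)).le
    star_smul := fun c x => star_smul c x }

end UltA

end Vale.Agent.P101
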